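import Crest.Agent.R078T.Step

/-! Row 78, tracial stage: the iteration. -/

set_option autoImplicit false

open scoped InnerProductSpace ComplexConjugate

namespace Crest.Agent.R078T

open Crest.Agent.R121 (Mn Bd)

variable {H : Type*} [NormedAddCommGroup H] [InnerProductSpace ℂ H] [CompleteSpace H]
variable {B : Base H} {M N : VonNeumannAlgebra H}

/-- The invariant of the iteration. -/
def MainInv (B : Base H) (M N : VonNeumannAlgebra H) (d : ℝ) (k : ℕ) (W : H →L[ℂ] H) : Prop :=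
  ∃ h : B.Sym W, ‖W - 1‖ ≤ 4 * 10 ^ 7 * d * (1 - (1 / 2) ^ k) ∧
    B.Ep (conjVN W h.mem M) N (2 * d * (1 / 2) ^ k)

lemma main_step (hM : B.Good M) (hN : B.Good N) {d : ℝ} (hd : 0 < d) (hd1 : d ≤ 1 / 10 ^ 35)
    (hc : Close M N d) (hc' : Close N M d) (k : ℕ) (W : H →L[ℂ] H) (h : MainInv B M N d k W) :
    ∃ W', MainInv B M N d (k + 1) W' ∧ ‖W - W'‖ ≤ 2 * 10 ^ 7 * d * (1 / 2) ^ k := by
  obtain ⟨hW, h1, h2⟩ := h
  have p0 : (0 : ℝ) < (1 / 2) ^ k := by positivity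
  have p1 : (1 / 2 : ℝ) ^ k ≤ 1 := pow_le_one₀ (by norm_num) (by norm_num)
  have h3 : ‖W - 1‖ ≤ 4 * 10 ^ 7 * d := h1.trans (by nlinarith)
  have c1 : Close (conjVN W hW.mem M) N (10 ^ 8 * d) := (hc.conj_left hW.mem).mono (by linarith)
  have c2 : Close N (conjVN W hW.mem M) (10 ^ 8 * d) := (hc'.conj_right hW.mem).mono (by
    have : (1 + d) * ‖W - 1‖ ≤ (1 + 1 / 10) * (4 * 10 ^ 7 * d) :=
      mul_le_mul (by linarith [show (1 : ℝ) / 10 ^ 35 ≤ 1 / 10 by norm_num]) h3 (norm_nonneg _)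
        (by norm_num)
    linarith)
  obtain ⟨U, hU, h4, h5⟩ := step (hM.conj hW) hN (by positivity)
    (by linarith [show (10 : ℝ) ^ 8 * (1 / 10 ^ 35) = 1 / 10 ^ 27 by norm_num,
      mul_le_mul_of_nonneg_left hd1 (show (0 : ℝ) ≤ 10 ^ 8 by norm_num)]) c1 c2 h2 (by positivity)
    (by nlinarith)
  have h6 : ‖W - U * W‖ ≤ 2 * 10 ^ 7 * d * (1 / 2) ^ k := by
    rw [show W - U * W = -((U - 1) * W) by noncomm_ring, norm_neg,
      CStarRing.norm_mul_mem_unitary _ hW.mem]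
    linarith
  refine ⟨U * W, ⟨hU.mul hW, ?_, ?_⟩, h6⟩
  · have := norm_sub_le_norm_sub_add_norm_sub (U * W) W 1
    rw [norm_sub_rev (U * W) W] at this
    rw [pow_succ (1 / 2 : ℝ) k]
    linarith
  · rw [conjVN_mul] at h5
    refine h5.mono (le_of_eq ?_)
    rw [pow_succ (1 / 2 : ℝ) k]
    ring

/-- Build `W k` with `Sym (W k)`, `‖W k - 1‖ ≤ 4 · 10⁷ d (1 - 2⁻ᵏ)`,
`Ep (conjVN (W k) M) N (2 d / 2 ^ k)`, `‖W (k + 1) - W k‖ ≤ 2 · 10⁷ d / 2 ^ k` by `step` with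
`D = 10⁸ d`; the limit `W` satisfies the hypothesis of `eq_of_weak_zero`. -/
theorem tracial (hM : B.Good M) (hN : B.Good N) {d : ℝ} (hd : 0 < d) (hd1 : d ≤ 1 / 10 ^ 35)
    (hc : Close M N d) (hc' : Close N M d) :
    ∃ W, ∃ hW : W ∈ unitary (H →L[ℂ] H), ‖W - 1‖ ≤ 10 ^ 8 * d ∧ conjVN W hW M = N := by
  have h0 : MainInv B M N d 0 1 := ⟨Base.Sym.one, by simp, by
    rw [conjVN_one]
    simpa using ep_of_close hN hc⟩
  choose f hf using main_step hM hN hd hd1 hc hc'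
  let F : ∀ k, {W // MainInv B M N d k W} := fun k =>
    Nat.rec ⟨1, h0⟩ (fun k W => ⟨f k W.1 W.2, (hf k W.1 W.2).1⟩) k
  have hF : ∀ k, dist (F k).1 (F (k + 1)).1 ≤ 2 * 10 ^ 7 * d * (1 / 2) ^ k := fun k => by
    rw [dist_eq_norm]
    exact (hf k (F k).1 (F k).2).2
  obtain ⟨W, hW⟩ := cauchySeq_tendsto_of_complete
    (cauchySeq_of_le_geometric (1 / 2) _ (by norm_num) hF)
  have hS : B.Sym W := Base.Sym.of_tendsto (fun k => (F k).2.choose) hW
  have hp : Filter.Tendsto (fun k : ℕ => (1 / 2 : ℝ) ^ k) Filter.atTop (nhds 0) :=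
    tendsto_pow_atTop_nhds_zero_of_lt_one (by norm_num) (by norm_num)
  refine ⟨W, hS.mem, ?_, eq_of_weak_zero (hM.conj hS) hN fun x hx n hn m hm => ?_⟩
  · refine le_of_tendsto' (hW.sub_const 1).norm fun k => (F k).2.choose_spec.1.trans ?_
    have p0 : (0 : ℝ) < (1 / 2) ^ k := by positivity
    nlinarith
  · set x₀ := star W * x * W with hx₀
    have hx' : x₀ ∈ M := (mem_conjVN hS.mem).1 hx
    have e : W * x₀ * star W = x := by
      rw [hx₀, ← mul_assoc, ← mul_assoc, Unitary.mul_star_self_of_mem hS.mem, one_mul, mul_assoc,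
        Unitary.mul_star_self_of_mem hS.mem, mul_one]
    have cont : Continuous fun T : H →L[ℂ] H => ‖⟪m B.ξ, B.cm (T * x₀ * star T) n B.ξ⟫_ℂ‖ := by
      unfold Base.cm
      fun_prop
    have t1 := (cont.tendsto W).comp hW
    rw [e] at t1
    have t2 := hp.const_mul (2 * d * ‖x₀‖ * ‖n‖ * ‖m‖)
    rw [mul_zero] at t2
    refine norm_le_zero_iff.1 (le_of_tendsto_of_tendsto' t1 t2 fun k => ?_)
    obtain ⟨hk, -, h2⟩ := (F k).2
    refine (h2 _ (conj_mem_conjVN hk.mem hx') n hn m hm _ B.ξ_mem_V _ B.ξ_mem_V).trans_eq ?_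
    rw [CStarRing.norm_mul_mem_unitary _ (Unitary.star_mem hk.mem),
      CStarRing.norm_mem_unitary_mul _ hk.mem, B.norm_ξ]
    ring

end Crest.Agent.R078T
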