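import Crest.Agent.R078T.KL

/-! Row 78, tracial stage: the `L²` defect of unitary lifts. -/

set_option autoImplicit false

open scoped InnerProductSpace ComplexConjugate

namespace Crest.Agent.R078T

open Crest.Agent.R121 (Mn Bd)

variable {H : Type*} [NormedAddCommGroup H] [InnerProductSpace ℂ H] [CompleteSpace H]
variable {B : Base H} {M N : VonNeumannAlgebra H}
variable {D ω e : ℝ}

omit [CompleteSpace H] in
theorem Acc_expand (E P Q : H) :
    2 * (⟪E, P⟫_ℂ + ⟪E, Q⟫_ℂ - ⟪Q, P⟫_ℂ).re ≤ ‖E‖ ^ 2 + ‖P‖ ^ 2 + ‖Q‖ ^ 2 := by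
  have h1 := norm_sub_sq (𝕜 := ℂ) E (Q + P)
  have h2 := norm_add_sq (𝕜 := ℂ) Q P
  have h3 := sq_nonneg ‖E - (Q + P)‖
  rw [inner_add_right] at h1
  simp only [RCLike.re_to_complex, Complex.add_re, Complex.sub_re] at h1 h2 ⊢
  linarith

/-- Bessel. Let `f = (u - u') w`, `E g = (u g u - u' g u') w`, `P g = u' g f`,
`Q g = R u' (R g f)`. Then `⟪u g u w, P g⟫ = ⟪u (g (u w)), u' (g f)⟫`,
`⟪u' g u' w, P g⟫ = ⟪u' w, f⟫`, so by `kl` the mean of `⟪E g, P g⟫` is `‖f‖²` up to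
`κ ‖w‖ ‖f‖`, `κ = 10⁴ · 101 e`; likewise for `Q` by `kr` (`u g u w = R u (R g (u w))`).
`⟪Q g, P g⟫ = ⟪u'⋆ f, (R g)⋆ g ((R u')⋆ f)⟫` (`u'`, `g` commute with `R u'`, `R g`) has mean at
most `100 e ‖w‖ ‖f‖` (`mean_central`: `⟪c, u'⋆ f⟫ = ⟪u' c, (u - u') w⟫`). Expand
`0 ≤ ‖E g - P g - Q g‖²`, use `‖E g‖ ≤ s ‖w‖` and `‖f‖ ≤ 10 D ‖w‖`. -/
theorem bessel (hc : B.Ctx M N D ω e) {u u' : H →L[ℂ] H}
    (h : B.Lift M N u u' (10 * D) (10 * ω) (100 * e)) (hu : u ∈ unitary _) (hu' : u' ∈ unitary _)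
    {w : H} (hw : w ∈ B.V) {s : ℝ}
    (hs : ∀ γ, ‖(u * B.u γ * u - u' * B.u γ * u') w‖ ≤ s * ‖w‖) :
    2 * ‖(u - u') w‖ ^ 2 ≤ (s ^ 2 + 5 * 10 ^ 7 * (D * e)) * ‖w‖ ^ 2 := by
  have hM := hc.gM
  have hN := hc.gN
  have he := hc.e_nn
  have hD := hc.D_pos
  set f := (u - u') w with hf
  have hfw : ‖f‖ ≤ 10 * D * ‖w‖ :=
    ((u - u').le_opNorm w).trans (mul_le_mul_of_nonneg_right h.norm (norm_nonneg _))
  have hff : ⟪u w, f⟫_ℂ - ⟪u' w, f⟫_ℂ = ((‖f‖ ^ 2 : ℝ) : ℂ) := by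
    rw [← inner_sub_left, ← ContinuousLinearMap.sub_apply, ← hf, inner_self_eq_norm_sq_to_K]
    simp
  set E : B.G → H := fun γ => (u * B.u γ * u - u' * B.u γ * u') w with hE
  set P : B.G → H := fun γ => u' (B.u γ f) with hP
  set Q : B.G → H := fun γ => B.R u' (B.R (B.u γ) f) with hQ
  have nP : ∀ γ, ‖P γ‖ = ‖f‖ := fun γ => by
    simp only [hP]
    rw [norm_unitary_apply hu', norm_unitary_apply (B.u_unitary γ)]
  have nQ : ∀ γ, ‖Q γ‖ = ‖f‖ := fun γ => by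
    simp only [hQ]
    rw [norm_unitary_apply (B.R_unitary hu'), norm_unitary_apply (B.R_unitary (B.u_unitary γ))]
  have e1 : ∀ γ, ⟪E γ, P γ⟫_ℂ = ⟪u (B.u γ (u w)), u' (B.u γ f)⟫_ℂ - ⟪u' w, f⟫_ℂ := fun γ => by
    simp only [hE, hP, ContinuousLinearMap.sub_apply, mul_apply_eq_comp, inner_sub_left]
    rw [inner_unitary hu', inner_unitary (B.u_unitary γ)]
  have e2 : ∀ γ, ⟪E γ, Q γ⟫_ℂ =
      ⟪B.R u (B.R (B.u γ) (u w)), B.R u' (B.R (B.u γ) f)⟫_ℂ - ⟪u' w, f⟫_ℂ := fun γ => by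
    have a1 : u (B.u γ (u w)) = B.R u (B.R (B.u γ) (u w)) := by
      rw [hM.R_comm_apply (hM.u_mem γ) h.mem, hM.R_V (hM.u_mem γ) hw, hM.R_comm_apply h.mem h.mem,
        hM.R_comm_apply h.mem (hM.u_mem γ), hM.R_V h.mem hw]
    have a2 : u' (B.u γ (u' w)) = B.R u' (B.R (B.u γ) (u' w)) := by
      rw [hN.R_comm_apply (hN.u_mem γ) h.mem', hN.R_V (hN.u_mem γ) hw,
        hN.R_comm_apply h.mem' h.mem', hN.R_comm_apply h.mem' (hN.u_mem γ), hN.R_V h.mem' hw]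
    simp only [hE, hQ, ContinuousLinearMap.sub_apply, mul_apply_eq_comp, inner_sub_left]
    rw [a1, a2, inner_unitary (B.R_unitary hu'), inner_unitary (B.R_unitary (B.u_unitary γ))]
  have e3 : ∀ γ, ⟪Q γ, P γ⟫_ℂ =
      ⟪star u' f, star (B.R (B.u γ)) (B.u γ (star (B.R u') f))⟫_ℂ := fun γ => by
    simp only [hP, hQ]
    rw [inner_star_right, ← B.R_star, ← hN.R_comm_apply (star_mem h.mem') (hN.u_mem γ), B.R_star,
      inner_star_right, hN.R_comm_apply (hN.u_mem γ) (star_mem h.mem'),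
      hN.R_comm_apply h.mem' (star_mem h.mem'), inner_star_left]
  have m1 : ‖B.m (fun γ => ⟪E γ, P γ⟫_ℂ) - ((‖f‖ ^ 2 : ℝ) : ℂ)‖ ≤
      10 ^ 4 * (100 * e + e) * ‖w‖ * ‖f‖ := by
    have := h.kl hc hu hu' (u w) f
    rw [norm_unitary_apply hu] at this
    simp only [e1]
    rw [B.m.map_sub, B.m.map_const, ← hff]
    convert this using 2
    ring
  have m2 : ‖B.m (fun γ => ⟪E γ, Q γ⟫_ℂ) - ((‖f‖ ^ 2 : ℝ) : ℂ)‖ ≤
      10 ^ 4 * (100 * e + e) * ‖w‖ * ‖f‖ := by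
    have := h.kr hc hu hu' (u w) f
    rw [norm_unitary_apply hu] at this
    simp only [e2]
    rw [B.m.map_sub, B.m.map_const, ← hff]
    convert this using 2
    ring
  have m3 : ‖B.m (fun γ => ⟪Q γ, P γ⟫_ℂ)‖ ≤ 100 * e * ‖w‖ * ‖f‖ := by
    have := mean_central hN (η' := star u' f) (β := 100 * e * ‖w‖) (fun c hcV => by
      rw [inner_star_right]
      refine (h.wN u' h.mem' w hw c hcV).trans ?_
      have := norm_unitary_le hu'
      calc 100 * e * ‖u'‖ * ‖w‖ * ‖c‖ ≤ 100 * e * 1 * ‖w‖ * ‖c‖ := by gcongr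
        _ = _ := by ring) (star (B.R u') f)
    rw [norm_unitary_apply (Unitary.star_mem (B.R_unitary hu'))] at this
    simp only [e3]
    exact this
  have b1 : Bd fun γ => ⟪E γ, P γ⟫_ℂ := ⟨s * ‖w‖ * ‖f‖, fun γ => (norm_inner_le_norm _ _).trans (by
    rw [nP]; exact mul_le_mul_of_nonneg_right (hs γ) (norm_nonneg _))⟩
  have b2 : Bd fun γ => ⟪E γ, Q γ⟫_ℂ := ⟨s * ‖w‖ * ‖f‖, fun γ => (norm_inner_le_norm _ _).trans (by
    rw [nQ]; exact mul_le_mul_of_nonneg_right (hs γ) (norm_nonneg _))⟩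
  have b3 : Bd fun γ => ⟪Q γ, P γ⟫_ℂ := ⟨‖f‖ * ‖f‖, fun γ => (norm_inner_le_norm _ _).trans (by
    rw [nP, nQ])⟩
  have key := B.m.re_le (bd_sub (bd_add b1 b2) b3) (c := s ^ 2 * ‖w‖ ^ 2 / 2 + ‖f‖ ^ 2) fun γ => by
    have h0 := Acc_expand (E γ) (P γ) (Q γ)
    rw [nP, nQ] at h0
    have h1 : ‖E γ‖ ^ 2 ≤ (s * ‖w‖) ^ 2 := pow_le_pow_left₀ (norm_nonneg _) (hs γ) 2
    rw [mul_pow] at h1
    linarith
  rw [B.m.map_sub, B.m.map_add, Complex.sub_re, Complex.add_re] at key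
  have r1 := (abs_le.1 ((Complex.abs_re_le_norm _).trans m1)).1
  have r2 := (abs_le.1 ((Complex.abs_re_le_norm _).trans m2)).1
  have r3 := (abs_le.1 ((Complex.abs_re_le_norm _).trans m3)).2
  rw [Complex.sub_re, Complex.ofReal_re] at r1 r2
  have r4 : e * ‖w‖ * ‖f‖ ≤ e * ‖w‖ * (10 * D * ‖w‖) :=
    mul_le_mul_of_nonneg_left hfw (by positivity)
  have r5 : 0 ≤ D * e * ‖w‖ ^ 2 := by positivity
  nlinarith

/-- Choose `l u` by `Ctx.ulift`. `absorb` for `P c := 0 ≤ c ∧ ∀ u, SN (u - l u) c`, `c₀ = 10 D`: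
`y = l (u g u) - u' g u' ∈ N` has norm `≤ 30 D` and `WN N y (411 e)` (`Lift.mul_u`, `Lift.mul`,
`ω² ≤ e`), so `‖y w‖² = ⟪y w, y w⟫ ≤ 411 · 30 D e ‖w‖²`, `s = c + 112 √(D e)` in `bessel`, and the
new constant is `≤ 5200 √(D e) + (71 / 100) c`. -/
theorem Base.Ctx.acc (hc : B.Ctx M N D ω e) :
    ∃ l : (H →L[ℂ] H) → (H →L[ℂ] H), ∀ u ∈ M, u ∈ unitary _ → l u ∈ unitary _ ∧
      B.Lift M N u (l u) (10 * D) (2 * 10 ^ 4 * √(D * e)) (100 * e) := by
  have hM := hc.gM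
  have hN := hc.gN
  have he := hc.e_nn
  have hD := hc.D_pos
  have hex : ∀ u : H →L[ℂ] H, ∃ u' : H →L[ℂ] H, u ∈ M → u ∈ unitary _ → u' ∈ unitary _ ∧
      B.Lift M N u u' (10 * D) (10 * ω) (100 * e) := by
    intro u
    by_cases hu : u ∈ M ∧ u ∈ unitary (H →L[ℂ] H)
    · obtain ⟨u', h1, h2⟩ := hc.ulift hu.1 hu.2
      exact ⟨u', fun _ _ => ⟨h1, h2⟩⟩
    · exact ⟨0, fun h1 h2 => absurd ⟨h1, h2⟩ hu⟩
  choose l hl using hex
  set t := √(D * e) with ht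
  have ht0 : 0 ≤ t := Real.sqrt_nonneg _
  have ht2 : t ^ 2 = D * e := Real.sq_sqrt (by positivity)
  have key := absorb (P := fun c => 0 ≤ c ∧ ∀ u ∈ M, u ∈ unitary _ → B.SN (u - l u) c)
    (a := 5200 * t) (r := 71 / 100) (c₀ := 10 * D) (by norm_num) (by norm_num)
    (fun c c' hcc h => ⟨h.1.trans hcc, fun u hu hu' => (h.2 u hu hu').mono hcc⟩)
    (fun c h => ⟨le_of_forall_pos_le_add fun ε hε => by
        have := (h ε hε).1
        linarith, fun u hu hu' v hv => by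
      refine le_of_forall_pos_le_add fun ε hε => ?_
      have h1 := (h (ε / (‖v‖ + 1)) (by positivity)).2 u hu hu' v hv
      have h2 : ε / (‖v‖ + 1) * ‖v‖ ≤ ε := by
        rw [div_mul_eq_mul_div, div_le_iff₀ (by positivity)]
        nlinarith
      linarith⟩)
    ⟨by positivity, fun u hu hu' v _ => ((u - l u).le_opNorm v).trans
      (mul_le_mul_of_nonneg_right (hl u hu hu').2.norm (norm_nonneg _))⟩
    (fun c _ h => ⟨by have := h.1; positivity, fun u hu hu' w hw => by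
      obtain ⟨hlu, hL⟩ := hl u hu hu'
      have hc0 := h.1
      have hb := bessel hc hL hu' hlu hw (s := c + 112 * t) fun γ => by
        have xM : u * B.u γ * u ∈ M := mul_mem (mul_mem hu (hM.u_mem γ)) hu
        have xU : u * B.u γ * u ∈ unitary (H →L[ℂ] H) :=
          mul_mem (mul_mem hu' (B.u_unitary γ)) hu'
        obtain ⟨-, L1⟩ := hl _ xM xU
        have L2 := (hL.mul_u hM hN γ).mul hc hL
          (norm_unitary_le (mul_mem hu' (B.u_unitary γ)))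
          (norm_unitary_le (mul_mem hlu (B.u_unitary γ))) (norm_unitary_le hu')
          (norm_unitary_le hlu)
        set x := u * B.u γ * u with hx
        set x' := l u * B.u γ * l u with hx'
        have yN : l x - x' ∈ N := sub_mem L1.mem' L2.mem'
        have ey : l x - x' = (x - x') - (x - l x) := by abel
        have ny : ‖l x - x'‖ ≤ 30 * D := by
          rw [ey]
          refine (norm_sub_le _ _).trans ?_
          linarith [L1.norm, L2.norm]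
        have w1 := L1.wN _ yN w hw w hw
        have w2 := (L2.wN.mono (c' := 311 * e) (by nlinarith [hc.sq])) _ yN w hw w hw
        have hy : ‖(l x - x') w‖ ^ 2 ≤ (112 * t * ‖w‖) ^ 2 := by
          have e1 : ‖(l x - x') w‖ ^ 2 = ‖⟪(l x - x') w, (x - x') w⟫_ℂ -
              ⟪(l x - x') w, (x - l x) w⟫_ℂ‖ := by
            rw [← inner_sub_right, ← ContinuousLinearMap.sub_apply, ← ey,
              inner_self_eq_norm_sq_to_K, norm_pow, RCLike.norm_ofReal, abs_norm]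
          rw [e1]
          refine (norm_sub_le _ _).trans ((add_le_add w2 w1).trans ?_)
          have h1 : e * ‖w‖ ^ 2 * ‖l x - x'‖ ≤ e * ‖w‖ ^ 2 * (30 * D) :=
            mul_le_mul_of_nonneg_left ny (by positivity)
          have h2 : 0 ≤ D * e * ‖w‖ ^ 2 := by positivity
          rw [mul_pow, mul_pow, ht2]
          nlinarith
        have hy' : ‖(l x - x') w‖ ≤ 112 * t * ‖w‖ :=
          le_of_pow_le_pow_left₀ two_ne_zero (by positivity) hy
        have e2 : (x - x') w = (x - l x) w + (l x - x') w := by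
          rw [← ContinuousLinearMap.add_apply, sub_add_sub_cancel]
        rw [e2]
        refine (norm_add_le _ _).trans ?_
        have := h.2 x xM xU w hw
        linarith
      refine le_of_pow_le_pow_left₀ two_ne_zero (by positivity) ?_
      rw [← ht2] at hb
      have h1 : (c + 112 * t) ^ 2 + 5 * 10 ^ 7 * t ^ 2 ≤ 2 * (5200 * t + 71 / 100 * c) ^ 2 := by
        nlinarith [mul_nonneg hc0 ht0, sq_nonneg c, sq_nonneg t]
      have h2 := mul_le_mul_of_nonneg_right h1 (sq_nonneg ‖w‖)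
      rw [mul_pow]
      linarith⟩)
  refine ⟨l, fun u hu hu' => ?_⟩
  obtain ⟨hlu, hL⟩ := hl u hu hu'
  exact ⟨hlu, hL.mem, hL.mem', hL.norm, (key.2 u hu hu').mono (by norm_num; linarith), hL.wM, hL.wN⟩

end Crest.Agent.R078T
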