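import Crest.Agent.R078T.Defs

/-! Row 78, tracial stage: the elementary API (right multiplication, central vectors, means). -/

set_option autoImplicit false

open scoped InnerProductSpace ComplexConjugate

namespace Crest.Agent.R078T

open Crest.Agent.R121 (Mn Bd IsW Avg)
open Crest.Agent.R124 (IsVN)

variable {H : Type*} [NormedAddCommGroup H] [InnerProductSpace ℂ H] [CompleteSpace H]

/-! ### Operators -/

lemma inner_star_left (T : H →L[ℂ] H) (a b : H) : ⟪star T a, b⟫_ℂ = ⟪a, T b⟫_ℂ :=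
  ContinuousLinearMap.adjoint_inner_left T b a

lemma inner_star_right (T : H →L[ℂ] H) (a b : H) : ⟪a, star T b⟫_ℂ = ⟪T a, b⟫_ℂ :=
  ContinuousLinearMap.adjoint_inner_right T a b

lemma op_ext {S T : H →L[ℂ] H} (h : ∀ a b, ⟪a, S b⟫_ℂ = ⟪a, T b⟫_ℂ) : S = T :=
  ContinuousLinearMap.ext fun b => ext_inner_left ℂ fun a => h a b

lemma inner_unitary {U : H →L[ℂ] H} (hU : U ∈ unitary (H →L[ℂ] H)) (a b : H) :
    ⟪U a, U b⟫_ℂ = ⟪a, b⟫_ℂ := by
  rw [← inner_star_right, ← mul_apply_eq_comp, Unitary.star_mul_self_of_mem hU,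
    one_apply_eq_self]

lemma norm_unitary_apply {U : H →L[ℂ] H} (hU : U ∈ unitary (H →L[ℂ] H)) (a : H) :
    ‖U a‖ = ‖a‖ := by
  rw [@norm_eq_sqrt_re_inner ℂ, @norm_eq_sqrt_re_inner ℂ, inner_unitary hU]

lemma norm_unitary_le {U : H →L[ℂ] H} (hU : U ∈ unitary (H →L[ℂ] H)) : ‖U‖ ≤ 1 :=
  U.opNorm_le_bound zero_le_one fun a => by rw [norm_unitary_apply hU, one_mul]

lemma star_apply_apply {U : H →L[ℂ] H} (hU : U ∈ unitary (H →L[ℂ] H)) (a : H) :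
    star U (U a) = a := by
  rw [← mul_apply_eq_comp, Unitary.star_mul_self_of_mem hU,
    one_apply_eq_self]

lemma apply_star_apply {U : H →L[ℂ] H} (hU : U ∈ unitary (H →L[ℂ] H)) (a : H) :
    U (star U a) = a := by
  rw [← mul_apply_eq_comp, Unitary.mul_star_self_of_mem hU,
    one_apply_eq_self]

lemma norm_inner_op_le (T : H →L[ℂ] H) (a b : H) : ‖⟪a, T b⟫_ℂ‖ ≤ ‖T‖ * ‖a‖ * ‖b‖ :=
  (norm_inner_le_norm _ _).trans <| by
    have := mul_le_mul_of_nonneg_left (T.le_opNorm b) (norm_nonneg a)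
    linarith

lemma norm_le_of_inner {T : H →L[ℂ] H} {C : ℝ} (hC : 0 ≤ C)
    (h : ∀ a b : H, ‖⟪a, T b⟫_ℂ‖ ≤ C * ‖a‖ * ‖b‖) : ‖T‖ ≤ C := by
  refine ContinuousLinearMap.opNorm_le_bound _ hC fun ξ => ?_
  have h1 := h (T ξ) ξ
  rw [inner_self_eq_norm_sq_to_K, norm_pow, RCLike.norm_ofReal, abs_norm, sq] at h1
  rcases (norm_nonneg (T ξ)).eq_or_lt with h0 | h0
  · rw [← h0]; positivity
  · exact le_of_mul_le_mul_left (by linarith) h0

lemma abs_qf_le (T : H →L[ℂ] H) (ζ : H) : |qf T ζ| ≤ ‖T‖ * ‖ζ‖ ^ 2 :=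
  (Complex.abs_re_le_norm _).trans ((norm_inner_op_le T ζ ζ).trans_eq (by ring))

lemma qf_add (S T : H →L[ℂ] H) (ζ : H) : qf (S + T) ζ = qf S ζ + qf T ζ := by
  simp [qf, inner_add_right]

lemma qf_sub (S T : H →L[ℂ] H) (ζ : H) : qf (S - T) ζ = qf S ζ - qf T ζ := by
  simp [qf, inner_sub_right]

lemma qf_neg (T : H →L[ℂ] H) (ζ : H) : qf (-T) ζ = -qf T ζ := by simp [qf]

lemma qf_smul (c : ℝ) (T : H →L[ℂ] H) (ζ : H) : qf ((c : ℂ) • T) ζ = c * qf T ζ := by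
  simp [qf, inner_smul_right]

lemma qf_one (ζ : H) : qf 1 ζ = ‖ζ‖ ^ 2 := by
  simpa [qf] using inner_self_eq_norm_sq (𝕜 := ℂ) ζ

lemma qf_star (T : H →L[ℂ] H) (ζ : H) : qf (star T) ζ = qf T ζ := by
  rw [qf, qf, inner_star_right, ← inner_conj_symm, Complex.conj_re]

lemma qf_conj (S T : H →L[ℂ] H) (ζ : H) : qf (star S * T * S) ζ = qf T (S ζ) := by
  simp only [qf, mul_apply_eq_comp, inner_star_right]

lemma vn_smul_mem {M : VonNeumannAlgebra H} (c : ℂ) {x : H →L[ℂ] H} (hx : x ∈ M) : c • x ∈ M :=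
  M.toStarSubalgebra.smul_mem hx c

lemma vn_mem_of_comm {M : VonNeumannAlgebra H} {x : H →L[ℂ] H}
    (h : ∀ t ∈ M.commutant, t * x = x * t) : x ∈ M := by
  rw [← M.commutant_commutant, VonNeumannAlgebra.mem_commutant_iff]
  exact h

lemma vn_comm {M : VonNeumannAlgebra H} {x t : H →L[ℂ] H} (hx : x ∈ M) (ht : t ∈ M.commutant) :
    t * x = x * t := (VonNeumannAlgebra.mem_commutant_iff.1 ht x hx).symm

lemma vn_cfc_mem {M : VonNeumannAlgebra H} {x : H →L[ℂ] H} (hx : x ∈ M) (f : ℂ → ℂ) :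
    cfc f x ∈ M := vn_mem_of_comm fun _ ht =>
  (Commute.cfc (vn_comm hx ht).symm (vn_comm (star_mem hx) ht).symm f).symm.eq

lemma vn_cfc_real_mem {M : VonNeumannAlgebra H} {x : H →L[ℂ] H} (hx : x ∈ M) (f : ℝ → ℝ) :
    cfc f x ∈ M := vn_mem_of_comm fun _ ht =>
  (Commute.cfc_real (vn_comm hx ht).symm f).symm.eq

/-- Every element is a combination of four unitaries of the algebra. -/
lemma vn_four_unitary {M : VonNeumannAlgebra H} {x : H →L[ℂ] H} (hx : x ∈ M) :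
    ∃ (u : Fin 4 → (H →L[ℂ] H)) (c : Fin 4 → ℂ), (∀ i, u i ∈ M) ∧ (∀ i, u i ∈ unitary _) ∧
      x = ∑ i, c i • u i ∧ ∀ i, ‖c i‖ ≤ ‖x‖ / 2 := by
  obtain ⟨u, c, h1, h2⟩ := CStarAlgebra.exists_sum_four_unitary (⟨x, hx⟩ : M.toStarSubalgebra)
  refine ⟨fun i => (u i).1.1, c, fun i => (u i).1.2, fun i => ?_, ?_, h2⟩
  · exact ⟨congrArg Subtype.val (u i).2.1, congrArg Subtype.val (u i).2.2⟩
  · simpa using congrArg Subtype.val h1

/-- Absorption. -/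
lemma absorb {P : ℝ → Prop} {a r c₀ : ℝ} (hr0 : 0 ≤ r) (hr : r < 1)
    (mono : ∀ c c', c ≤ c' → P c → P c') (closed : ∀ c, (∀ ε, 0 < ε → P (c + ε)) → P c)
    (h0 : P c₀) (step : ∀ c, c ≤ c₀ → P c → P (a + r * c)) : P (a / (1 - r)) := by
  have h1r : 0 < 1 - r := by linarith
  have key : ∀ k : ℕ, P (a / (1 - r) + |c₀ - a / (1 - r)| * r ^ k) := by
    intro k
    induction k with
    | zero => exact mono _ _ (by have := le_abs_self (c₀ - a / (1 - r)); simp; linarith) h0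
    | succ k ih =>
      have h2 : P (min c₀ (a / (1 - r) + |c₀ - a / (1 - r)| * r ^ k)) := by
        rcases min_choice c₀ (a / (1 - r) + |c₀ - a / (1 - r)| * r ^ k) with h | h <;> rw [h]
        exacts [h0, ih]
      refine mono _ _ ?_ (step _ (min_le_left _ _) h2)
      have h3 := mul_le_mul_of_nonneg_left
        (min_le_right c₀ (a / (1 - r) + |c₀ - a / (1 - r)| * r ^ k)) hr0
      have h4 : a + r * (a / (1 - r)) = a / (1 - r) := by field_simp; ring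
      rw [pow_succ]
      nlinarith
  refine closed _ fun ε hε => ?_
  have h5 := (tendsto_pow_atTop_nhds_zero_of_lt_one hr0 hr).const_mul |c₀ - a / (1 - r)|
  rw [mul_zero] at h5
  obtain ⟨k, hk⟩ := (h5.eventually (gt_mem_nhds hε)).exists
  exact mono _ _ (by linarith) (key k)

/-! ### Means -/

section mean

variable {X : Type*}

lemma bd_of_le {f : X → ℂ} {C : ℝ} (h : ∀ x, ‖f x‖ ≤ C) : Bd f := ⟨C, h⟩

lemma bd_const (c : ℂ) : Bd fun _ : X => c := ⟨‖c‖, fun _ => le_rfl⟩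

lemma bd_add {f g : X → ℂ} (hf : Bd f) (hg : Bd g) : Bd fun x => f x + g x := by
  obtain ⟨C, hC⟩ := hf
  obtain ⟨D, hD⟩ := hg
  exact ⟨C + D, fun x => (norm_add_le _ _).trans (add_le_add (hC x) (hD x))⟩

lemma bd_sub {f g : X → ℂ} (hf : Bd f) (hg : Bd g) : Bd fun x => f x - g x := by
  obtain ⟨C, hC⟩ := hf
  obtain ⟨D, hD⟩ := hg
  exact ⟨C + D, fun x => (norm_sub_le _ _).trans (add_le_add (hC x) (hD x))⟩

lemma bd_mul_left (c : ℂ) {f : X → ℂ} (hf : Bd f) : Bd fun x => c * f x := by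
  obtain ⟨C, hC⟩ := hf
  exact ⟨‖c‖ * C, fun x => by
    rw [norm_mul]; exact mul_le_mul_of_nonneg_left (hC x) (norm_nonneg _)⟩

lemma mn_re_mono (m : Mn X) {f g : X → ℂ} (hf : Bd f) (hg : Bd g)
    (h : ∀ x, (f x).re ≤ (g x).re) : (m f).re ≤ (m g).re := by
  have := m.re_le (bd_sub hf hg) (c := 0) fun x => by simpa using h x
  rw [m.map_sub, Complex.sub_re] at this
  linarith

lemma mn_conj (m : Mn X) {f : X → ℂ} (hf : Bd f) : m (fun x => conj (f x)) = conj (m f) := by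
  have hc : ∀ {f : X → ℂ}, Bd f → Bd fun x => conj (f x) := fun ⟨C, hC⟩ =>
    ⟨C, fun x => by simpa using hC x⟩
  have h1 : ∀ {f : X → ℂ}, Bd f → (m fun x => conj (f x)).re = (m f).re := fun hf => by
    rw [m.re_eq hf, m.re_eq (hc hf)]
    simp
  refine Complex.ext (by rw [h1 hf, Complex.conj_re]) ?_
  have h2 := h1 (bd_mul_left Complex.I hf)
  simp only [map_mul, Complex.conj_I, m.map_mul_left] at h2
  simpa using h2

/-- Two bounded functions at uniform distance `c` have means at distance `c`. -/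
lemma mn_norm_sub_le (m : Mn X) {f : X → ℂ} {z : ℂ} {c : ℝ} (h : ∀ x, ‖f x - z‖ ≤ c) :
    ‖m f - z‖ ≤ c := by
  have := m.norm_le h
  rwa [m.map_sub, m.map_const] at this

end mean

lemma isVN_id : IsVN (StarAlgHom.id ℂ (H →L[ℂ] H)) :=
  ⟨fun _ _ h => h, fun T _ => ⟨T, rfl⟩⟩

/-- The weak-operator mean of a bounded family. -/
noncomputable def wm {X : Type*} (m : Mn X) : (X → (H →L[ℂ] H)) →ₗ[ℂ] (H →L[ℂ] H) :=
  (R121.IsVN.exists_isW isVN_id m).choose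

section wm

variable {X : Type*} (m : Mn X) {F : X → (H →L[ℂ] H)}

lemma wm_isW : IsW (StarAlgHom.id ℂ (H →L[ℂ] H)) m (wm m) :=
  (R121.IsVN.exists_isW isVN_id m).choose_spec

lemma wm_avg : Avg (wm (H := H) m) := (wm_isW m).avg isVN_id

lemma inner_wm (hF : Bd F) (a b : H) : ⟪a, wm m F b⟫_ℂ = m fun x => ⟪a, F x b⟫_ℂ :=
  wm_isW m F hF a b

lemma norm_wm_le {C : ℝ} (h : ∀ x, ‖F x‖ ≤ C) : ‖wm m F‖ ≤ C := (wm_avg m).norm_le F C h

lemma wm_const (T : H →L[ℂ] H) : wm m (fun _ => T) = T := (wm_avg m).const T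

lemma mul_wm (hF : Bd F) (T : H →L[ℂ] H) : T * wm m F = wm m fun x => T * F x :=
  ((wm_avg m).mul_left T F hF).symm

lemma wm_mul (hF : Bd F) (T : H →L[ℂ] H) : wm m F * T = wm m fun x => F x * T :=
  ((wm_avg m).mul_right T F hF).symm

lemma wm_comm (hF : Bd F) {T : H →L[ℂ] H} (h : ∀ x, T * F x = F x * T) :
    T * wm m F = wm m F * T := by
  rw [mul_wm m hF, wm_mul m hF]
  simp only [h]

lemma wm_mem (hF : Bd F) {M : VonNeumannAlgebra H} (h : ∀ x, F x ∈ M) : wm m F ∈ M :=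
  vn_mem_of_comm fun _ ht => wm_comm m hF fun x => vn_comm (h x) ht

lemma bd_inner (hF : Bd F) (a b : H) : Bd fun x => ⟪a, F x b⟫_ℂ := by
  obtain ⟨C, hC⟩ := hF
  exact ⟨C * ‖a‖ * ‖b‖, fun x => (norm_inner_op_le _ a b).trans (by gcongr; exact hC x)⟩

lemma star_wm (hF : Bd F) : star (wm m F) = wm m fun x => star (F x) := by
  have hF' : Bd fun x => star (F x) := by
    obtain ⟨C, hC⟩ := hF
    exact ⟨C, fun x => by simpa using hC x⟩
  refine op_ext fun a b => ?_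
  rw [inner_star_right, ← inner_conj_symm, inner_wm m hF, inner_wm m hF',
    ← mn_conj m (bd_inner hF b a)]
  simp only [inner_star_right, inner_conj_symm]

lemma norm_wm_apply_le (hF : Bd F) {b : H} {c : ℝ} (h : ∀ x, ‖F x b‖ ≤ c) : ‖wm m F b‖ ≤ c := by
  have h0 : 0 ≤ c := (norm_nonneg _).trans
    (m.norm_le (f := fun _ => 0) fun x => by simpa using (norm_nonneg _).trans (h x))
  have h1 : ‖⟪wm m F b, wm m F b⟫_ℂ‖ ≤ ‖wm m F b‖ * c := by
    rw [inner_wm m hF]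
    exact m.norm_le fun x => (norm_inner_le_norm _ _).trans (by gcongr; exact h x)
  rw [inner_self_eq_norm_sq_to_K, norm_pow, RCLike.norm_ofReal, abs_norm, sq] at h1
  rcases (norm_nonneg (wm m F b)).eq_or_lt with h2 | h2
  · rw [← h2]; exact h0
  · exact le_of_mul_le_mul_left h1 h2

end wm

/-- Weak-operator limits along ultrafilters: the limit is a mean of the family. -/
lemma exists_wlim {I : Type*} (U : Ultrafilter I) :
    ∃ m : Mn I, ∀ F : I → (H →L[ℂ] H), Bd F → ∀ a b : H,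
      Filter.Tendsto (fun i => ⟪a, F i b⟫_ℂ) U (nhds ⟪a, wm m F b⟫_ℂ) := by
  obtain ⟨m, hm⟩ := R121.Compact_ultra U fun i => Mn.pt i
  exact ⟨m, fun F hF a b => by
    rw [inner_wm m hF]
    exact hm _ (bd_inner hF a b)⟩

namespace Base

variable (B : Base H)

/-! ### The conjugation -/

lemma inner_J (a b : H) : ⟪B.J a, B.J b⟫_ℂ = ⟪b, a⟫_ℂ := by
  have h1 : ∀ a b : H, (⟪B.J a, B.J b⟫_ℂ).re = (⟪b, a⟫_ℂ).re := fun a b => by
    have e1 := re_inner_eq_norm_add_mul_self_sub_norm_mul_self_sub_norm_mul_self_div_two (𝕜 := ℂ)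
      (B.J a) (B.J b)
    have e2 := re_inner_eq_norm_add_mul_self_sub_norm_mul_self_sub_norm_mul_self_div_two (𝕜 := ℂ)
      b a
    rw [← map_add, B.J.norm_map, B.J.norm_map, B.J.norm_map] at e1
    rw [add_comm b a] at e2
    simp only [RCLike.re_to_complex] at e1 e2
    rw [e1, e2]
    ring
  refine Complex.ext (h1 a b) ?_
  have h2 := h1 (Complex.I • a) b
  rw [map_smulₛₗ, inner_smul_left, inner_smul_right] at h2
  simpa using h2

lemma inner_J_left (a b : H) : ⟪B.J a, b⟫_ℂ = ⟪B.J b, a⟫_ℂ := by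
  rw [← B.inner_J a (B.J b), B.J_J]

lemma R_apply (T : H →L[ℂ] H) (v : H) : B.R T v = B.J (star T (B.J v)) := rfl

lemma J_R (T : H →L[ℂ] H) (v : H) : B.J (B.R T v) = star T (B.J v) := B.J_J _

lemma J_op (T : H →L[ℂ] H) (v : H) : B.J (T v) = B.R (star T) (B.J v) := by
  rw [R_apply, star_star, B.J_J]

@[simp] lemma R_one : B.R 1 = 1 := by ext v; simp [R_apply, B.J_J]

@[simp] lemma R_zero : B.R 0 = 0 := by ext v; simp [R_apply]

lemma R_add (S T : H →L[ℂ] H) : B.R (S + T) = B.R S + B.R T := by ext v; simp [R_apply]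

lemma R_sub (S T : H →L[ℂ] H) : B.R (S - T) = B.R S - B.R T := by ext v; simp [R_apply]

lemma R_neg (T : H →L[ℂ] H) : B.R (-T) = -B.R T := by ext v; simp [R_apply]

lemma R_smul (c : ℂ) (T : H →L[ℂ] H) : B.R (c • T) = c • B.R T := by
  ext v; simp [R_apply, map_smulₛₗ]

lemma R_mul (S T : H →L[ℂ] H) : B.R (S * T) = B.R T * B.R S := by
  ext v; simp [R_apply, B.J_J]

lemma inner_R (T : H →L[ℂ] H) (a b : H) : ⟪a, B.R T b⟫_ℂ = ⟪B.J b, T (B.J a)⟫_ℂ := by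
  rw [R_apply, ← inner_star_left, ← B.inner_J (B.J a), B.J_J]

lemma R_star (T : H →L[ℂ] H) : B.R (star T) = star (B.R T) := op_ext fun a b => by
  rw [inner_R, inner_star_right, inner_star_right, ← inner_conj_symm (B.R T a), inner_R,
    inner_conj_symm]

@[simp] lemma R_R (T : H →L[ℂ] H) : B.R (B.R T) = T := by
  ext v
  rw [R_apply, ← R_star, J_R, star_star, B.J_J]

lemma norm_R (T : H →L[ℂ] H) : ‖B.R T‖ = ‖T‖ := by
  have h : ∀ T : H →L[ℂ] H, ‖B.R T‖ ≤ ‖T‖ := fun T =>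
    LinearMap.mkContinuous_norm_le _ (norm_nonneg T) _
  exact le_antisymm (h T) (by simpa using h (B.R T))

lemma R_unitary {U : H →L[ℂ] H} (hU : U ∈ unitary (H →L[ℂ] H)) :
    B.R U ∈ unitary (H →L[ℂ] H) := by
  constructor
  · rw [← R_star, ← R_mul, Unitary.mul_star_self_of_mem hU, R_one]
  · rw [← R_star, ← R_mul, Unitary.star_mul_self_of_mem hU, R_one]

lemma qf_R (T : H →L[ℂ] H) (ζ : H) : qf (B.R T) ζ = qf T (B.J ζ) := by
  rw [qf, qf, inner_R]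

/-! ### The group -/

lemma u_unitary (γ : B.G) : B.u γ ∈ unitary (H →L[ℂ] H) := γ.1.2

@[simp] lemma u_one : B.u 1 = 1 := rfl

lemma u_mul (γ δ : B.G) : B.u (γ * δ) = B.u γ * B.u δ := rfl

lemma u_inv (γ : B.G) : B.u γ⁻¹ = star (B.u γ) := rfl

lemma norm_u_le (γ : B.G) : ‖B.u γ‖ ≤ 1 := norm_unitary_le (B.u_unitary γ)

lemma m_mul_left {f : B.G → ℂ} (hf : Bd f) (h : B.G) : B.m (fun g => f (h * g)) = B.m f := by
  obtain ⟨C, hC⟩ := hf
  have e1 := B.m_inv (fun g => f (h * g)) ⟨C, fun _ => hC _⟩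
  have e2 := B.m_mul (fun g => f g⁻¹) ⟨C, fun _ => hC _⟩ h⁻¹
  have e3 := B.m_inv f ⟨C, hC⟩
  simp only [mul_inv_rev, inv_inv] at e2
  rw [← e1, e2, e3]

lemma norm_conj_le {U T : H →L[ℂ] H} (hU : U ∈ unitary (H →L[ℂ] H)) : ‖star U * T * U‖ ≤ ‖T‖ := by
  rw [CStarRing.norm_mul_mem_unitary _ hU,
    CStarRing.norm_mem_unitary_mul _ (Unitary.star_mem hU)]

/-- The average of `g⋆ T g`. -/
noncomputable def A (T : H →L[ℂ] H) : H →L[ℂ] H := wm B.m fun γ => star (B.u γ) * T * B.u γ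

/-- The average of `R(g)⋆ T R(g)`. -/
noncomputable def AR (T : H →L[ℂ] H) : H →L[ℂ] H :=
  wm B.m fun γ => star (B.R (B.u γ)) * T * B.R (B.u γ)

lemma bd_A (T : H →L[ℂ] H) : Bd fun γ => star (B.u γ) * T * B.u γ :=
  ⟨‖T‖, fun γ => norm_conj_le (B.u_unitary γ)⟩

lemma bd_AR (T : H →L[ℂ] H) : Bd fun γ => star (B.R (B.u γ)) * T * B.R (B.u γ) :=
  ⟨‖T‖, fun γ => norm_conj_le (B.R_unitary (B.u_unitary γ))⟩

lemma inner_A (T : H →L[ℂ] H) (a b : H) :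
    ⟪a, B.A T b⟫_ℂ = B.m fun γ => ⟪B.u γ a, T (B.u γ b)⟫_ℂ := by
  rw [A, inner_wm _ (B.bd_A T)]
  simp only [mul_apply_eq_comp, inner_star_right]

lemma inner_AR (T : H →L[ℂ] H) (a b : H) :
    ⟪a, B.AR T b⟫_ℂ = B.m fun γ => ⟪B.R (B.u γ) a, T (B.R (B.u γ) b)⟫_ℂ := by
  rw [AR, inner_wm _ (B.bd_AR T)]
  simp only [mul_apply_eq_comp, inner_star_right]

lemma bd_inner_unitary {X : Type*} {U : X → (H →L[ℂ] H)} (hU : ∀ x, U x ∈ unitary (H →L[ℂ] H))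
    (T : H →L[ℂ] H) (a b : H) : Bd fun x => ⟪U x a, T (U x b)⟫_ℂ :=
  ⟨‖T‖ * ‖a‖ * ‖b‖, fun x => (norm_inner_op_le _ _ _).trans_eq (by
    rw [norm_unitary_apply (hU x), norm_unitary_apply (hU x)])⟩

lemma inner_A' (T : H →L[ℂ] H) (a b : H) :
    ⟪a, B.A T b⟫_ℂ = B.m fun γ => ⟪star (B.u γ) a, T (star (B.u γ) b)⟫_ℂ := by
  rw [inner_A, ← B.m_inv _ (bd_inner_unitary B.u_unitary T a b)]
  rfl

lemma norm_A_le (T : H →L[ℂ] H) : ‖B.A T‖ ≤ ‖T‖ :=
  norm_wm_le _ fun γ => norm_conj_le (B.u_unitary γ)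

lemma norm_AR_le (T : H →L[ℂ] H) : ‖B.AR T‖ ≤ ‖T‖ :=
  norm_wm_le _ fun γ => norm_conj_le (B.R_unitary (B.u_unitary γ))

lemma A_sub (S T : H →L[ℂ] H) : B.A (S - T) = B.A S - B.A T := op_ext fun a b => by
  simp only [sub_apply, inner_sub_right, inner_A, B.m.map_sub]

lemma A_add (S T : H →L[ℂ] H) : B.A (S + T) = B.A S + B.A T := op_ext fun a b => by
  simp only [add_apply, inner_add_right, inner_A, B.m.map_add]

lemma A_one : B.A 1 = 1 := op_ext fun a b => by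
  simp only [inner_A, one_apply_eq_self, inner_unitary (B.u_unitary _), B.m.map_const]

lemma star_A (T : H →L[ℂ] H) : star (B.A T) = B.A (star T) := by
  rw [A, star_wm _ (B.bd_A T)]
  simp only [star_mul, star_star, ← mul_assoc]
  rfl

lemma star_AR (T : H →L[ℂ] H) : star (B.AR T) = B.AR (star T) := by
  rw [AR, star_wm _ (B.bd_AR T)]
  simp only [star_mul, star_star, ← mul_assoc]
  rfl

lemma u_mul_A (T : H →L[ℂ] H) (δ : B.G) : B.u δ * B.A T = B.A T * B.u δ := by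
  have h : star (B.u δ) * B.A T * B.u δ = B.A T := op_ext fun a b => by
    simp only [mul_apply_eq_comp, inner_star_right, inner_A]
    exact B.m_mul _ (bd_inner_unitary B.u_unitary T a b) δ
  conv_lhs => rw [← h, ← mul_assoc, ← mul_assoc, Unitary.mul_star_self_of_mem (B.u_unitary δ),
    one_mul]

lemma Ru_mul_AR (T : H →L[ℂ] H) (δ : B.G) : B.R (B.u δ) * B.AR T = B.AR T * B.R (B.u δ) := by
  have h : star (B.R (B.u δ)) * B.AR T * B.R (B.u δ) = B.AR T := op_ext fun a b => by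
    simp only [mul_apply_eq_comp, inner_star_right, inner_AR]
    rw [← B.m_mul_left (bd_inner_unitary (fun γ => B.R_unitary (B.u_unitary γ)) T a b) δ]
    simp only [u_mul, R_mul, mul_apply_eq_comp]
  conv_lhs => rw [← h, ← mul_assoc, ← mul_assoc,
    Unitary.mul_star_self_of_mem (B.R_unitary (B.u_unitary δ)), one_mul]

lemma comm_A {S T : H →L[ℂ] H} (h1 : ∀ γ, S * B.u γ = B.u γ * S) (h2 : S * T = T * S) :
    S * B.A T = B.A T * S := wm_comm _ (B.bd_A T) fun γ => by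
  have h3 : S * star (B.u γ) = star (B.u γ) * S := h1 γ⁻¹
  rw [← mul_assoc, ← mul_assoc, h3, mul_assoc _ S, h2, mul_assoc, mul_assoc, h1]
  simp only [mul_assoc]

lemma comm_AR {S T : H →L[ℂ] H} (h1 : ∀ γ, S * B.R (B.u γ) = B.R (B.u γ) * S)
    (h2 : S * T = T * S) : S * B.AR T = B.AR T * S := wm_comm _ (B.bd_AR T) fun γ => by
  have h3 : S * star (B.R (B.u γ)) = star (B.R (B.u γ)) * S := by
    rw [← R_star]; exact h1 γ⁻¹
  rw [← mul_assoc, ← mul_assoc, h3, mul_assoc _ S, h2, mul_assoc, mul_assoc, h1]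
  simp only [mul_assoc]

/-! ### Central vectors -/

lemma ξ_mem_V : B.ξ ∈ B.V := ⟨1, one_mem _, rfl⟩

lemma zero_mem_V : (0 : H) ∈ B.V := ⟨0, zero_mem _, rfl⟩

variable {B}

lemma add_mem_V {v w : H} (hv : v ∈ B.V) (hw : w ∈ B.V) : v + w ∈ B.V := by
  obtain ⟨z, hz, rfl⟩ := hv
  obtain ⟨z', hz', rfl⟩ := hw
  exact ⟨z + z', add_mem hz hz', rfl⟩

lemma smul_mem_V (c : ℂ) {v : H} (hv : v ∈ B.V) : c • v ∈ B.V := by
  obtain ⟨z, hz, rfl⟩ := hv
  exact ⟨c • z, B.Z.smul_mem hz c, rfl⟩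

lemma Z_apply_mem_V {z : H →L[ℂ] H} (hz : z ∈ B.Z) {v : H} (hv : v ∈ B.V) : z v ∈ B.V := by
  obtain ⟨z', hz', rfl⟩ := hv
  exact ⟨z * z', mul_mem hz hz', rfl⟩

/-- A sesquilinear bound from a quadratic bound. -/
lemma two_weight {S T : H →L[ℂ] H} {c : ℝ} (h : ∀ v ∈ B.V, ‖⟪S v, T v⟫_ℂ‖ ≤ c * ‖v‖ ^ 2)
    {v w : H} (hv : v ∈ B.V) (hw : w ∈ B.V) : ‖⟪S w, T v⟫_ℂ‖ ≤ 2 * c * ‖v‖ * ‖w‖ := by
  have key : ∀ v ∈ B.V, ∀ w ∈ B.V, ‖⟪S w, T v⟫_ℂ‖ ≤ c * (‖v‖ ^ 2 + ‖w‖ ^ 2) := by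
    intro v hv w hw
    have e : (4 : ℂ) * ⟪S w, T v⟫_ℂ = ⟪S (v + w), T (v + w)⟫_ℂ -
        ⟪S (v + (-1 : ℂ) • w), T (v + (-1 : ℂ) • w)⟫_ℂ +
        Complex.I * ⟪S (v + Complex.I • w), T (v + Complex.I • w)⟫_ℂ -
        Complex.I * ⟪S (v + (-Complex.I) • w), T (v + (-Complex.I) • w)⟫_ℂ := by
      simp only [map_add, map_smul, inner_add_left, inner_add_right, inner_smul_left,
        inner_smul_right, map_neg, map_one, Complex.conj_I]
      linear_combination (2 * ⟪S w, T v⟫_ℂ - 2 * ⟪S v, T w⟫_ℂ) * Complex.I_mul_I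
    have h1 := h _ (add_mem_V hv hw)
    have h2 := h _ (add_mem_V hv (smul_mem_V (-1) hw))
    have h3 := h _ (add_mem_V hv (smul_mem_V Complex.I hw))
    have h4 := h _ (add_mem_V hv (smul_mem_V (-Complex.I) hw))
    have p1 := parallelogram_law_with_norm ℂ v w
    have p2 := parallelogram_law_with_norm ℂ v (Complex.I • w)
    rw [norm_smul, Complex.norm_I, one_mul] at p2
    rw [neg_one_smul, ← sub_eq_add_neg] at h2 e
    rw [neg_smul, ← sub_eq_add_neg] at h4 e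
    have h5 : ‖(4 : ℂ) * ⟪S w, T v⟫_ℂ‖ ≤ c * ‖v + w‖ ^ 2 + c * ‖v - w‖ ^ 2 +
        c * ‖v + Complex.I • w‖ ^ 2 + c * ‖v - Complex.I • w‖ ^ 2 := by
      rw [e]
      refine (norm_sub_le _ _).trans (add_le_add ((norm_add_le _ _).trans (add_le_add
        ((norm_sub_le _ _).trans (add_le_add h1 h2)) ?_)) ?_)
      · rwa [norm_mul, Complex.norm_I, one_mul]
      · rwa [norm_mul, Complex.norm_I, one_mul]
    rw [norm_mul, Complex.norm_ofNat] at h5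
    have h6 : c * ‖v + w‖ ^ 2 + c * ‖v - w‖ ^ 2 + c * ‖v + Complex.I • w‖ ^ 2 +
        c * ‖v - Complex.I • w‖ ^ 2 = 4 * (c * (‖v‖ ^ 2 + ‖w‖ ^ 2)) := by
      linear_combination c * p1 + c * p2
    linarith
  rcases (norm_nonneg v).eq_or_lt with h0 | h0
  · rw [norm_eq_zero.1 h0.symm]; simp
  rcases (norm_nonneg w).eq_or_lt with h1 | h1
  · rw [norm_eq_zero.1 h1.symm]; simp
  have h2 := key _ (smul_mem_V (‖w‖ : ℂ) hv) _ (smul_mem_V (‖v‖ : ℂ) hw)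
  simp only [map_smul, inner_smul_left, inner_smul_right, norm_mul, norm_smul, Complex.norm_real,
    norm_norm, Complex.conj_ofReal] at h2
  refine le_of_mul_le_mul_left (a := ‖v‖ * ‖w‖) ?_ (mul_pos h0 h1)
  nlinarith

namespace Good

variable {M N : VonNeumannAlgebra H}

lemma J_ξ (hM : B.Good M) : B.J B.ξ = B.ξ := by simpa using hM.J_app 1 (one_mem M)

lemma R_ξ (hM : B.Good M) {x : H →L[ℂ] H} (hx : x ∈ M) : B.R x B.ξ = x B.ξ := by
  rw [R_apply, hM.J_ξ, hM.J_app _ (star_mem hx), star_star]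

/-- Operators agreeing on `M ξ` are equal. -/
lemma ext_cyc (hM : B.Good M) {S T : H →L[ℂ] H} (h : ∀ x ∈ M, S (x B.ξ) = T (x B.ξ)) : S = T :=
  ContinuousLinearMap.ext fun v => congrFun
    (Continuous.ext_on hM.cyc S.continuous T.continuous (by rintro _ ⟨x, rfl⟩; exact h x x.2)) v

lemma exists_near (hM : B.Good M) (v : H) {ε : ℝ} (hε : 0 < ε) : ∃ x ∈ M, ‖v - x B.ξ‖ < ε := by
  obtain ⟨_, ⟨x, rfl⟩, hx⟩ := hM.cyc.exists_dist_lt v hε
  exact ⟨x, x.2, by rwa [dist_eq_norm] at hx⟩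

lemma R_comm (hM : B.Good M) {x y : H →L[ℂ] H} (hx : x ∈ M) (hy : y ∈ M) :
    B.R x * y = y * B.R x := by
  have h : ∀ y ∈ M, B.R x (y B.ξ) = y (x B.ξ) := fun y hy => by
    rw [R_apply, hM.J_app y hy, ← mul_apply_eq_comp, ← star_mul,
      hM.J_app _ (star_mem (mul_mem hy hx)), star_star, mul_apply_eq_comp]
  refine hM.ext_cyc fun z hz => ?_
  rw [mul_apply_eq_comp, mul_apply_eq_comp, h z hz,
    ← mul_apply_eq_comp y, h _ (mul_mem hy hz), mul_apply_eq_comp]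

lemma R_comm_apply (hM : B.Good M) {x y : H →L[ℂ] H} (hx : x ∈ M) (hy : y ∈ M) (ζ : H) :
    B.R x (y ζ) = y (B.R x ζ) := congrArg (fun T : H →L[ℂ] H => T ζ) (hM.R_comm hx hy)

lemma R_mem_commutant (hM : B.Good M) {x : H →L[ℂ] H} (hx : x ∈ M) : B.R x ∈ M.commutant :=
  VonNeumannAlgebra.mem_commutant_iff.2 fun _ hy => (hM.R_comm hx hy).symm

/-- An operator commuting with `R M` lies in `M`. -/
lemma mem_of_comm_R (hM : B.Good M) {T : H →L[ℂ] H} (h : ∀ x ∈ M, B.R x * T = T * B.R x) :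
    T ∈ M := vn_mem_of_comm fun t ht => by simpa using h _ (hM.R_mem t ht)

lemma sep (hM : B.Good M) {x : H →L[ℂ] H} (hx : x ∈ M) (h : x B.ξ = 0) : x = 0 := by
  have h1 : B.R x = 0 := hM.ext_cyc fun y hy => by
    rw [hM.R_comm_apply hx hy, hM.R_ξ hx, h, map_zero, zero_apply]
  rw [← B.R_R x, h1, R_zero]

lemma mem_Z (hM : B.Good M) {x : H →L[ℂ] H} (hx : x ∈ M) (h : ∀ y ∈ M, y * x = x * y) :
    x ∈ B.Z := hM.irr x hx fun γ => h _ (hM.u_mem γ)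

lemma R_Z (hM : B.Good M) {z : H →L[ℂ] H} (hz : z ∈ B.Z) : B.R z = z :=
  hM.ext_cyc fun y hy => by
    rw [hM.R_comm_apply (hM.Z_mem z hz) hy, hM.R_ξ (hM.Z_mem z hz), ← mul_apply_eq_comp,
      ← hM.Z_comm z hz y hy, mul_apply_eq_comp]

lemma Z_Z (hM : B.Good M) {z z' : H →L[ℂ] H} (hz : z ∈ B.Z) (hz' : z' ∈ B.Z) : z * z' = z' * z :=
  hM.Z_comm z hz z' (hM.Z_mem z' hz')

lemma cfc_real_mem_Z (hM : B.Good M) {z : H →L[ℂ] H} (hz : z ∈ B.Z) (f : ℝ → ℝ) :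
    cfc f z ∈ B.Z := hM.mem_Z (vn_cfc_real_mem (hM.Z_mem z hz) f) fun y hy =>
  (Commute.cfc_real (hM.Z_comm z hz y hy) f).symm.eq

lemma cz (hM : B.Good M) {x : H →L[ℂ] H} (hx : x ∈ M) : B.CZ x := fun z hz => hM.Z_comm z hz x hx

lemma cz_R (hM : B.Good M) {T : H →L[ℂ] H} (hT : B.CZ T) : B.CZ (B.R T) := fun z hz => by
  rw [← hM.R_Z hz, ← R_mul, ← R_mul, hT z hz]

lemma cz_A (hM : B.Good M) {T : H →L[ℂ] H} (hT : B.CZ T) : B.CZ (B.A T) := fun z hz =>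
  B.comm_A (fun γ => hM.Z_comm z hz _ (hM.u_mem γ)) (hT z hz)

lemma cz_AR (hM : B.Good M) {T : H →L[ℂ] H} (hT : B.CZ T) : B.CZ (B.AR T) := fun z hz =>
  B.comm_AR (fun γ => hM.cz_R (hM.cz (hM.u_mem γ)) z hz) (hT z hz)

lemma R_V (hM : B.Good M) {x : H →L[ℂ] H} (hx : x ∈ M) {v : H} (hv : v ∈ B.V) : B.R x v = x v := by
  obtain ⟨z, hz, rfl⟩ := hv
  rw [hM.R_comm_apply hx (hM.Z_mem z hz), hM.R_ξ hx, ← mul_apply_eq_comp,
    hM.Z_comm z hz x hx, mul_apply_eq_comp]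

/-- `x y v = R(y) x v`. -/
lemma apply_apply_V (hM : B.Good M) {x y : H →L[ℂ] H} (hx : x ∈ M) (hy : y ∈ M) {v : H}
    (hv : v ∈ B.V) : x (y v) = B.R y (x v) := by
  rw [hM.R_comm_apply hy hx, hM.R_V hy hv]

lemma J_mem_V (hM : B.Good M) {v : H} (hv : v ∈ B.V) : B.J v ∈ B.V := by
  obtain ⟨z, hz, rfl⟩ := hv
  exact ⟨star z, star_mem hz, (hM.J_app z (hM.Z_mem z hz)).symm⟩

lemma J_V (hM : B.Good M) {x : H →L[ℂ] H} (hx : x ∈ M) {v : H} (hv : v ∈ B.V) :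
    B.J (x v) = star x (B.J v) := by
  rw [J_op, hM.R_V (star_mem hx) (hM.J_mem_V hv)]

lemma inner_J_V (hM : B.Good M) {T : H →L[ℂ] H} (hT : B.CZ T) {v : H} (hv : v ∈ B.V) :
    ⟪B.J v, T (B.J v)⟫_ℂ = ⟪v, T v⟫_ℂ := by
  obtain ⟨z, hz, rfl⟩ := hv
  have e : ∀ z ∈ B.Z, T (z B.ξ) = z (T B.ξ) := fun z hz => by
    rw [← mul_apply_eq_comp, ← hT z hz, mul_apply_eq_comp]
  rw [hM.J_app z (hM.Z_mem z hz), e z hz, e _ (star_mem hz), inner_star_left, ← inner_star_right,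
    ← mul_apply_eq_comp z, hM.Z_Z hz (star_mem hz), mul_apply_eq_comp]

/-- The trace property. -/
lemma trace (hM : B.Good M) {a b : H →L[ℂ] H} (ha : a ∈ M) (hb : b ∈ M) {v w : H} (hv : v ∈ B.V)
    (hw : w ∈ B.V) : ⟪w, (a * b) v⟫_ℂ = ⟪w, (b * a) v⟫_ℂ := by
  rw [mul_apply_eq_comp, mul_apply_eq_comp, hM.apply_apply_V ha hb hv,
    ← inner_star_left, ← R_star, hM.R_V (star_mem hb) hw, inner_star_left]

lemma trV (hM : B.Good M) {w : H} (hw : w ∈ B.V) : TrV M w :=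
  fun _ ha _ hb => hM.trace ha hb hw hw

lemma norm_star_V (hM : B.Good M) {x : H →L[ℂ] H} (hx : x ∈ M) {v : H} (hv : v ∈ B.V) :
    ‖star x v‖ = ‖x v‖ := by
  rw [@norm_eq_sqrt_re_inner ℂ, @norm_eq_sqrt_re_inner ℂ, inner_star_left, ← inner_star_right x,
    ← mul_apply_eq_comp, hM.trace hx (star_mem hx) hv hv,
    mul_apply_eq_comp]

lemma A_mem_Z (hM : B.Good M) {x : H →L[ℂ] H} (hx : x ∈ M) : B.A x ∈ B.Z :=
  hM.irr _ (wm_mem _ (B.bd_A x) fun γ =>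
    mul_mem (mul_mem (star_mem (hM.u_mem γ)) hx) (hM.u_mem γ)) (B.u_mul_A x)

lemma A_Z (hM : B.Good M) {z : H →L[ℂ] H} (hz : z ∈ B.Z) : B.A z = z := op_ext fun a b => by
  have e : ∀ γ, z (B.u γ b) = B.u γ (z b) := fun γ => by
    rw [← mul_apply_eq_comp, hM.Z_comm z hz _ (hM.u_mem γ),
      mul_apply_eq_comp]
  simp only [inner_A, e, inner_unitary (B.u_unitary _), B.m.map_const]

/-- The average has the same central expectations. -/
lemma inner_A_V (hM : B.Good M) {x : H →L[ℂ] H} (hx : x ∈ M) {v w : H} (hv : v ∈ B.V)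
    (hw : w ∈ B.V) : ⟪w, B.A x v⟫_ℂ = ⟪w, x v⟫_ℂ := by
  have e : ∀ γ, ⟪B.u γ w, x (B.u γ v)⟫_ℂ = ⟪w, x v⟫_ℂ := fun γ => by
    rw [hM.apply_apply_V hx (hM.u_mem γ) hv, ← hM.R_V (hM.u_mem γ) hw,
      inner_unitary (B.R_unitary (B.u_unitary γ))]
  simp only [inner_A, e, B.m.map_const]

lemma u_R_comm (hM : B.Good M) (γ δ : B.G) : B.R (B.u γ) * B.u δ = B.u δ * B.R (B.u γ) :=
  hM.R_comm (hM.u_mem γ) (hM.u_mem δ)

end Good

namespace CZ

variable {S T : H →L[ℂ] H}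

lemma one : B.CZ 1 := fun z _ => by simp

lemma mul (hS : B.CZ S) (hT : B.CZ T) : B.CZ (S * T) := fun z hz => by
  rw [← mul_assoc, hS z hz, mul_assoc, hT z hz, mul_assoc]

lemma add (hS : B.CZ S) (hT : B.CZ T) : B.CZ (S + T) := fun z hz => by
  rw [mul_add, add_mul, hS z hz, hT z hz]

lemma sub (hS : B.CZ S) (hT : B.CZ T) : B.CZ (S - T) := fun z hz => by
  rw [mul_sub, sub_mul, hS z hz, hT z hz]

lemma neg (hT : B.CZ T) : B.CZ (-T) := fun z hz => by rw [mul_neg, neg_mul, hT z hz]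

lemma smul (c : ℂ) (hT : B.CZ T) : B.CZ (c • T) := fun z hz => by
  rw [mul_smul_comm, smul_mul_assoc, hT z hz]

lemma star (hT : B.CZ T) : B.CZ (star T) := fun z hz => by
  simpa using (congrArg Star.star (hT _ (star_mem hz))).symm

lemma apply (hT : B.CZ T) {z : H →L[ℂ] H} (hz : z ∈ B.Z) (ζ : H) : T (z ζ) = z (T ζ) :=
  (congrArg (fun S : H →L[ℂ] H => S ζ) (hT z hz)).symm

end CZ

lemma Ctx.symm {M N : VonNeumannAlgebra H} {D ω e : ℝ} (h : B.Ctx M N D ω e) : B.Ctx N M D ω e :=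
  ⟨h.gN, h.gM, h.cNM, h.cMN, h.om', h.om, h.ep', h.ep, h.sq, h.D_pos, h.D_le, h.ω_nn⟩

lemma Ctx.e_nn {M N : VonNeumannAlgebra H} {D ω e : ℝ} (h : B.Ctx M N D ω e) : 0 ≤ e :=
  (sq_nonneg ω).trans h.sq

lemma SN.mono {T : H →L[ℂ] H} {c c' : ℝ} (h : B.SN T c) (hc : c ≤ c') : B.SN T c' :=
  fun v hv => (h v hv).trans (by gcongr)

lemma WN.mono {N : VonNeumannAlgebra H} {T : H →L[ℂ] H} {c c' : ℝ} (h : B.WN N T c)
    (hc : c ≤ c') : B.WN N T c' := fun n hn v hv w hw => (h n hn v hv w hw).trans (by gcongr)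

lemma WS.mono {M : VonNeumannAlgebra H} {T : H →L[ℂ] H} {c c' : ℝ} (h : B.WS M T c)
    (hc : c ≤ c') : B.WS M T c' := fun a ha b hb v hv => (h a ha b hb v hv).trans (by gcongr)

lemma cm_apply (x n : H →L[ℂ] H) (v : H) : B.cm x n v = x (B.R n v) - B.R n (x v) := rfl

end Base

end Crest.Agent.R078T
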