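import Crest.Agent.R078T.Basic

/-! Row 78, tracial stage: the Cayley transform. -/

set_option autoImplicit false

open scoped InnerProductSpace ComplexConjugate

namespace Crest.Agent.R078T

open Crest.Agent.R121 (Mn Bd)

variable {H : Type*} [NormedAddCommGroup H] [InnerProductSpace ℂ H] [CompleteSpace H]
variable {h k : H →L[ℂ] H}

/-- `‖(1 - i h) ζ‖² = ‖ζ‖² + ‖h ζ‖²`. -/
theorem norm_le_norm_one_sub (hh : IsSelfAdjoint h) (ζ : H) :
    ‖ζ‖ ≤ ‖(1 - Complex.I • h) ζ‖ := by
  have h1 : RCLike.re ⟪ζ, (Complex.I • h) ζ⟫_ℂ = 0 := by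
    have h2 := (hh.isSymmetric.im_inner_self_apply ζ)
    rw [smul_apply, inner_smul_right]
    simpa using h2
  have h3 := norm_sub_sq (𝕜 := ℂ) ζ ((Complex.I • h) ζ)
  rw [h1] at h3
  rw [sub_apply, one_apply_eq_self]
  exact (pow_le_pow_iff_left₀ (norm_nonneg _) (norm_nonneg _) two_ne_zero).1
    (by nlinarith [sq_nonneg ‖(Complex.I • h) ζ‖])

/-- The spectrum of `h` is real (`IsSelfAdjoint.mem_spectrum_eq_re`), `1 - i h = -i (h + i)`. -/
theorem isUnit_one_sub (hh : IsSelfAdjoint h) : IsUnit (1 - Complex.I • h) := by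
  have h1 : (-Complex.I) ∉ spectrum ℂ h := fun e => by
    have := congrArg Complex.im (hh.mem_spectrum_eq_re e)
    simp at this
  rw [spectrum.notMem_iff] at h1
  have h2 : (1 : H →L[ℂ] H) - Complex.I • h =
      algebraMap ℂ (H →L[ℂ] H) Complex.I * (algebraMap ℂ (H →L[ℂ] H) (-Complex.I) - h) := by
    rw [mul_sub, ← map_mul, ← Algebra.smul_def]
    simp
  rw [h2]
  exact ((IsUnit.mk0 _ Complex.I_ne_zero).map _).mul h1

theorem norm_inverse_one_sub (hh : IsSelfAdjoint h) : ‖Ring.inverse (1 - Complex.I • h)‖ ≤ 1 := by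
  refine ContinuousLinearMap.opNorm_le_bound _ zero_le_one fun ζ => ?_
  have h1 := norm_le_norm_one_sub hh (Ring.inverse (1 - Complex.I • h) ζ)
  rw [← mul_apply_eq_comp (1 - Complex.I • h),
    Ring.mul_inverse_cancel _ (isUnit_one_sub hh), one_apply_eq_self] at h1
  rwa [one_mul]

theorem cay_mul (hh : IsSelfAdjoint h) : cay h * (1 - Complex.I • h) = 1 + Complex.I • h := by
  rw [cay, mul_assoc, Ring.inverse_mul_cancel _ (isUnit_one_sub hh), mul_one]

theorem mul_cay (hh : IsSelfAdjoint h) : (1 - Complex.I • h) * cay h = 1 + Complex.I • h := by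
  have h1 : (1 - Complex.I • h) * (1 + Complex.I • h) = (1 + Complex.I • h) * (1 - Complex.I • h) := by
    generalize Complex.I • h = a
    noncomm_ring
  rw [cay, ← mul_assoc, h1, mul_assoc, Ring.mul_inverse_cancel _ (isUnit_one_sub hh), mul_one]

theorem cay_comm (hh : IsSelfAdjoint h) {T : H →L[ℂ] H} (hT : T * h = h * T) :
    T * cay h = cay h * T := by
  have h1 : T * (1 - Complex.I • h) = (1 - Complex.I • h) * T := by
    rw [mul_sub, sub_mul, mul_smul_comm, smul_mul_assoc, hT, mul_one, one_mul]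
  have h2 : T * (1 + Complex.I • h) = (1 + Complex.I • h) * T := by
    rw [mul_add, add_mul, mul_smul_comm, smul_mul_assoc, hT, mul_one, one_mul]
  refine (isUnit_one_sub hh).mul_right_cancel ?_
  rw [mul_assoc, cay_mul hh, mul_assoc, h1, ← mul_assoc, cay_mul hh, h2]

theorem cay_mem (hh : IsSelfAdjoint h) {M : VonNeumannAlgebra H} (hM : h ∈ M) : cay h ∈ M := by
  exact vn_mem_of_comm fun t ht => cay_comm hh (vn_comm hM ht)

theorem star_cay (hh : IsSelfAdjoint h) : star (cay h) = cay (-h) := by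
  have h1 := congrArg star (mul_cay hh)
  have e1 : star (1 - Complex.I • h) = 1 - Complex.I • (-h) := by
    rw [star_sub, star_one, star_smul, hh.star_eq]; simp
  have e2 : star (1 + Complex.I • h) = 1 + Complex.I • (-h) := by
    rw [star_add, star_one, star_smul, hh.star_eq]; simp
  rw [star_mul, e1, e2, ← cay_mul hh.neg] at h1
  exact (isUnit_one_sub hh.neg).mul_right_cancel h1

theorem cay_unitary (hh : IsSelfAdjoint h) : cay h ∈ unitary (H →L[ℂ] H) := by
  have key : ∀ {h : H →L[ℂ] H}, IsSelfAdjoint h → cay (-h) * cay h = 1 := fun {h} hh => by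
    refine (isUnit_one_sub hh).mul_right_cancel ?_
    have h1 := cay_mul hh.neg
    rw [smul_neg, sub_neg_eq_add, ← sub_eq_add_neg] at h1
    rw [mul_assoc, cay_mul hh, h1, one_mul]
  rw [Unitary.mem_iff, star_cay hh]
  exact ⟨key hh, by simpa using key hh.neg⟩

theorem cay_zero : cay (0 : H →L[ℂ] H) = 1 := by
  simp [cay]

/-- `(1 - i h) (cay h - 1) = 2 i h`. -/
theorem norm_cay_apply_sub (hh : IsSelfAdjoint h) (ζ : H) : ‖cay h ζ - ζ‖ ≤ 2 * ‖h ζ‖ := by
  have h1 : (1 - Complex.I • h) * (cay h - 1) = (2 * Complex.I) • h := by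
    rw [mul_sub, mul_cay hh, mul_one, mul_smul, two_smul]
    abel
  have h2 := norm_le_norm_one_sub hh ((cay h - 1) ζ)
  rw [← mul_apply_eq_comp (1 - Complex.I • h), h1, smul_apply, norm_smul, sub_apply,
    one_apply_eq_self] at h2
  simpa using h2

theorem norm_cay_sub_one (hh : IsSelfAdjoint h) : ‖cay h - 1‖ ≤ 2 * ‖h‖ := by
  refine ContinuousLinearMap.opNorm_le_bound _ (by positivity) fun ζ => ?_
  have h1 := norm_cay_apply_sub hh ζ
  have h2 := h.le_opNorm ζ
  rw [sub_apply, one_apply_eq_self]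
  linarith

/-- `(1 - i h) (cay h - 1 - 2 i h) = -2 h²`. -/
theorem norm_cay_second (hh : IsSelfAdjoint h) :
    ‖cay h - 1 - (2 * Complex.I) • h‖ ≤ 2 * ‖h‖ ^ 2 := by
  have h1 : (1 - Complex.I • h) * (cay h - 1 - (2 * Complex.I) • h) = (-2 : ℂ) • (h * h) := by
    have h2 : Complex.I • h * (2 * Complex.I) • h = (-2 : ℂ) • (h * h) := by
      rw [smul_mul_smul_comm]
      congr 1
      linear_combination 2 * Complex.I_mul_I
    rw [mul_sub, mul_sub, mul_cay hh, mul_one, sub_mul, one_mul, h2, mul_smul, two_smul]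
    abel
  refine ContinuousLinearMap.opNorm_le_bound _ (by positivity) fun ζ => ?_
  have h2 := norm_le_norm_one_sub hh ((cay h - 1 - (2 * Complex.I) • h) ζ)
  rw [← mul_apply_eq_comp (1 - Complex.I • h), h1, smul_apply, norm_smul] at h2
  have h3 : ‖(h * h) ζ‖ ≤ ‖h‖ ^ 2 * ‖ζ‖ :=
    (h * h).le_of_opNorm_le ((norm_mul_le _ _).trans_eq (sq _).symm) ζ
  have h4 : ‖(-2 : ℂ)‖ = 2 := by simp
  rw [h4] at h2
  linarith

/-- `cay h = 2 (1 - i h)⁻¹ - 1` and the resolvent identity. -/
theorem norm_cay_sub_cay (hh : IsSelfAdjoint h) (hk : IsSelfAdjoint k) :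
    ‖cay h - cay k‖ ≤ 2 * ‖h - k‖ := by
  have key : ∀ {h : H →L[ℂ] H}, IsSelfAdjoint h →
      cay h = (2 : ℂ) • Ring.inverse (1 - Complex.I • h) - 1 := fun {h} hh => by
    refine (isUnit_one_sub hh).mul_right_cancel ?_
    rw [cay_mul hh, sub_mul, smul_mul_assoc, Ring.inverse_mul_cancel _ (isUnit_one_sub hh),
      one_mul, two_smul]
    abel
  have h1 : Ring.inverse (1 - Complex.I • h) - Ring.inverse (1 - Complex.I • k) =
      Ring.inverse (1 - Complex.I • h) * (Complex.I • (h - k)) *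
        Ring.inverse (1 - Complex.I • k) := by
    have : Complex.I • (h - k) = (1 - Complex.I • k) - (1 - Complex.I • h) := by
      rw [smul_sub]; abel
    rw [this, mul_sub, sub_mul, mul_assoc, Ring.mul_inverse_cancel _ (isUnit_one_sub hk),
      Ring.inverse_mul_cancel _ (isUnit_one_sub hh), mul_one, one_mul]
  rw [key hh, key hk, sub_sub_sub_cancel_right, ← smul_sub, norm_smul, h1]
  have h2 := norm_inverse_one_sub hh
  have h3 := norm_inverse_one_sub hk
  have h4 : ‖Complex.I • (h - k)‖ = ‖h - k‖ := by rw [norm_smul, Complex.norm_I, one_mul]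
  have h5 : ‖(2 : ℂ)‖ = 2 := by simp
  rw [h5]
  refine mul_le_mul_of_nonneg_left ?_ zero_le_two
  calc _ ≤ ‖Ring.inverse (1 - Complex.I • h)‖ * ‖Complex.I • (h - k)‖ *
        ‖Ring.inverse (1 - Complex.I • k)‖ := norm_mul₃_le
    _ ≤ 1 * ‖h - k‖ * 1 := by rw [h4]; gcongr
    _ = ‖h - k‖ := by ring

theorem cay_apply_of_eq_zero (hh : IsSelfAdjoint h) {ζ : H} (h0 : h ζ = 0) : cay h ζ = ζ := by
  have h1 := norm_cay_apply_sub hh ζ
  rw [h0, norm_zero, mul_zero, norm_le_zero_iff, sub_eq_zero] at h1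
  exact h1

/-- Apply `R` (linear, anti-multiplicative) to `cay_mul`. -/
theorem Base.R_cay (B : Base H) (hh : IsSelfAdjoint h) : B.R (cay h) = cay (B.R h) := by
  have hR : IsSelfAdjoint (B.R h) := by rw [IsSelfAdjoint, ← B.R_star, hh.star_eq]
  have h1 := congrArg B.R (mul_cay hh)
  rw [B.R_mul, B.R_sub, B.R_add, B.R_one, B.R_smul, ← cay_mul hR] at h1
  exact (isUnit_one_sub hR).mul_right_cancel h1

end Crest.Agent.R078T
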