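import Crest.Agent.R078T.Ell2
import Crest.Agent.R078T.Cay

/-! Row 78, tracial stage: additivity of the trace of the logarithm along gapped paths. -/

set_option autoImplicit false

open scoped InnerProductSpace ComplexConjugate

namespace Crest.Agent.R078T

open Crest.Agent.R121 (Mn Bd)

variable {H : Type*} [NormedAddCommGroup H] [InnerProductSpace ℂ H] [CompleteSpace H]
variable {M : VonNeumannAlgebra H} {w : H} {η : ℝ}

lemma EllPath_quad {f : ℝ → ℝ} {C : ℝ}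
    (h : ∀ s ∈ Set.Icc (0 : ℝ) 1, ∀ t ∈ Set.Icc (0 : ℝ) 1, |f t - f s| ≤ C * |s - t| ^ 2) :
    f 1 = f 0 := by
  have hC : 0 ≤ C := by
    have := h 0 (by norm_num) 1 (by norm_num)
    have h2 := abs_nonneg (f 1 - f 0)
    norm_num at this
    linarith
  have key : ∀ n : ℕ, 0 < n → |f 1 - f 0| ≤ C / n := by
    intro n hn
    have hn' : (0 : ℝ) < n := by exact_mod_cast hn
    have : ∀ k : ℕ, k ≤ n → |f (k / n) - f 0| ≤ k * (C / n ^ 2) := by
      intro k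
      induction k with
      | zero => intro _; simp
      | succ k ih =>
        intro hk
        have hk' : ((k : ℝ) + 1) ≤ n := by exact_mod_cast hk
        have hk0 : (0 : ℝ) ≤ k := Nat.cast_nonneg k
        have h1 := ih (by omega)
        have h2 := h (k / n) ⟨by positivity, by rw [div_le_one hn']; linarith⟩ (((k + 1 : ℕ) : ℝ) / n)
          ⟨by positivity, by rw [div_le_one hn']; exact_mod_cast hk⟩
        have h3 : |(k : ℝ) / n - ((k + 1 : ℕ) : ℝ) / n| ^ 2 = 1 / n ^ 2 := by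
          rw [sq_abs]; push_cast; field_simp; ring
        rw [h3] at h2
        have h4 := abs_sub_le (f (((k + 1 : ℕ) : ℝ) / n)) (f (k / n)) (f 0)
        have h5 : ((k + 1 : ℕ) : ℝ) * (C / n ^ 2) = k * (C / n ^ 2) + C * (1 / n ^ 2) := by
          push_cast; ring
        linarith
    have h1 := this n le_rfl
    rw [div_self hn'.ne'] at h1
    refine h1.trans_eq ?_
    field_simp
  have : |f 1 - f 0| ≤ 0 := by
    refine ge_of_tendsto (tendsto_const_div_atTop_nhds_zero_nat C) ?_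
    filter_upwards [Filter.eventually_gt_atTop 0] with n hn using key n hn
  have := abs_nonpos_iff.1 this
  linarith

/-- The power `x ^ t` of a unitary. -/
noncomputable def EllPath_pw (x : H →L[ℂ] H) (t : ℝ) : H →L[ℂ] H :=
  cfc (fun z : ℂ => Complex.exp (Complex.I * ((t * z.arg : ℝ) : ℂ))) x

lemma EllPath_cont {x : H →L[ℂ] H} (hs : spectrum ℂ x ⊆ Complex.slitPlane) (t : ℝ) :
    ContinuousOn (fun z : ℂ => Complex.exp (Complex.I * ((t * z.arg : ℝ) : ℂ))) (spectrum ℂ x) := by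
  have h1 : ContinuousOn Complex.arg (spectrum ℂ x) := fun z hz =>
    (Complex.continuousAt_arg (hs hz)).continuousWithinAt
  refine Complex.continuous_exp.comp_continuousOn (continuousOn_const.mul ?_)
  exact Complex.continuous_ofReal.comp_continuousOn (continuousOn_const.mul h1)

lemma EllPath_pw_zero {x : H →L[ℂ] H} (hx : x ∈ unitary (H →L[ℂ] H)) : EllPath_pw x 0 = 1 := by
  have : IsStarNormal x := isStarNormal_of_mem_unitary hx
  simp only [EllPath_pw, zero_mul, Complex.ofReal_zero, mul_zero, Complex.exp_zero]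
  exact cfc_const_one ℂ x

lemma EllPath_spec {x : H →L[ℂ] H} (hx : x ∈ unitary (H →L[ℂ] H)) {z : ℂ}
    (hz : z ∈ spectrum ℂ x) : Complex.exp (Complex.I * ((z.arg : ℝ) : ℂ)) = z := by
  have h1 : ‖z‖ = 1 := by
    have := spectrum.subset_circle_of_unitary hx hz
    simpa using this
  have := Complex.norm_mul_exp_arg_mul_I z
  rw [h1] at this
  rw [mul_comm]
  simpa using this

lemma EllPath_pw_one {x : H →L[ℂ] H} (hx : x ∈ unitary (H →L[ℂ] H)) : EllPath_pw x 1 = x := by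
  have : IsStarNormal x := isStarNormal_of_mem_unitary hx
  unfold EllPath_pw
  rw [cfc_congr (g := id) fun z hz => by simpa using EllPath_spec hx hz]
  exact cfc_id ℂ x

lemma EllPath_pw_unitary {x : H →L[ℂ] H} (hx : x ∈ unitary (H →L[ℂ] H))
    (hs : spectrum ℂ x ⊆ Complex.slitPlane) (t : ℝ) : EllPath_pw x t ∈ unitary (H →L[ℂ] H) := by
  have : IsStarNormal x := isStarNormal_of_mem_unitary hx
  unfold EllPath_pw
  rw [cfc_unitary_iff _ x (hf := EllPath_cont hs t)]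
  intro z _
  have := Complex.norm_exp_I_mul_ofReal (t * z.arg)
  rw [Complex.star_def, Complex.conj_mul', this]
  simp

lemma EllPath_pw_sub {x : H →L[ℂ] H}
    (hs : spectrum ℂ x ⊆ Complex.slitPlane) (t t' : ℝ) :
    ‖EllPath_pw x t - EllPath_pw x t'‖ ≤ Real.pi * |t - t'| := by
  unfold EllPath_pw
  rw [← cfc_sub _ _ x (EllPath_cont hs t) (EllPath_cont hs t')]
  refine norm_cfc_le (by positivity) fun z _ => ?_
  have h1 : Complex.exp (Complex.I * ((t * z.arg : ℝ) : ℂ)) -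
      Complex.exp (Complex.I * ((t' * z.arg : ℝ) : ℂ)) =
      Complex.exp (Complex.I * ((t' * z.arg : ℝ) : ℂ)) *
        (Complex.exp (Complex.I * (((t - t') * z.arg : ℝ) : ℂ)) - 1) := by
    rw [mul_sub, ← Complex.exp_add, mul_one]
    congr 2
    push_cast; ring
  rw [h1, norm_mul, Complex.norm_exp_I_mul_ofReal, one_mul]
  refine Real.norm_exp_I_mul_ofReal_sub_one_le.trans ?_
  rw [Real.norm_eq_abs, abs_mul, mul_comm]
  gcongr
  exact Complex.abs_arg_le_pi z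

lemma EllPath_pw_pow {x : H →L[ℂ] H} (hx : x ∈ unitary (H →L[ℂ] H))
    (hs : spectrum ℂ x ⊆ Complex.slitPlane) (t : ℝ) (k : ℕ) :
    EllPath_pw x t ^ k = EllPath_pw x (k * t) := by
  have : IsStarNormal x := isStarNormal_of_mem_unitary hx
  unfold EllPath_pw
  rw [← cfc_pow _ k x (EllPath_cont hs t)]
  refine cfc_congr fun z _ => ?_
  rw [← Complex.exp_nat_mul]
  congr 1
  push_cast; ring

lemma EllPath_exp_mono {θ t : ℝ} (hθ : |θ| ≤ Real.pi) (ht : t ∈ Set.Icc (0 : ℝ) 1) :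
    ‖Complex.exp (Complex.I * ((t * θ : ℝ) : ℂ)) - 1‖ ≤
      ‖Complex.exp (Complex.I * (θ : ℂ)) - 1‖ := by
  rw [Complex.norm_exp_I_mul_ofReal_sub_one, Complex.norm_exp_I_mul_ofReal_sub_one,
    Real.norm_eq_abs, Real.norm_eq_abs, abs_mul, abs_mul]
  have hpi := Real.pi_pos
  have h0 := abs_nonneg θ
  have h1 : |t * θ / 2| ≤ |θ / 2| := by
    rw [abs_div, abs_div, abs_mul, abs_of_nonneg ht.1]
    have := mul_le_of_le_one_left h0 ht.2
    gcongr
  have h2 : |θ / 2| ≤ Real.pi / 2 := by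
    rw [abs_div, abs_two]; linarith
  rw [Real.abs_sin_eq_sin_abs_of_abs_le_pi (by linarith),
    Real.abs_sin_eq_sin_abs_of_abs_le_pi (by linarith)]
  gcongr
  exact Real.sin_le_sin_of_le_of_le_pi_div_two (by linarith [abs_nonneg (t * θ / 2)]) h2 h1

lemma EllPath_pw_sub_one {x : H →L[ℂ] H} (hx : x ∈ unitary (H →L[ℂ] H))
    (hs : spectrum ℂ x ⊆ Complex.slitPlane) {t : ℝ} (ht : t ∈ Set.Icc (0 : ℝ) 1) :
    ‖EllPath_pw x t - 1‖ ≤ ‖x - 1‖ := by
  have : IsStarNormal x := isStarNormal_of_mem_unitary hx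
  unfold EllPath_pw
  rw [← cfc_const_one ℂ x, ← cfc_sub _ _ x (EllPath_cont hs t) continuousOn_const]
  refine norm_cfc_le (norm_nonneg _) fun z hz => ?_
  refine (EllPath_exp_mono (Complex.abs_arg_le_pi z) ht).trans ?_
  rw [EllPath_spec hx hz]
  have h1 := norm_apply_le_norm_cfc (fun z : ℂ => z - 1) x hz
  have h2 : cfc (fun z : ℂ => z - 1) x = x - cfc (fun _ : ℂ => (1 : ℂ)) x := by
    rw [cfc_sub (fun z : ℂ => z) (fun _ => 1) x, cfc_id' ℂ x]
  rwa [h2] at h1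

lemma EllPath_qf_lg_one (w : H) : qf (lg (1 : H →L[ℂ] H)) w = 0 := by
  rw [lg_one]; simp [qf]

/-- `f t = ell (γ t) - ell (σ t)` satisfies `|f s - f t| ≤ C |s - t|²` on `[0, 1]`
(`ell_second`); sum over the partition `k / n`. -/
theorem ell_path (hw : TrV M w) (hη : 0 < η) {γ σ : ℝ → (H →L[ℂ] H)} {L : ℝ}
    (hγ : ∀ t ∈ Set.Icc (0 : ℝ) 1, γ t ∈ M ∧ γ t ∈ unitary _ ∧ Gap (γ t) η)
    (hσ : ∀ t ∈ Set.Icc (0 : ℝ) 1, σ t ∈ M ∧ σ t ∈ unitary _ ∧ Gap (σ t) η)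
    (hL : ∀ s ∈ Set.Icc (0 : ℝ) 1, ∀ t ∈ Set.Icc (0 : ℝ) 1,
      ‖γ s - γ t‖ ≤ L * |s - t| ∧ ‖σ s - σ t‖ ≤ L * |s - t|)
    (h : ∀ s ∈ Set.Icc (0 : ℝ) 1, ∀ t ∈ Set.Icc (0 : ℝ) 1,
      ⟪w, (star (γ s) * γ t) w⟫_ℂ = ⟪w, (star (σ s) * σ t) w⟫_ℂ) :
    qf (lg (γ 1)) w - qf (lg (γ 0)) w = qf (lg (σ 1)) w - qf (lg (σ 0)) w := by
  have key : (fun t => qf (lg (γ t)) w - qf (lg (σ t)) w) 1 =
      (fun t => qf (lg (γ t)) w - qf (lg (σ t)) w) 0 := by
    refine EllPath_quad (f := fun t => qf (lg (γ t)) w - qf (lg (σ t)) w)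
      (C := 2 * (8 / η ^ 3 * L ^ 2 * ‖w‖ ^ 2)) fun s hs t ht => ?_
    obtain ⟨a1, a2, a3⟩ := hγ s hs
    obtain ⟨b1, b2, b3⟩ := hγ t ht
    obtain ⟨c1, c2, c3⟩ := hσ s hs
    obtain ⟨d1, d2, d3⟩ := hσ t ht
    have e1 := ell_second hη a1 b1 a2 b2 a3 b3 hw
    have e2 := ell_second hη c1 d1 c2 d2 c3 d3 hw
    rw [h s hs t ht] at e1
    obtain ⟨l1, l2⟩ := hL s hs t ht
    have f1 : 8 / η ^ 3 * ‖γ s - γ t‖ ^ 2 * ‖w‖ ^ 2 ≤
        8 / η ^ 3 * (L * |s - t|) ^ 2 * ‖w‖ ^ 2 := by gcongr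
    have f2 : 8 / η ^ 3 * ‖σ s - σ t‖ ^ 2 * ‖w‖ ^ 2 ≤
        8 / η ^ 3 * (L * |s - t|) ^ 2 * ‖w‖ ^ 2 := by gcongr
    have f3 : 2 * (8 / η ^ 3 * L ^ 2 * ‖w‖ ^ 2) * |s - t| ^ 2 =
        2 * (8 / η ^ 3 * (L * |s - t|) ^ 2 * ‖w‖ ^ 2) := by ring
    rw [f3]
    rw [abs_le] at e1 e2 ⊢
    constructor <;> linarith [e1.1, e1.2, e2.1, e2.2]
  simp only at key
  linarith

/-- The path `σ t = cfc (fun z => exp (i t arg z)) s` from `1` to `s`: `‖σ t - 1‖ ≤ ‖s - 1‖`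
(`norm_cfc_le`; `‖z - 1‖ ≤ ‖s - 1‖` on the spectrum), Lipschitz with constant `π`. -/
theorem exists_path {s : H →L[ℂ] H} (hs : s ∈ M) (hs' : s ∈ unitary _) (h : ‖s - 1‖ ≤ 1) :
    ∃ σ : ℝ → (H →L[ℂ] H), σ 0 = 1 ∧ σ 1 = s ∧
      (∀ t ∈ Set.Icc (0 : ℝ) 1, σ t ∈ M ∧ σ t ∈ unitary _ ∧ ‖σ t - 1‖ ≤ ‖s - 1‖) ∧
      ∀ t t' : ℝ, ‖σ t - σ t'‖ ≤ Real.pi * |t - t'| := by
  have hsl : spectrum ℂ s ⊆ Complex.slitPlane :=
    (gap_of_norm h).slit hs' (by norm_num)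
  exact ⟨EllPath_pw s, EllPath_pw_zero hs', EllPath_pw_one hs', fun t ht =>
    ⟨vn_cfc_mem hs _, EllPath_pw_unitary hs' hsl t, EllPath_pw_sub_one hs' hsl ht⟩,
    EllPath_pw_sub hsl⟩

/-- `ell_path` with `γ t = x σ t`. -/
theorem ell_mul (hw : TrV M w) {x s : H →L[ℂ] H} (hx : x ∈ M) (hs : s ∈ M) (hx' : x ∈ unitary _)
    (hs' : s ∈ unitary _) (gx : Gap x η) (h : ‖s - 1‖ < η) (h1 : ‖s - 1‖ ≤ 1) :
    qf (lg (x * s)) w = qf (lg x) w + qf (lg s) w := by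
  obtain ⟨σ, h0, h1', hσ, hL⟩ := exists_path hs hs' h1
  have hxn := norm_unitary_le hx'
  have hmul : ∀ T : H →L[ℂ] H, ‖x * T‖ ≤ ‖T‖ := fun T =>
    (norm_mul_le _ _).trans (mul_le_of_le_one_left (norm_nonneg _) hxn)
  have key := ell_path (γ := fun t => x * σ t) (σ := σ) (η := min (η - ‖s - 1‖) 1)
    (L := Real.pi) hw (lt_min (by linarith) one_pos)
    (fun t ht => by
      obtain ⟨a1, a2, a3⟩ := hσ t ht
      refine ⟨mul_mem hx a1, mul_mem hx' a2, (gx.perturb ?_).mono (min_le_left _ _)⟩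
      have : x - x * σ t = x * (1 - σ t) := by rw [mul_sub, mul_one]
      rw [this]
      refine (hmul _).trans ?_
      rwa [norm_sub_rev])
    (fun t ht => by
      obtain ⟨a1, a2, a3⟩ := hσ t ht
      exact ⟨a1, a2, (gap_of_norm (a3.trans h1)).mono ((min_le_right _ _).trans (by norm_num))⟩)
    (fun a _ b _ => ⟨by
      rw [← mul_sub]
      exact (hmul _).trans (hL a b), hL a b⟩)
    (fun a _ b _ => by
      rw [star_mul, mul_assoc, ← mul_assoc (star x), Unitary.star_mul_self_of_mem hx', one_mul])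
  simp only [h0, h1', mul_one, EllPath_qf_lg_one] at key
  linarith

theorem ell_mul_near (hw : TrV M w) {x s : H →L[ℂ] H} (hx : x ∈ M) (hs : s ∈ M)
    (hx' : x ∈ unitary _) (hs' : s ∈ unitary _) (h : ‖x - 1‖ ≤ 1 / 2) (h1 : ‖s - 1‖ ≤ 1 / 2) :
    qf (lg (x * s)) w = qf (lg x) w + qf (lg s) w := by
  exact ell_mul hw hx hs hx' hs' (gap_of_norm h) (by linarith) (by linarith)

/-- `ell_path` with `σ t = cay (t h)`, `γ t = σ t x`; trace property. -/
theorem ell_cay_mul (hw : TrV M w) (hη : 0 < η) {x h : H →L[ℂ] H} (hx : x ∈ M) (hh : h ∈ M)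
    (hx' : x ∈ unitary _) (hsa : IsSelfAdjoint h) (h1 : ‖h‖ ≤ 1 / 4)
    (g : ∀ t ∈ Set.Icc (0 : ℝ) 1, Gap (cay ((t : ℂ) • h) * x) η) :
    qf (lg (cay h * x)) w = qf (lg (cay h)) w + qf (lg x) w := by
  have hsa' : ∀ t : ℝ, IsSelfAdjoint ((t : ℂ) • h) := fun t => by
    rw [IsSelfAdjoint, star_smul, hsa.star_eq, Complex.star_def, Complex.conj_ofReal]
  have hxn := norm_unitary_le hx'
  have hmul : ∀ T : H →L[ℂ] H, ‖T * x‖ ≤ ‖T‖ := fun T =>
    (norm_mul_le _ _).trans (mul_le_of_le_one_right (norm_nonneg _) hxn)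
  have hmem : ∀ t : ℝ, cay ((t : ℂ) • h) ∈ M := fun t => cay_mem (hsa' t) (vn_smul_mem _ hh)
  have hL : ∀ a b : ℝ, ‖cay ((a : ℂ) • h) - cay ((b : ℂ) • h)‖ ≤ 1 * |a - b| := fun a b => by
    refine (norm_cay_sub_cay (hsa' a) (hsa' b)).trans ?_
    rw [← sub_smul, norm_smul, ← Complex.ofReal_sub, Complex.norm_real, Real.norm_eq_abs]
    nlinarith [abs_nonneg (a - b)]
  have key := ell_path (γ := fun t => cay ((t : ℂ) • h) * x) (σ := fun t => cay ((t : ℂ) • h))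
    (η := min η 1) (L := 1) hw (lt_min hη one_pos)
    (fun t ht => ⟨mul_mem (hmem t) hx, mul_mem (cay_unitary (hsa' t)) hx',
      (g t ht).mono (min_le_left _ _)⟩)
    (fun t ht => by
      refine ⟨hmem t, cay_unitary (hsa' t), (gap_of_norm (r := 1) ?_).mono
        ((min_le_right _ _).trans (by norm_num))⟩
      refine (norm_cay_sub_one (hsa' t)).trans ?_
      rw [norm_smul, Complex.norm_real, Real.norm_eq_abs, abs_of_nonneg ht.1]
      nlinarith [ht.1, ht.2, norm_nonneg h])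
    (fun a _ b _ => ⟨by
      rw [← sub_mul]
      exact (hmul _).trans (hL a b), hL a b⟩)
    (fun a _ b _ => by
      rw [star_mul, mul_assoc, hw _ (star_mem hx) _
        (mul_mem (star_mem (hmem a)) (mul_mem (hmem b) hx)), mul_assoc, mul_assoc,
        Unitary.mul_star_self_of_mem hx', mul_one])
  simp only [Complex.ofReal_one, one_smul, Complex.ofReal_zero, zero_smul, cay_zero, one_mul,
    EllPath_qf_lg_one] at key
  linarith

/-- `s = cfc (fun z => exp (i arg z / k)) x`. -/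
theorem exists_root (hη : 0 < η) {x : H →L[ℂ] H} (hx : x ∈ M) (hx' : x ∈ unitary _) (g : Gap x η)
    {k : ℕ} (hk : 0 < k) : ∃ s ∈ M, s ∈ unitary _ ∧ s ^ k = x ∧ ‖s - 1‖ ≤ Real.pi / k := by
  have hsl := g.slit hx' hη
  have hk' : (0 : ℝ) < k := by exact_mod_cast hk
  refine ⟨EllPath_pw x (1 / k), vn_cfc_mem hx _, EllPath_pw_unitary hx' hsl _, ?_, ?_⟩
  · rw [EllPath_pw_pow hx' hsl, mul_one_div_cancel hk'.ne', EllPath_pw_one hx']
  · have := EllPath_pw_sub hsl (1 / k) 0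
    rw [EllPath_pw_zero hx', sub_zero, abs_of_pos (by positivity)] at this
    rwa [mul_one_div] at this

end Crest.Agent.R078T
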