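import Crest.Agent.R078T.Spec
import Crest.Agent.R078T.Cay

/-! Row 78, tracial stage: opening a spectral gap. -/

set_option autoImplicit false

open scoped InnerProductSpace ComplexConjugate

namespace Crest.Agent.R078T

open Crest.Agent.R121 (Mn Bd)

variable {H : Type*} [NormedAddCommGroup H] [InnerProductSpace ℂ H] [CompleteSpace H]

lemma openGap_real {n β p q α η r : ℝ} (hn : 0 ≤ n) (hβ : 0 ≤ β) (hq : 0 ≤ q)
    (hη0 : 0 ≤ η) (h1 : β ≤ 2 * n) (h2 : β ^ 2 ≤ n * p) (h3 : p ^ 2 ≤ β * q)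
    (h4 : α ^ 2 + β ^ 2 = 4 * n ^ 2) (h5 : η ≤ r * n) (hr0 : 0 ≤ r) (hr : r ≤ 1 / 2) :
    r ^ 2 * (n ^ 2 + η ^ 2) ≤ α ^ 2 + (r / 4 * q) ^ 2 := by
  have hr2 : r ^ 2 ≤ 1 / 4 := by nlinarith
  have hη : η ^ 2 ≤ n ^ 2 / 4 := by
    have h6 : η ≤ n / 2 := by nlinarith
    nlinarith
  have h7 : r ^ 2 * (n ^ 2 + η ^ 2) ≤ r ^ 2 * (5 / 4 * n ^ 2) :=
    mul_le_mul_of_nonneg_left (by linarith) (sq_nonneg r)
  rcases le_total (β ^ 2) (3 * n ^ 2) with h | h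
  · have h8 : r ^ 2 * (5 / 4 * n ^ 2) ≤ 1 / 4 * (5 / 4 * n ^ 2) :=
      mul_le_mul_of_nonneg_right hr2 (by positivity)
    nlinarith [sq_nonneg (r / 4 * q), sq_nonneg n]
  · rcases hn.eq_or_lt with h0 | h0
    · subst h0
      nlinarith [sq_nonneg (r / 4 * q), sq_nonneg α]
    · have h8 : 3 * n ≤ p := le_of_mul_le_mul_left (by nlinarith) h0
      have h9 : β * q ≤ 2 * n * q := mul_le_mul_of_nonneg_right h1 hq
      have h10 : 9 / 2 * n ≤ q := le_of_mul_le_mul_left (by nlinarith) h0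
      have h11 : 81 / 4 * n ^ 2 ≤ q ^ 2 := by nlinarith
      have h12 := mul_le_mul_of_nonneg_left h11 (sq_nonneg r)
      have h13 : 0 ≤ r ^ 2 * n ^ 2 := by positivity
      nlinarith [sq_nonneg α]

lemma openGap_re_I {h : H →L[ℂ] H} (hh : IsSelfAdjoint h) (u : H) :
    (⟪u, Complex.I • h u⟫_ℂ).re = 0 := by
  have h1 : conj ⟪u, h u⟫_ℂ = ⟪u, h u⟫_ℂ := by
    rw [inner_conj_symm, ← inner_star_right, hh.star_eq]
  rw [inner_smul_right, Complex.mul_re, Complex.conj_eq_iff_im.1 h1]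
  simp

lemma openGap_norm_le {T : H →L[ℂ] H} (hT : IsSelfAdjoint T) {C : ℝ} (hC : 0 ≤ C)
    (h : ∀ ζ, |qf T ζ| ≤ C * ‖ζ‖ ^ 2) : ‖T‖ ≤ C := by
  rw [ContinuousLinearMap.norm_eq_iSup_rayleighQuotient T hT.isSymmetric]
  refine Real.iSup_le (fun ζ => ?_) hC
  have h1 : T.reApplyInnerSelf ζ = qf T ζ := by
    rw [ContinuousLinearMap.reApplyInnerSelf, qf, ← inner_conj_symm]
    exact Complex.conj_re _
  rw [ContinuousLinearMap.rayleighQuotient, abs_div, abs_sq, h1]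
  exact div_le_of_le_mul₀ (sq_nonneg _) hC (h ζ)

/-- Let `a = (x + x⋆) / 2`, `b = (x - x⋆) / (2 i)`, `s` from `exists_sign b`,
`h = (r / 4) s (x + 1)⋆ (x + 1) = (r / 2) s (1 + a)`; everything commutes. For `ζ = (1 - i h) ζ'`,
`(cay h x - 1) ζ = ((x - 1) + i h (x + 1)) ζ'` whose squared norm is
`qf ((2 - 2 a) + h² (2 + 2 a) + 4 h b) ζ'`; `h b = (r / 2) (1 + a) s b ≥ 0` (write
`2 (1 + a) = (x + 1)⋆ (x + 1)`), `h² (2 + 2 a) = r² (1 + a)³ / 2`, and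
`2 - 2 a + r² (1 + a)³ / 2 ≥ r² (1 + r²)` on `[-1, 1]`, while `‖ζ‖² ≤ (1 + r²) ‖ζ'‖²`. -/
theorem exists_open {x : H →L[ℂ] H} (hx : x ∈ unitary (H →L[ℂ] H)) {r : ℝ} (hr0 : 0 ≤ r)
    (hr : r ≤ 1 / 2) :
    ∃ h : H →L[ℂ] H, IsSelfAdjoint h ∧ (∀ T, T * x = x * T → T * h = h * T) ∧ ‖h‖ ≤ r ∧
      (∀ ζ, ‖h ζ‖ ≤ r / 2 * ‖x ζ + ζ‖) ∧ Gap (-(cay h * x)) r := by
  have hx1 : star x * x = 1 := Unitary.star_mul_self_of_mem hx
  have hx2 : x * star x = 1 := Unitary.mul_star_self_of_mem hx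
  have hst : ∀ T : H →L[ℂ] H, T * x = x * T → T * star x = star x * T := by
    intro T hT
    calc T * star x = star x * x * T * star x := by rw [hx1, one_mul]
      _ = star x * T * (x * star x) := by simp only [mul_assoc, ← hT]
      _ = star x * T := by rw [hx2, mul_one]
  obtain ⟨b, hb⟩ : ∃ b : H →L[ℂ] H, b = Complex.I • (star x - x) := ⟨_, rfl⟩
  have hbs : IsSelfAdjoint b := by
    rw [hb, IsSelfAdjoint, star_smul, star_sub, star_star, Complex.star_def, Complex.conj_I,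
      neg_smul, ← smul_neg, neg_sub]
  have hTb : ∀ T : H →L[ℂ] H, T * x = x * T → T * b = b * T := by
    intro T hT
    rw [hb, mul_smul_comm, smul_mul_assoc, mul_sub, sub_mul, hT, hst T hT]
  obtain ⟨s, hs1, hs2, hs3, hs4⟩ := exists_sign hbs
  obtain ⟨y, hy⟩ : ∃ y : H →L[ℂ] H, y = x + 1 := ⟨_, rfl⟩
  have hya : ∀ ζ, y ζ = x ζ + ζ := fun ζ => by rw [hy]; rfl
  have hys : star y = star x * y := by
    rw [hy, star_add, star_one, mul_add, hx1, mul_one, add_comm]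
  have hTy : ∀ T : H →L[ℂ] H, T * x = x * T → T * y = y * T := by
    intro T hT
    rw [hy, mul_add, add_mul, hT, mul_one, one_mul]
  have hTy' : ∀ T : H →L[ℂ] H, T * x = x * T → T * star y = star y * T := by
    intro T hT
    rw [hys, ← mul_assoc, hst T hT, mul_assoc, hTy T hT, mul_assoc]
  have hsx : s * x = x * s := (hs3 x (hTb x rfl)).symm
  have hsu : s ∈ unitary (H →L[ℂ] H) := ⟨by rw [hs1.star_eq, hs2], by rw [hs1.star_eq, hs2]⟩
  have hny : ∀ ζ, ‖y ζ‖ ≤ 2 * ‖ζ‖ := fun ζ => by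
    rw [hya]
    have := norm_add_le (x ζ) ζ
    rw [norm_unitary_apply hx] at this
    linarith
  have hnys : ∀ ζ, ‖star y ζ‖ = ‖y ζ‖ := fun ζ => by
    rw [hys, mul_apply_eq_comp, norm_unitary_apply (Unitary.star_mem hx)]
  have hCS : ∀ ζ, ‖y ζ‖ ^ 2 ≤ ‖ζ‖ * ‖y (y ζ)‖ := fun ζ => by
    rw [← hnys (y ζ), ← inner_self_eq_norm_sq (𝕜 := ℂ), ← inner_star_right]
    exact re_inner_le_norm _ _
  obtain ⟨h, hh⟩ : ∃ h : H →L[ℂ] H, h = ((r / 4 : ℝ) : ℂ) • (s * (star y * y)) := ⟨_, rfl⟩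
  have hsa : IsSelfAdjoint h := by
    rw [hh, IsSelfAdjoint, star_smul, star_mul, star_mul, star_star, hs1.star_eq,
      Complex.star_def, Complex.conj_ofReal, ← mul_assoc s, hTy' s hsx, mul_assoc, mul_assoc,
      hTy s hsx]
  have hTh : ∀ T : H →L[ℂ] H, T * x = x * T → T * h = h * T := by
    intro T hT
    rw [hh, mul_smul_comm, smul_mul_assoc, ← mul_assoc, hs3 T (hTb T hT), mul_assoc,
      ← mul_assoc T, hTy' T hT, mul_assoc, hTy T hT]
    simp only [mul_assoc]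
  have hnh : ∀ ζ, ‖h ζ‖ = r / 4 * ‖y (y ζ)‖ := fun ζ => by
    rw [hh, ContinuousLinearMap.smul_apply, norm_smul, mul_apply_eq_comp, mul_apply_eq_comp,
      norm_unitary_apply hsu, hnys, Complex.norm_real, Real.norm_of_nonneg (by positivity)]
  have hh1 : ∀ ζ, ‖h ζ‖ ≤ r / 2 * ‖y ζ‖ := fun ζ => by
    rw [hnh]
    have := mul_le_mul_of_nonneg_left (hny (y ζ)) hr0
    linarith
  have hh2 : ∀ ζ, ‖h ζ‖ ≤ r * ‖ζ‖ := fun ζ => by
    have := mul_le_mul_of_nonneg_left (hny ζ) hr0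
    linarith [hh1 ζ]
  refine ⟨h, hsa, hTh, h.opNorm_le_bound hr0 hh2, fun ζ => by rw [← hya]; exact hh1 ζ, ?_⟩
  intro ζ
  obtain ⟨u, rfl⟩ : ∃ u, (1 - Complex.I • h) u = ζ :=
    ⟨Ring.inverse (1 - Complex.I • h) ζ, by
      rw [← mul_apply_eq_comp, Ring.mul_inverse_cancel _ (isUnit_one_sub hsa), one_apply_eq_self]⟩
  have hop : -(cay h * x) * (1 - Complex.I • h) + (1 - Complex.I • h) =
      -((x - 1) + Complex.I • (h * y)) := by
    have e1 : x * (1 - Complex.I • h) = (1 - Complex.I • h) * x := by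
      rw [mul_sub, sub_mul, mul_one, one_mul, mul_smul_comm, smul_mul_assoc, hTh x rfl]
    rw [neg_mul, mul_assoc, e1, ← mul_assoc, cay_mul hsa, hy, add_mul, mul_add, one_mul, mul_one,
      smul_mul_assoc, smul_add]
    abel
  have hv : (-(cay h * x)) ((1 - Complex.I • h) u) + (1 - Complex.I • h) u =
      -((x u - u) + Complex.I • h (y u)) := by
    rw [← mul_apply_eq_comp, ← ContinuousLinearMap.add_apply, hop]
    rfl
  have hcross : 0 ≤ (⟪x u - u, Complex.I • h (y u)⟫_ℂ).re := by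
    have e1 : star (x - 1) * (Complex.I • (h * y)) =
        ((r / 4 : ℝ) : ℂ) • (star y * (s * b) * y) := by
      have e2 : star (x - 1) * y = star x - x := by
        rw [hy, star_sub, star_one, sub_mul, mul_add, hx1, one_mul, mul_one]
        abel
      have e3 : star (x - 1) * h = h * star (x - 1) :=
        hTh _ (by rw [star_sub, star_one, sub_mul, mul_sub, hx1, hx2, one_mul, mul_one])
      have e4 : b * y = y * b := hTy b (hTb x rfl).symm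
      rw [mul_smul_comm, ← mul_assoc, e3, mul_assoc, e2, ← mul_smul_comm, ← hb, hh,
        smul_mul_assoc, ← mul_assoc s, hTy' s hsx]
      simp only [mul_assoc, e4]
    have e5 : ⟪x u - u, Complex.I • h (y u)⟫_ℂ =
        ⟪u, (star (x - 1) * (Complex.I • (h * y))) u⟫_ℂ := by
      rw [mul_apply_eq_comp, inner_star_right]
      rfl
    rw [e5, e1]
    have e6 := qf_smul (r / 4) (star y * (s * b) * y) u
    rw [qf_conj, qf] at e6
    rw [e6]
    exact mul_nonneg (by positivity) (hs4 _)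
  have hζ : ‖(1 - Complex.I • h) u‖ ^ 2 = ‖u‖ ^ 2 + ‖h u‖ ^ 2 := by
    have e1 : (1 - Complex.I • h) u = u - Complex.I • h u := rfl
    have e2 := openGap_re_I hsa u
    rw [e1, norm_sub_sq (𝕜 := ℂ), norm_smul, Complex.norm_I, one_mul, RCLike.re_to_complex, e2]
    ring
  have hpar : ‖x u - u‖ ^ 2 + ‖y u‖ ^ 2 = 4 * ‖u‖ ^ 2 := by
    have := parallelogram_law_with_norm ℂ (x u) u
    rw [norm_unitary_apply hx] at this
    rw [hya]
    nlinarith
  have hreal := openGap_real (norm_nonneg u) (norm_nonneg (y u)) (norm_nonneg (y (y (y u))))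
    (norm_nonneg (h u)) (hny u) (hCS u) (hCS (y u)) hpar (hh2 u) hr0 hr
  refine (pow_le_pow_iff_left₀ (by positivity) (norm_nonneg _) two_ne_zero).1 ?_
  rw [hv, norm_neg, norm_add_sq (𝕜 := ℂ), norm_smul, Complex.norm_I, one_mul, RCLike.re_to_complex,
    mul_pow, hζ, hnh (y u)]
  linarith

/-- `‖cay (t h) (y ζ) - y ζ‖ ≤ 2 ‖h (y ζ)‖ ≤ r ‖x (y ζ) + y ζ‖ ≤ r (‖y ζ + ζ‖ + ε ‖ζ‖)`. -/
theorem gap_cay {x y h : H →L[ℂ] H} (hy : y ∈ unitary (H →L[ℂ] H)) (hh : IsSelfAdjoint h)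
    {r ε η t : ℝ} (hr0 : 0 ≤ r) (hr : r ≤ 1) (h1 : ∀ ζ, ‖h ζ‖ ≤ r / 2 * ‖x ζ + ζ‖)
    (h2 : ‖x - y‖ ≤ ε) (g : Gap y η) (ht : t ∈ Set.Icc (0 : ℝ) 1) :
    Gap (cay ((t : ℂ) • h) * y) ((1 - r) * η - r * ε) := by
  intro ζ
  have hth : IsSelfAdjoint ((t : ℂ) • h) := by
    rw [IsSelfAdjoint, star_smul, hh.star_eq, Complex.star_def, Complex.conj_ofReal]
  have e1 := norm_cay_apply_sub hth (y ζ)
  have e2 : ‖((t : ℂ) • h) (y ζ)‖ ≤ ‖h (y ζ)‖ := by
    rw [ContinuousLinearMap.smul_apply, norm_smul, Complex.norm_real, Real.norm_of_nonneg ht.1]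
    exact mul_le_of_le_one_left (norm_nonneg _) ht.2
  have e3 := h1 (y ζ)
  have e4 : ‖x (y ζ) + y ζ‖ ≤ ‖y ζ + ζ‖ + ε * ‖ζ‖ := by
    have e5 : x (y ζ) + y ζ = y (y ζ + ζ) + (x - y) (y ζ) := by
      rw [map_add, ContinuousLinearMap.sub_apply]
      abel
    have e6 := (x - y).le_opNorm (y ζ)
    rw [norm_unitary_apply hy] at e6
    have e7 := norm_add_le (y (y ζ + ζ)) ((x - y) (y ζ))
    rw [norm_unitary_apply hy, ← e5] at e7
    have e8 := mul_le_mul_of_nonneg_right h2 (norm_nonneg ζ)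
    linarith
  have e9 : ‖y ζ + ζ‖ ≤ ‖cay ((t : ℂ) • h) (y ζ) + ζ‖ + ‖cay ((t : ℂ) • h) (y ζ) - y ζ‖ := by
    refine le_trans (le_of_eq ?_) (norm_sub_le _ _)
    congr 1
    abel
  have e10 := mul_le_mul_of_nonneg_left e4 hr0
  have e11 := mul_le_mul_of_nonneg_left (g ζ) (sub_nonneg.2 hr)
  rw [mul_apply_eq_comp]
  nlinarith

/-- `X = (1 - q) p` satisfies `(1 - q) (a - b) p = X (a p) + c X` with `c = -b (1 - q) ≥ 0`, so
`(1 + c) X = (1 - q) (a - b) p + X (p - a p)`; `‖X‖ ≤ ‖(1 + c) X‖` and `‖p - a p‖ ≤ 1 - η`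
(`0 ≤ p - a p ≤ (1 - η) p`). -/
theorem sylvester {a b p q : H →L[ℂ] H} (ha : IsSelfAdjoint a) (hb : IsSelfAdjoint b)
    (hp : IsStarProjection p) (hq : IsStarProjection q) (hpa : p * a = a * p)
    (hqb : q * b = b * q) (ha1 : ‖a‖ ≤ 1) {η : ℝ} (hη1 : η ≤ 1)
    (h1 : ∀ ζ, η * ‖p ζ‖ ^ 2 ≤ qf a (p ζ)) (h2 : ∀ ζ, qf b ((1 - q) ζ) ≤ 0) :
    η * ‖(1 - q) * p‖ ≤ ‖a - b‖ := by
  have hpp : p * p = p := hp.isIdempotentElem
  have hq' : IsStarProjection (1 - q) := hq.one_sub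
  have hqq : (1 - q) * (1 - q) = 1 - q := hq'.isIdempotentElem
  have hqb' : (1 - q) * b = b * (1 - q) := by
    rw [sub_mul, mul_sub, one_mul, mul_one, hqb]
  have hqf : ∀ ζ, qf (p - a * p) ζ = ‖p ζ‖ ^ 2 - qf a (p ζ) := fun ζ => by
    have e1 : p - a * p = star p * (1 - a) * p := by
      rw [hp.isSelfAdjoint.star_eq, mul_sub, sub_mul, mul_one, hpp, hpa, mul_assoc, hpp]
    rw [e1, qf_conj, qf_sub, qf_one]
  have hD : ‖p - a * p‖ ≤ 1 - η := by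
    refine openGap_norm_le ?_ (sub_nonneg.2 hη1) fun ζ => ?_
    · rw [IsSelfAdjoint, star_sub, star_mul, hp.isSelfAdjoint.star_eq, ha.star_eq, hpa]
    · have e1 := (abs_le.1 (abs_qf_le a (p ζ))).2
      have e2 := mul_le_mul_of_nonneg_right ha1 (sq_nonneg ‖p ζ‖)
      have e3 : ‖p ζ‖ ≤ ‖ζ‖ :=
        (p.le_opNorm ζ).trans (mul_le_of_le_one_left (norm_nonneg _) hp.norm_le)
      have e4 := mul_le_mul_of_nonneg_left (pow_le_pow_left₀ (norm_nonneg _) e3 2)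
        (sub_nonneg.2 hη1)
      rw [hqf, abs_of_nonneg (by linarith)]
      linarith [h1 ζ]
  have hop : (1 - b) * ((1 - q) * p) = (1 - q) * (a - b) * p + (1 - q) * p * (p - a * p) := by
    have e1 : (1 - q) * p * (p - a * p) = (1 - q) * p - (1 - q) * a * p := by
      rw [mul_sub, mul_assoc _ p p, hpp, mul_assoc _ p, ← mul_assoc p, hpa, mul_assoc a, hpp,
        mul_assoc]
    rw [e1, mul_sub (1 - q) a b, hqb', sub_mul ((1 - q) * a), sub_mul 1 b, one_mul, mul_assoc b]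
    abel
  have hX : ‖(1 - q) * p‖ ≤ ‖(1 - b) * ((1 - q) * p)‖ := by
    refine ContinuousLinearMap.opNorm_le_bound _ (norm_nonneg _) fun ζ => ?_
    refine le_trans ?_ (ContinuousLinearMap.le_opNorm _ ζ)
    rw [mul_apply_eq_comp (1 - b), mul_apply_eq_comp]
    have e1 := h2 (p ζ)
    have e2 := qf_sub 1 b ((1 - q) (p ζ))
    rw [qf_one] at e2
    have e3 : qf (1 - b) ((1 - q) (p ζ)) ≤ ‖(1 - q) (p ζ)‖ * ‖(1 - b) ((1 - q) (p ζ))‖ :=
      re_inner_le_norm (𝕜 := ℂ) _ _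
    rcases (norm_nonneg ((1 - q) (p ζ))).eq_or_lt with h0 | h0
    · rw [← h0]
      exact norm_nonneg _
    · exact le_of_mul_le_mul_left (by nlinarith) h0
  have e1 : ‖(1 - q) * (a - b) * p‖ ≤ ‖a - b‖ :=
    (norm_mul_le _ _).trans ((mul_le_of_le_one_right (norm_nonneg _) hp.norm_le).trans
      ((norm_mul_le _ _).trans (mul_le_of_le_one_left (norm_nonneg _) hq'.norm_le)))
  have e2 : ‖(1 - q) * p * (p - a * p)‖ ≤ ‖(1 - q) * p‖ * (1 - η) :=
    (norm_mul_le _ _).trans (mul_le_mul_of_nonneg_left hD (norm_nonneg _))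
  have e3 := norm_add_le ((1 - q) * (a - b) * p) ((1 - q) * p * (p - a * p))
  rw [← hop] at e3
  linarith

end Crest.Agent.R078T
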