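import Crest.Agent.R078T.LiftAlg

/-! Row 78, tracial stage: unitary and self-adjoint lifts. -/

set_option autoImplicit false

open scoped InnerProductSpace ComplexConjugate

namespace Crest.Agent.R078T

open Crest.Agent.R121 (Mn Bd)

variable {H : Type*} [NormedAddCommGroup H] [InnerProductSpace ℂ H] [CompleteSpace H]
variable {B : Base H} {M N : VonNeumannAlgebra H}

/-- Polar part of an almost unitary. If `‖u - a‖ ≤ δ ≤ 1 / 30` with `u` unitary, then `a` is
invertible (`‖u⋆ a - 1‖ < 1`), `y = a⋆ a - 1` has norm `≤ 2.04 δ`, and with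
`g s = -(√s (1 + √s))⁻¹`, `k = a * cfc g (a⋆ a)`, the element `u' = a + k y = a (a⋆ a)^(-1/2)` is an
invertible isometry. `|g| ≤ 0.54` on `[0.93, ∞)`. -/
theorem exists_polar {u a : H →L[ℂ] H} (hu : u ∈ unitary (H →L[ℂ] H)) (ha : a ∈ N) {δ : ℝ}
    (hδ : δ ≤ 1 / 30) (h : ‖u - a‖ ≤ δ) :
    ∃ k ∈ N, ‖k‖ ≤ 3 / 5 ∧ ‖star a * a - 1‖ ≤ 21 / 10 * δ ∧
      a + k * (star a * a - 1) ∈ unitary (H →L[ℂ] H) := by
  have hδ0 : 0 ≤ δ := (norm_nonneg _).trans h
  have hu1 : ‖u‖ ≤ 1 := norm_unitary_le hu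
  have ha1 : ‖a‖ ≤ 1 + δ := by
    have := norm_sub_norm_le a u
    rw [norm_sub_rev] at this
    linarith
  have hsu : star u * u = 1 := Unitary.star_mul_self_of_mem hu
  have hy : ‖star a * a - 1‖ ≤ 21 / 10 * δ := by
    have e : star a * a - 1 = star (a - u) * a + star u * (a - u) := by
      rw [star_sub, sub_mul, mul_sub, hsu]; abel
    rw [e]
    refine (norm_add_le _ _).trans ?_
    have h1 := norm_mul_le (star (a - u)) a
    have h2 := norm_mul_le (star u) (a - u)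
    rw [norm_star, norm_sub_rev] at h1 h2
    have h3 : ‖u - a‖ * ‖a‖ ≤ δ * (1 + δ) := by gcongr
    have h4 : ‖u‖ * ‖u - a‖ ≤ 1 * δ := by gcongr
    nlinarith
  set p : H →L[ℂ] H := star a * a with hp
  have hpsa : IsSelfAdjoint p := IsSelfAdjoint.star_mul_self a
  have hspec : ∀ s ∈ spectrum ℝ p, 93 / 100 ≤ s := fun s hs => by
    have h1 : s - 1 ∈ spectrum ℝ (p - 1) := by
      have := spectrum.sub_singleton_eq (R := ℝ) p 1
      rw [map_one] at this
      rw [← this]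
      exact Set.sub_mem_sub hs rfl
    have h2 := spectrum.norm_le_norm_mul_of_mem h1
    have h3 : ‖(1 : H →L[ℂ] H)‖ ≤ 1 := ContinuousLinearMap.norm_id_le
    have h4 : ‖p - 1‖ * ‖(1 : H →L[ℂ] H)‖ ≤ 21 / 10 * δ * 1 := by gcongr
    have h5 := abs_le.1 (h2.trans h4)
    linarith [h5.1]
  have hsq : ∀ s ∈ spectrum ℝ p, 96 / 100 ≤ √s := fun s hs =>
    Real.le_sqrt_of_sq_le (by linarith [hspec s hs])
  set g : ℝ → ℝ := fun s => -(√s * (1 + √s))⁻¹ with hg
  have hgc : ContinuousOn g (spectrum ℝ p) := by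
    refine ContinuousOn.neg (ContinuousOn.inv₀ (by fun_prop) fun s hs => ?_)
    have := hsq s hs
    positivity
  have hgn : ‖cfc g p‖ ≤ 54 / 100 := by
    refine norm_cfc_le (by norm_num) fun s hs => ?_
    have h1 := hsq s hs
    have h2 : 0 < √s * (1 + √s) := by positivity
    rw [hg]
    simp only [norm_neg, Real.norm_eq_abs]
    rw [abs_of_pos (inv_pos.2 h2), inv_le_comm₀ h2 (by norm_num)]
    nlinarith
  set r : H →L[ℂ] H := cfc (fun s => 1 + g s * (s - 1)) p with hr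
  have hr1 : r = 1 + cfc g p * (p - 1) := by
    rw [hr, cfc_add p (fun _ => 1) (fun s => g s * (s - 1)) (by fun_prop)
      (hgc.mul (by fun_prop)), cfc_const_one ℝ p,
      cfc_mul g (fun s => s - 1) p hgc (by fun_prop),
      cfc_sub (fun s => s) (fun _ => 1) p (by fun_prop) (by fun_prop), cfc_id' ℝ p,
      cfc_const_one ℝ p]
  have hrc : ContinuousOn (fun s => 1 + g s * (s - 1)) (spectrum ℝ p) :=
    continuousOn_const.add (hgc.mul (by fun_prop))
  have hrsa : IsSelfAdjoint r := cfc_predicate _ _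
  have hrpr : r * p * r = 1 := by
    have h1 : r * p * r = cfc (fun s => (1 + g s * (s - 1)) * s * (1 + g s * (s - 1))) p := by
      rw [cfc_mul (fun s => (1 + g s * (s - 1)) * s) (fun s => 1 + g s * (s - 1)) p
        (hrc.mul (by fun_prop)) hrc,
        cfc_mul (fun s => 1 + g s * (s - 1)) (fun s => s) p hrc (by fun_prop), cfc_id' ℝ p]
    rw [h1, ← cfc_const_one ℝ p]
    refine cfc_congr fun s hs => ?_
    have h2 := hsq s hs
    have h3 : s = √s ^ 2 := (Real.sq_sqrt (by linarith [hspec s hs])).symm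
    simp only [hg]
    generalize √s = t at h2 h3
    subst h3
    have : t ≠ 0 := by positivity
    have : 1 + t ≠ 0 := by positivity
    field_simp
    ring
  have hru : IsUnit r := by
    have h1 : r * (p * r) = 1 := by rw [← mul_assoc, hrpr]
    exact ⟨⟨r, p * r, h1, by rw [← left_inv_eq_right_inv hrpr h1, hrpr]⟩, rfl⟩
  have hau : IsUnit a := by
    have h1 : ‖1 - star u * a‖ < 1 := by
      rw [← hsu, ← mul_sub]
      refine (norm_mul_le _ _).trans_lt ?_
      rw [norm_star]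
      have h4 : ‖u‖ * ‖u - a‖ ≤ 1 * δ := by gcongr
      linarith
    have h2 : IsUnit (star u * a) := by
      simpa using (Units.oneSub _ h1).isUnit
    have h3 : a = u * (star u * a) := by
      rw [← mul_assoc, Unitary.mul_star_self_of_mem hu, one_mul]
    rw [h3]
    exact (Unitary.toUnits ⟨u, hu⟩).isUnit.mul h2
  refine ⟨a * cfc g p, mul_mem ha (vn_cfc_real_mem (mul_mem (star_mem ha) ha) g), ?_, hy, ?_⟩
  · refine (norm_mul_le _ _).trans ?_
    have : ‖a‖ * ‖cfc g p‖ ≤ (1 + δ) * (54 / 100) := by gcongr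
    linarith
  · have e : a + a * cfc g p * (p - 1) = a * r := by rw [hr1, mul_add, mul_one, mul_assoc]
    rw [e]
    have h1 : star (a * r) * (a * r) = 1 := by
      rw [star_mul, hrsa.star_eq, ← hrpr, hp]; simp only [mul_assoc]
    obtain ⟨v, hv⟩ := hau.mul hru
    rw [← hv] at h1 ⊢
    refine Unitary.mem_iff.2 ⟨h1, ?_⟩
    rw [Units.eq_inv_of_mul_eq_one_right h1]
    exact v.mul_inv

theorem exists_ulift_norm {D : ℝ} (hc : Close M N D) (hD0 : 0 ≤ D) (hD : D ≤ 1 / 100)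
    {u : H →L[ℂ] H} (hu : u ∈ M) (hu' : u ∈ unitary _) :
    ∃ u' ∈ N, u' ∈ unitary _ ∧ ‖u - u'‖ ≤ 3 * D := by
  obtain ⟨a, ha, hua⟩ := hc u hu
  have h1 : ‖u - a‖ ≤ D := hua.trans (mul_le_of_le_one_right hD0 (norm_unitary_le hu'))
  obtain ⟨k, hk, hk1, hy, hun⟩ := exists_polar hu' ha (by linarith) h1
  refine ⟨_, add_mem ha (mul_mem hk (sub_mem (mul_mem (star_mem ha) ha) (one_mem N))), hun, ?_⟩
  rw [← sub_sub]
  refine (norm_sub_le _ _).trans ?_
  have h2 := norm_mul_le k (star a * a - 1)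
  have h3 : ‖k‖ * ‖star a * a - 1‖ ≤ 3 / 5 * (21 / 10 * D) := by gcongr
  linarith

theorem exists_salift {D : ℝ} (hc : Close M N D) {h : H →L[ℂ] H} (hh : h ∈ M)
    (hsa : IsSelfAdjoint h) : ∃ h' ∈ N, IsSelfAdjoint h' ∧ ‖h - h'‖ ≤ D * ‖h‖ := by
  obtain ⟨y, hy, hhy⟩ := hc h hh
  refine ⟨(1 / 2 : ℂ) • (y + star y), vn_smul_mem _ (add_mem hy (star_mem hy)), ?_, ?_⟩
  · rw [IsSelfAdjoint, star_smul, star_add, star_star, add_comm]
    simp
  · have e : h - (1 / 2 : ℂ) • (y + star y) = (1 / 2 : ℂ) • ((h - y) + star (h - y)) := by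
      rw [star_sub, hsa.star_eq]
      module
    rw [e, norm_smul]
    have h1 := norm_add_le (h - y) (star (h - y))
    rw [norm_star] at h1
    have h2 : ‖(1 / 2 : ℂ)‖ = 1 / 2 := by simp
    rw [h2]
    linarith

/-- Take `a` from `Ctx.lift` and `exists_polar`. `y = a⋆ a - 1 = (a⋆ - u⋆) a + u⋆ (a - u)` has
`SN y (5.1 ω)` (`Lift.star`, `norm_apply_N`) and `WN N y (22 e)` (as in `Lift.mul`). So `u - u'`
has `SN (6 ω)`, `WN N (21 e)`; `wn_swap` gives the tests in `M`. -/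
theorem Base.Ctx.ulift {D ω e : ℝ} (h : B.Ctx M N D ω e) {u : H →L[ℂ] H} (hu : u ∈ M)
    (hu' : u ∈ unitary _) :
    ∃ u' ∈ unitary (H →L[ℂ] H), B.Lift M N u u' (10 * D) (10 * ω) (100 * e) := by
  have hD := h.D_pos
  have hD1 := h.D_le
  have hω := h.ω_nn
  have he := h.e_nn
  have hsq := h.sq
  have hu1 : ‖u‖ ≤ 1 := norm_unitary_le hu'
  obtain ⟨a, hL0⟩ := h.lift hu
  have hL : B.Lift M N u a (3 * D) (2 * ω) (7 * e) :=
    hL0.mono (mul_le_of_le_one_right (by positivity) hu1)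
      (mul_le_of_le_one_right (by positivity) hu1) (mul_le_of_le_one_right (by positivity) hu1)
  have ha := hL.mem'
  have hLs := hL.star h.gM h.gN
  obtain ⟨k, hk, hk1, hy, hun⟩ := exists_polar hu' ha (by linarith) hL.norm
  have ha1 : ‖a‖ ≤ 103 / 100 := by
    have h1 := norm_sub_norm_le a u
    rw [norm_sub_rev] at h1
    linarith [hL.norm]
  have hsu : star u * u = 1 := Unitary.star_mul_self_of_mem hu'
  set y : H →L[ℂ] H := star a * a - 1 with hydef
  have hyv : ∀ v, y v = -((star u - star a) (a v)) - star u ((u - a) v) := fun v => by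
    have e : y = -((star u - star a) * a) - star u * (u - a) := by
      rw [hydef, sub_mul, mul_sub, hsu]; abel
    rw [e]; rfl
  have hyS : B.SN y (51 / 10 * ω) := fun v hv => by
    rw [hyv]
    refine (norm_sub_le _ _).trans ?_
    rw [norm_neg, norm_unitary_apply (Unitary.star_mem hu')]
    have h1 := hLs.norm_apply_N h ha hv
    rw [norm_star] at h1
    have h2 := hL.sn v hv
    have h3 : (2 * ω + ω * ‖u‖) * ‖a‖ * ‖v‖ ≤ (2 * ω + ω * 1) * (103 / 100) * ‖v‖ := by gcongr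
    have h4 : 0 ≤ ω * ‖v‖ := by positivity
    nlinarith
  have hyW : B.WN N y (22 * e) := fun n hn v hv w hw => by
    have hp : 0 ≤ e * ‖n‖ * ‖v‖ * ‖w‖ := by positivity
    have e1 : (star u - star a) (a v) = B.cm (star u) a v + B.R a ((star u - star a) v) := by
      rw [B.cm_apply, h.gN.R_V ha hv]
      simp only [sub_apply, map_sub]
      rw [h.gN.apply_apply_V (star_mem ha) ha hv]
      abel
    have e2 : ⟪n w, B.R a ((star u - star a) v)⟫_ℂ = ⟪(n * star a) w, (star u - star a) v⟫_ℂ := by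
      rw [← inner_star_left, ← B.R_star, ← h.gN.apply_apply_V hn (star_mem ha) hw]; rfl
    have e3 : ⟪n w, star u ((u - a) v)⟫_ℂ =
        ⟪(a * n) w, (u - a) v⟫_ℂ + ⟪(u - a) (n w), (u - a) v⟫_ℂ := by
      rw [inner_star_right, ← inner_add_left]
      congr 1
      simp
    have b1 := h.ep (star u) (star_mem hu) a ha n hn v hv w hw
    have b2 := hLs.wN (n * star a) (mul_mem hn (star_mem ha)) v hv w hw
    have b3 := hL.wN (a * n) (mul_mem ha hn) v hv w hw
    have b4 := norm_inner_le_norm (𝕜 := ℂ) ((u - a) (n w)) ((u - a) v)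
    have b5 := hL.norm_apply_N h hn hw
    have b6 := hL.sn v hv
    rw [norm_star] at b1
    have c1 : e * ‖u‖ * ‖a‖ * ‖n‖ * ‖v‖ * ‖w‖ ≤ e * 1 * (103 / 100) * ‖n‖ * ‖v‖ * ‖w‖ := by gcongr
    have c2 : 7 * e * ‖n * star a‖ * ‖v‖ * ‖w‖ ≤ 7 * e * (‖n‖ * (103 / 100)) * ‖v‖ * ‖w‖ := by
      gcongr
      refine (norm_mul_le _ _).trans ?_
      rw [norm_star]; gcongr
    have c3 : 7 * e * ‖a * n‖ * ‖v‖ * ‖w‖ ≤ 7 * e * ((103 / 100) * ‖n‖) * ‖v‖ * ‖w‖ := by
      gcongr
      refine (norm_mul_le _ _).trans ?_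
      gcongr
    have c4 : ‖(u - a) (n w)‖ * ‖(u - a) v‖ ≤ 6 * e * ‖n‖ * ‖v‖ * ‖w‖ := by
      calc ‖(u - a) (n w)‖ * ‖(u - a) v‖
          ≤ ((2 * ω + ω * 1) * ‖n‖ * ‖w‖) * (2 * ω * ‖v‖) := by
            gcongr
            refine b5.trans ?_
            gcongr
        _ = 6 * ω ^ 2 * ‖n‖ * ‖v‖ * ‖w‖ := by ring
        _ ≤ 6 * e * ‖n‖ * ‖v‖ * ‖w‖ := by gcongr
    rw [hyv, inner_sub_right, inner_neg_right, e1, inner_add_right, e2, e3]
    refine (norm_sub_le _ _).trans ?_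
    rw [norm_neg]
    refine (add_le_add (norm_add_le _ _) (norm_add_le _ _)).trans ?_
    nlinarith
  have hTv : ∀ v, (u - (a + k * y)) v = (u - a) v - k (y v) := fun v => by
    rw [← sub_sub]; rfl
  have hS : B.SN (u - (a + k * y)) (6 * ω) := fun v hv => by
    rw [hTv]
    refine (norm_sub_le _ _).trans ?_
    have h1 := hL.sn v hv
    have h2 := k.le_opNorm (y v)
    have h3 : ‖k‖ * ‖y v‖ ≤ 3 / 5 * (51 / 10 * ω * ‖v‖) := by
      gcongr
      exact hyS v hv
    have h4 : 0 ≤ ω * ‖v‖ := by positivity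
    nlinarith
  have hW : B.WN N (u - (a + k * y)) (21 * e) := fun n hn v hv w hw => by
    have hp : 0 ≤ e * ‖n‖ * ‖v‖ * ‖w‖ := by positivity
    have e1 : ⟪n w, k (y v)⟫_ℂ = ⟪(star k * n) w, y v⟫_ℂ := by
      rw [← inner_star_left]; rfl
    rw [hTv, inner_sub_right, e1]
    refine (norm_sub_le _ _).trans ?_
    have b1 := hL.wN n hn v hv w hw
    have b2 := hyW (star k * n) (mul_mem (star_mem hk) hn) v hv w hw
    have c1 : 22 * e * ‖star k * n‖ * ‖v‖ * ‖w‖ ≤ 22 * e * (3 / 5 * ‖n‖) * ‖v‖ * ‖w‖ := by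
      gcongr
      refine (norm_mul_le _ _).trans ?_
      rw [norm_star]; gcongr
    nlinarith
  have hW' := wn_swap h.gM h.gN hD hD1 h.cMN h.om h.ep hω he (by positivity) hW hS
  refine ⟨a + k * y, hun, hu, add_mem ha (mul_mem hk
    (sub_mem (mul_mem (star_mem ha) ha) (one_mem N))), ?_, hS.mono (by linarith),
    hW'.mono (by nlinarith), hW.mono (by linarith)⟩
  rw [← sub_sub]
  refine (norm_sub_le _ _).trans ?_
  have h2 := norm_mul_le k y
  have h3 : ‖k‖ * ‖y‖ ≤ 3 / 5 * (21 / 10 * (3 * D)) := by gcongr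
  linarith [hL.norm]

end Crest.Agent.R078T
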