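import Crest.Agent.R078T.TrEq
import Crest.Agent.R078T.OpenGap
import Crest.Agent.R078T.EllPath
import Crest.Agent.R078T.ULift

/-! Row 78, tracial stage: changing the branch of the logarithm. -/

set_option autoImplicit false

open scoped InnerProductSpace ComplexConjugate

namespace Crest.Agent.R078T

open Crest.Agent.R121 (Mn Bd)

variable {H : Type*} [NormedAddCommGroup H] [InnerProductSpace ℂ H] [CompleteSpace H]
variable {B : Base H} {M N : VonNeumannAlgebra H}

lemma Branch_cfc_nonneg {x : H →L[ℂ] H} (f : ℂ → ℝ) (hf : Continuous f)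
    (h : ∀ z ∈ spectrum ℂ x, 0 ≤ f z) (ζ : H) : 0 ≤ qf (cfc (fun z => (f z : ℂ)) x) ζ := by
  set g : ℂ → ℂ := fun z => ((Real.sqrt (f z) : ℝ) : ℂ) with hgd
  have hg : Continuous g := by fun_prop
  have : cfc (fun z => (f z : ℂ)) x = star (cfc g x) * 1 * cfc g x := by
    rw [mul_one, ← cfc_star, ← cfc_mul _ _ _ (hg.star.continuousOn) hg.continuousOn]
    refine cfc_congr fun z hz => ?_
    simp only [hgd, RCLike.star_def, Complex.conj_ofReal, ← Complex.ofReal_mul,
      Real.mul_self_sqrt (h z hz)]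
  rw [this, qf_conj, qf_one]
  positivity

lemma Branch_neg_unitary {x : H →L[ℂ] H} (hx : x ∈ unitary (H →L[ℂ] H)) :
    -x ∈ unitary (H →L[ℂ] H) := by
  rw [Unitary.mem_iff]
  refine ⟨?_, ?_⟩
  · rw [star_neg, neg_mul_neg, Unitary.star_mul_self_of_mem hx]
  · rw [star_neg, neg_mul_neg, Unitary.mul_star_self_of_mem hx]

lemma Branch_im {z : ℂ} {η : ℝ} (hη : 0 < η) (h0 : ‖z‖ = 1) (h1 : η ≤ ‖z + 1‖)
    (h2 : η ≤ ‖-z + 1‖) : η / 2 ≤ z.im ∨ z.im ≤ -(η / 2) := by
  have e0 : z.re ^ 2 + z.im ^ 2 = 1 := by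
    have := Complex.sq_norm z
    rw [h0, Complex.normSq_apply] at this
    nlinarith
  have e1 : η ^ 2 ≤ 2 + 2 * z.re := by
    have h := Complex.sq_norm (z + 1)
    rw [Complex.normSq_apply] at h
    simp only [Complex.add_re, Complex.one_re, Complex.add_im, Complex.one_im, add_zero] at h
    have : η ^ 2 ≤ ‖z + 1‖ ^ 2 := by gcongr
    nlinarith
  have e2 : η ^ 2 ≤ 2 - 2 * z.re := by
    have h := Complex.sq_norm (-z + 1)
    rw [Complex.normSq_apply] at h
    simp only [Complex.add_re, Complex.one_re, Complex.add_im, Complex.one_im, add_zero,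
      Complex.neg_re, Complex.neg_im] at h
    have : η ^ 2 ≤ ‖-z + 1‖ ^ 2 := by gcongr
    nlinarith
  have e3 : (η / 2) ^ 2 ≤ z.im ^ 2 := by
    rcases le_total 0 z.re with h | h
    · nlinarith [mul_nonneg h (sub_nonneg.2 e2), sq_nonneg η]
    · nlinarith [mul_nonneg (neg_nonneg.2 h) (sub_nonneg.2 e1), sq_nonneg η]
  by_contra hcon
  push Not at hcon
  nlinarith [hcon.1, hcon.2]

lemma Branch_b_sa (x : H →L[ℂ] H) : IsSelfAdjoint ((-Complex.I / 2) • (x - star x)) := by
  rw [IsSelfAdjoint, star_smul, star_sub, star_star, ← neg_sub x (star x), smul_neg, ← neg_smul]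
  congr 1
  simp [neg_div]

lemma Branch_b_norm (x : H →L[ℂ] H) : ‖(-Complex.I / 2) • (x - star x)‖ ≤ ‖x‖ := by
  rw [norm_smul]
  have h1 : ‖(-Complex.I / 2 : ℂ)‖ = 1 / 2 := by simp
  have h2 := norm_sub_le x (star x)
  rw [norm_star] at h2
  rw [h1]
  linarith

lemma Branch_b_comm {x p : H →L[ℂ] H} (hp : IsStarProjection p) (h : p * x = x * p) :
    p * ((-Complex.I / 2) • (x - star x)) = ((-Complex.I / 2) • (x - star x)) * p := by
  have h' : p * star x = star x * p := by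
    have := congrArg star h
    rw [star_mul, star_mul, hp.isSelfAdjoint.star_eq] at this
    exact this.symm
  rw [mul_smul_comm, smul_mul_assoc, mul_sub, sub_mul, h, h']

lemma Branch_mul_sub {c c' x x' : H →L[ℂ] H} (ux : x ∈ unitary (H →L[ℂ] H))
    (uc' : c' ∈ unitary (H →L[ℂ] H)) : ‖c * x - c' * x'‖ ≤ ‖c - c'‖ + ‖x - x'‖ := by
  have e : c * x - c' * x' = (c - c') * x + c' * (x - x') := by noncomm_ring
  rw [e]
  refine (norm_add_le _ _).trans (add_le_add ?_ ?_)
  · exact (norm_mul_le _ _).trans (mul_le_of_le_one_right (norm_nonneg _) (norm_unitary_le ux))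
  · exact (norm_mul_le _ _).trans (mul_le_of_le_one_left (norm_nonneg _) (norm_unitary_le uc'))

lemma Branch_star_mul {x y : H →L[ℂ] H} (ux : x ∈ unitary (H →L[ℂ] H)) :
    ‖star x * y - 1‖ ≤ ‖x - y‖ := by
  have e : star x * y - 1 = star x * (y - x) := by
    rw [mul_sub, Unitary.star_mul_self_of_mem ux]
  rw [e, norm_sub_rev x y]
  exact (norm_mul_le _ _).trans (mul_le_of_le_one_left (norm_nonneg _)
    (norm_unitary_le (Unitary.star_mem ux)))

lemma Branch_real_sa {h : H →L[ℂ] H} (hh : IsSelfAdjoint h) (t : ℝ) :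
    IsSelfAdjoint ((t : ℂ) • h) := by
  rw [IsSelfAdjoint, star_smul, hh.star_eq]
  simp

/-- `p = cfc (fun z => if 0 < z.im then 1 else 0) x`; on the spectrum
`|im z| = ‖z - 1‖ ‖z + 1‖ / 2 ≥ η / 2` (`Gap.spec` for `x` and `-x`), so the function is continuous
there, and `arg z - arg (-z) = π (2 p z - 1)` (`cfc_comp_neg`). `b = (x - x⋆) / (2 i)`. -/
theorem exists_half {x : H →L[ℂ] H} (hx : x ∈ M) (hx' : x ∈ unitary _) {η : ℝ} (hη : 0 < η)
    (g : Gap x η) (g' : Gap (-x) η) :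
    ∃ p ∈ M, IsStarProjection p ∧ p * x = x * p ∧
      lg x - lg (-x) = (Real.pi : ℂ) • ((2 : ℂ) • p - 1) ∧
      (∀ ζ, η / 2 * ‖p ζ‖ ^ 2 ≤ qf ((-Complex.I / 2) • (x - star x)) (p ζ)) ∧
      ∀ ζ, qf ((-Complex.I / 2) • (x - star x)) ((1 - p) ζ) ≤ 0 := by
  have : IsStarNormal x := ⟨by
    rw [Commute, SemiconjBy, Unitary.star_mul_self_of_mem hx', Unitary.mul_star_self_of_mem hx']⟩
  have hnx := Branch_neg_unitary hx'
  have hneg : ∀ z ∈ spectrum ℂ x, -z ∈ spectrum ℂ (-x) := fun z hz => by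
    rw [← spectrum.neg_eq]
    simpa using hz
  have him : ∀ z ∈ spectrum ℂ x, η / 2 ≤ z.im ∨ z.im ≤ -(η / 2) := fun z hz =>
    Branch_im hη (by simpa using spectrum.subset_circle_of_unitary hx' hz) (g.spec hx' hz)
      (g'.spec hnx (hneg z hz))
  set P : ℂ → ℝ := fun z => max 0 (min 1 (2 * z.im / η)) with hP
  have hPc : Continuous P := by fun_prop
  have hP1 : ∀ z : ℂ, η / 2 ≤ z.im → P z = 1 := fun z hz => by
    have : 1 ≤ 2 * z.im / η := by
      rw [le_div_iff₀ hη]
      linarith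
    simp only [hP]
    rw [min_eq_left this, max_eq_right zero_le_one]
  have hP0 : ∀ z : ℂ, z.im ≤ -(η / 2) → P z = 0 := fun z hz => by
    have : 2 * z.im / η ≤ 0 := div_nonpos_of_nonpos_of_nonneg (by linarith) hη.le
    simp only [hP]
    exact max_eq_left ((min_le_right _ _).trans this)
  have hPC : Continuous fun z : ℂ => (P z : ℂ) := by fun_prop
  set p : H →L[ℂ] H := cfc (fun z : ℂ => (P z : ℂ)) x with hp
  have hsa : star p = p := by
    rw [hp, ← cfc_star]
    simp only [RCLike.star_def, Complex.conj_ofReal]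
  have hid : p * p = p := by
    rw [hp, ← cfc_mul _ _ _ hPC.continuousOn hPC.continuousOn]
    refine cfc_congr fun z hz => ?_
    rcases him z hz with h | h
    · simp [hP1 z h]
    · simp [hP0 z h]
  have hb : (-Complex.I / 2) • (x - star x) = cfc (fun z : ℂ => ((z.im : ℝ) : ℂ)) x := by
    have e1 : cfc (fun z : ℂ => (-Complex.I / 2) * (z - star z)) x =
        (-Complex.I / 2) • (x - star x) := by
      rw [cfc_const_mul _ _ _ (by fun_prop), cfc_sub _ _ _ (by fun_prop) (by fun_prop),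
        cfc_id' ℂ x, cfc_star_id (R := ℂ) x]
    rw [← e1]
    refine cfc_congr fun z _ => ?_
    simp only [RCLike.star_def, Complex.sub_conj]
    push_cast
    linear_combination (-(z.im : ℂ)) * Complex.I_mul_I
  have hq : 1 - p = cfc (fun z : ℂ => ((1 - P z : ℝ) : ℂ)) x := by
    have : cfc (fun z : ℂ => (1 : ℂ) - (P z : ℂ)) x = 1 - p := by
      rw [cfc_sub _ _ _ (by fun_prop) hPC.continuousOn, cfc_const_one ℂ x]
    rw [← this]
    simp only [Complex.ofReal_sub, Complex.ofReal_one]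
  refine ⟨p, vn_cfc_mem hx _, ⟨hid, hsa⟩, ?_, ?_, fun ζ => ?_, fun ζ => ?_⟩
  · have := cfc_commute_cfc (fun z : ℂ => (P z : ℂ)) (fun z : ℂ => z) x
    rw [cfc_id' ℂ x] at this
    exact this
  · have c1 : ContinuousOn (fun z : ℂ => (z.arg : ℂ)) (spectrum ℂ x) :=
      Complex.continuous_ofReal.comp_continuousOn
        (Complex.continuousOn_arg.mono (g.slit hx' hη))
    have c2 : ContinuousOn (fun z : ℂ => (z.arg : ℂ)) ((fun z => -z) '' spectrum ℂ x) := by
      refine Complex.continuous_ofReal.comp_continuousOn (Complex.continuousOn_arg.mono ?_)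
      rintro _ ⟨z, hz, rfl⟩
      exact g'.slit hnx hη (hneg z hz)
    have c3 : ContinuousOn (fun z : ℂ => ((-z).arg : ℂ)) (spectrum ℂ x) :=
      c2.comp continuous_neg.continuousOn (Set.mapsTo_image _ _)
    have e2 : cfc (fun z : ℂ => (Real.pi : ℂ) * (2 * (P z : ℂ) - 1)) x =
        (Real.pi : ℂ) • ((2 : ℂ) • p - 1) := by
      rw [cfc_const_mul _ _ _ (by fun_prop), cfc_sub _ _ _ (by fun_prop) (by fun_prop),
        cfc_const_mul _ _ _ hPC.continuousOn, cfc_const_one ℂ x]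
    rw [lg, lg, ← cfc_comp_neg (fun z : ℂ => (z.arg : ℂ)) x c2, ← cfc_sub _ _ _ c1 c3, ← e2]
    refine cfc_congr fun z hz => ?_
    rcases him z hz with h | h
    · simp only [hP1 z h, Complex.arg_neg_eq_arg_sub_pi_of_im_pos (show 0 < z.im by linarith)]
      push_cast
      ring
    · simp only [hP0 z h, Complex.arg_neg_eq_arg_add_pi_of_im_neg (show z.im < 0 by linarith)]
      push_cast
      ring
  · have key := Branch_cfc_nonneg (x := x) (fun z => P z * (z.im - η / 2) * P z) (by fun_prop)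
      (fun z hz => by
        rcases him z hz with h | h
        · rw [hP1 z h]
          linarith
        · simp [hP0 z h]) ζ
    have e : cfc (fun z : ℂ => ((P z * (z.im - η / 2) * P z : ℝ) : ℂ)) x =
        star p * ((-Complex.I / 2) • (x - star x) - ((η / 2 : ℝ) : ℂ) • 1) * p := by
      have e3 : cfc (fun z : ℂ => ((z.im : ℝ) : ℂ) - ((η / 2 : ℝ) : ℂ) * 1) x =
          (-Complex.I / 2) • (x - star x) - ((η / 2 : ℝ) : ℂ) • 1 := by
        rw [cfc_sub _ _ _ (by fun_prop) (by fun_prop), cfc_const_mul _ _ _ (by fun_prop),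
          cfc_const_one ℂ x, hb]
      rw [hsa, ← e3, hp, ← cfc_mul _ _ _ hPC.continuousOn (by fun_prop),
        ← cfc_mul _ _ _ (by fun_prop) hPC.continuousOn]
      refine cfc_congr fun z _ => ?_
      push_cast
      ring
    rw [e, qf_conj, qf_sub, qf_smul, qf_one] at key
    linarith
  · have key := Branch_cfc_nonneg (x := x) (fun z => (1 - P z) * (-z.im) * (1 - P z))
      (by fun_prop)
      (fun z hz => by
        rcases him z hz with h | h
        · simp [hP1 z h]
        · rw [hP0 z h]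
          linarith) ζ
    have e : cfc (fun z : ℂ => (((1 - P z) * (-z.im) * (1 - P z) : ℝ) : ℂ)) x =
        star (1 - p) * (-((-Complex.I / 2) • (x - star x))) * (1 - p) := by
      rw [star_sub, star_one, hsa, hq, hb, ← cfc_neg,
        ← cfc_mul _ _ _ (by fun_prop) (by fun_prop), ← cfc_mul _ _ _ (by fun_prop) (by fun_prop)]
      refine cfc_congr fun z _ => ?_
      push_cast
      ring
    rw [e, qf_conj, qf_neg] at key
    linarith

/-- `exists_half` twice, `sylvester` and `trace_le` in both directions (`η ≤ 2` unless `H` is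
trivial; if `η / 2 > 1` use `η' = min η 2`, or note `Gap x η` forces `η ‖ξ‖ ≤ 2`). -/
theorem branch (hM : B.Good M) (hN : B.Good N) {D : ℝ} (hc : Close M N D) (hc' : Close N M D)
    (hD : D ≤ 1 / 4) {x x' : H →L[ℂ] H} (hx : x ∈ M) (hx' : x' ∈ N) (ux : x ∈ unitary _)
    (ux' : x' ∈ unitary _) {η : ℝ} (hη : 0 < η) (g1 : Gap x η) (g2 : Gap (-x) η) (g3 : Gap x' η)
    (g4 : Gap (-x') η) (h : ‖x - x'‖ ≤ η / 8) {w : H} (hw : w ∈ B.V) :
    qf (lg x') w - qf (lg x) w = qf (lg (-x')) w - qf (lg (-x)) w := by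
  obtain ⟨p, hp, hp1, hp2, hp3, hp4, hp5⟩ := exists_half hx ux hη g1 g2
  obtain ⟨q, hq, hq1, hq2, hq3, hq4, hq5⟩ := exists_half hx' ux' hη g3 g4
  have hη2 : η / 2 ≤ 1 := by
    have h1 := g1 B.ξ
    have h2 := norm_add_le (x B.ξ) B.ξ
    rw [norm_unitary_apply ux, B.norm_ξ] at h2
    rw [B.norm_ξ] at h1
    linarith
  have hd : ‖(-Complex.I / 2) • (x - star x) - (-Complex.I / 2) • (x' - star x')‖ ≤ η / 8 := by
    have e : (-Complex.I / 2) • (x - star x) - (-Complex.I / 2) • (x' - star x') =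
        (-Complex.I / 2) • ((x - x') - star (x - x')) := by
      rw [← smul_sub, star_sub]
      congr 1
      abel
    rw [e]
    exact (Branch_b_norm _).trans h
  have s1 := sylvester (Branch_b_sa x) (Branch_b_sa x') hp1 hq1 (Branch_b_comm hp1 hp2)
    (Branch_b_comm hq1 hq2) ((Branch_b_norm x).trans (norm_unitary_le ux)) hη2 hp4 hq5
  have s2 := sylvester (Branch_b_sa x') (Branch_b_sa x) hq1 hp1 (Branch_b_comm hq1 hq2)
    (Branch_b_comm hp1 hp2) ((Branch_b_norm x').trans (norm_unitary_le ux')) hη2 hq4 hp5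
  rw [norm_sub_rev] at s2
  have n1 : ‖(1 - q) * p‖ ≤ 1 / 4 := by
    by_contra hcon
    push Not at hcon
    nlinarith
  have n2 : ‖(1 - p) * q‖ ≤ 1 / 4 := by
    by_contra hcon
    push Not at hcon
    nlinarith
  have t1 := trace_le hM hN hc hD hp hq hp1 hq1 n1 hw
  have t2 := trace_le hN hM hc' hD hq hp hq1 hp1 n2 hw
  have e1 := congrArg (fun T => qf T w) hp3
  have e2 := congrArg (fun T => qf T w) hq3
  have two : (2 : ℂ) = ((2 : ℝ) : ℂ) := by norm_num
  simp only [two, qf_sub, qf_smul] at e1 e2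
  rw [le_antisymm t1 t2] at e1
  linarith

/-- The third point. `h` from `exists_open x (1 / 20)`, `h'` from `exists_salift`, `c = cay h`,
`c' = cay h'`, `‖cay (t h) - cay (t h')‖ ≤ 10⁻⁵`. By `gap_cay` the paths `cay (t h) x`,
`cay (t h) y` have gap `0.55 / 200`, the paths `cay (t h') x'`, `cay (t h') y'` have gap `0.0026`;
`ell_cay_mul` four times. `-(c x)` has gap `0.05`, `-(c y)` gap `0.01`, the primed ones lose
`1.1 · 10⁻⁴`; `branch` with `η = 0.0026` for `(c x, c' x')` and `(c y, c' y')`; `ell_mul` for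
`-(c y) = -(c x) (x⋆ y)` and `-(c' y') = -(c' x') (x'⋆ y')`. -/
theorem third (hM : B.Good M) (hN : B.Good N) {D : ℝ} (hc : Close M N D) (hc' : Close N M D)
    (hD : D ≤ 1 / 10 ^ 4) {x y x' y' : H →L[ℂ] H} (hx : x ∈ M) (hy : y ∈ M) (hx' : x' ∈ N)
    (hy' : y' ∈ N) (ux : x ∈ unitary _) (uy : y ∈ unitary _) (ux' : x' ∈ unitary _)
    (uy' : y' ∈ unitary _) (gx : Gap x (1 / 200)) (gy : Gap y (1 / 200)) (h : ‖x - y‖ ≤ 1 / 25)
    (h1 : ‖x - x'‖ ≤ 1 / 10 ^ 4) (h2 : ‖y - y'‖ ≤ 1 / 10 ^ 4) {w : H} (hw : w ∈ B.V) :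
    qf (lg y') w - qf (lg y) w =
      qf (lg x') w - qf (lg x) w + qf (lg (star x' * y')) w - qf (lg (star x * y)) w := by
  obtain ⟨k, ksa, kc, kn, kz, kg⟩ := exists_open ux (r := 1 / 20) (by norm_num) (by norm_num)
  have kM : k ∈ M := vn_mem_of_comm fun t ht => kc t (vn_comm hx ht)
  obtain ⟨k', kN, ksa', kk⟩ := exists_salift hc kM ksa
  have kk' : ‖k - k'‖ ≤ 1 / (2 * 10 ^ 5) := by
    have := mul_le_mul_of_nonneg_right hD (norm_nonneg k)
    linarith
  have kn' : ‖k'‖ ≤ 1 / 4 := by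
    have := norm_sub_norm_le k' k
    rw [norm_sub_rev] at this
    linarith
  have cc : ∀ t ∈ Set.Icc (0 : ℝ) 1, ‖cay ((t : ℂ) • k) - cay ((t : ℂ) • k')‖ ≤ 1 / 10 ^ 5 := by
    intro t ht
    have h3 := norm_cay_sub_cay (Branch_real_sa ksa t) (Branch_real_sa ksa' t)
    rw [← smul_sub, norm_smul, Complex.norm_real, Real.norm_of_nonneg ht.1] at h3
    have := mul_le_of_le_one_left (norm_nonneg (k - k')) ht.2
    linarith
  have gX : ∀ t ∈ Set.Icc (0 : ℝ) 1, Gap (cay ((t : ℂ) • k) * x) (11 / 4000) := fun t ht =>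
    (gap_cay ux ksa (by norm_num) (by norm_num) kz (ε := 0) (by simp) gx ht).mono (by norm_num)
  have gY : ∀ t ∈ Set.Icc (0 : ℝ) 1, Gap (cay ((t : ℂ) • k) * y) (11 / 4000) := fun t ht =>
    (gap_cay uy ksa (by norm_num) (by norm_num) kz h gy ht).mono (by norm_num)
  have dX : ∀ t ∈ Set.Icc (0 : ℝ) 1,
      ‖cay ((t : ℂ) • k) * x - cay ((t : ℂ) • k') * x'‖ ≤ 11 / 10 ^ 5 := fun t ht => by
    have := Branch_mul_sub (c := cay ((t : ℂ) • k)) (x' := x') ux
      (cay_unitary (Branch_real_sa ksa' t))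
    have := cc t ht
    linarith
  have dY : ∀ t ∈ Set.Icc (0 : ℝ) 1,
      ‖cay ((t : ℂ) • k) * y - cay ((t : ℂ) • k') * y'‖ ≤ 11 / 10 ^ 5 := fun t ht => by
    have := Branch_mul_sub (c := cay ((t : ℂ) • k)) (x' := y') uy
      (cay_unitary (Branch_real_sa ksa' t))
    have := cc t ht
    linarith
  have gX' : ∀ t ∈ Set.Icc (0 : ℝ) 1, Gap (cay ((t : ℂ) • k') * x') (13 / 5000) := fun t ht =>
    ((gX t ht).perturb (dX t ht)).mono (by norm_num)
  have gY' : ∀ t ∈ Set.Icc (0 : ℝ) 1, Gap (cay ((t : ℂ) • k') * y') (13 / 5000) := fun t ht =>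
    ((gY t ht).perturb (dY t ht)).mono (by norm_num)
  have wM := hM.trV hw
  have wN := hN.trV hw
  have kn4 : ‖k‖ ≤ 1 / 4 := by linarith
  have e1 := ell_cay_mul wM (by norm_num) hx kM ux ksa kn4 gX
  have e2 := ell_cay_mul wM (by norm_num) hy kM uy ksa kn4 gY
  have e3 := ell_cay_mul wN (by norm_num) hx' kN ux' ksa' kn' gX'
  have e4 := ell_cay_mul wN (by norm_num) hy' kN uy' ksa' kn' gY'
  have one : (1 : ℝ) ∈ Set.Icc (0 : ℝ) 1 := ⟨zero_le_one, le_rfl⟩
  have gX1 := gX 1 one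
  have gY1 := gY 1 one
  have gX1' := gX' 1 one
  have gY1' := gY' 1 one
  have dX1 := dX 1 one
  have dY1 := dY 1 one
  simp only [Complex.ofReal_one, one_smul] at gX1 gY1 gX1' gY1' dX1 dY1
  have uc := cay_unitary ksa
  have uc' := cay_unitary ksa'
  have cM := cay_mem ksa kM
  have cN := cay_mem ksa' kN
  have nY : Gap (-(cay k * y)) (1 / 20 - 1 / 25) := by
    refine kg.perturb ?_
    have := Branch_mul_sub (c := cay k) (x' := y) ux uc
    rw [sub_self, norm_zero, zero_add] at this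
    rw [neg_sub_neg, norm_sub_rev]
    linarith
  have nX' : Gap (-(cay k' * x')) (1 / 20 - 11 / 10 ^ 5) := by
    refine kg.perturb ?_
    rw [neg_sub_neg, norm_sub_rev]
    exact dX1
  have nY' : Gap (-(cay k' * y')) (1 / 20 - 1 / 25 - 11 / 10 ^ 5) := by
    refine nY.perturb ?_
    rw [neg_sub_neg, norm_sub_rev]
    exact dY1
  have hD' : D ≤ 1 / 4 := by linarith
  have b1 := branch hM hN hc hc' hD' (mul_mem cM hx) (mul_mem cN hx') (mul_mem uc ux)
    (mul_mem uc' ux') (η := 13 / 5000) (by norm_num) (gX1.mono (by norm_num))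
    (kg.mono (by norm_num)) gX1' (nX'.mono (by norm_num)) (by linarith) hw
  have b2 := branch hM hN hc hc' hD' (mul_mem cM hy) (mul_mem cN hy') (mul_mem uc uy)
    (mul_mem uc' uy') (η := 13 / 5000) (by norm_num) (gY1.mono (by norm_num))
    (nY.mono (by norm_num)) gY1' (nY'.mono (by norm_num)) (by linarith) hw
  have s1 := Branch_star_mul (y := y) ux
  have s2 := Branch_star_mul (y := y') ux'
  have hxy' : ‖x' - y'‖ ≤ 1 / 25 + 2 / 10 ^ 4 := by
    have e : x' - y' = (x - y) - (x - x') + (y - y') := by abel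
    have a1 := norm_add_le ((x - y) - (x - x')) (y - y')
    have a2 := norm_sub_le (x - y) (x - x')
    rw [e]
    linarith
  have m1 := ell_mul wM (neg_mem (mul_mem cM hx)) (mul_mem (star_mem hx) hy)
    (Branch_neg_unitary (mul_mem uc ux)) (mul_mem (Unitary.star_mem ux) uy) kg (by linarith)
    (by linarith)
  have m2 := ell_mul wN (neg_mem (mul_mem cN hx')) (mul_mem (star_mem hx') hy')
    (Branch_neg_unitary (mul_mem uc' ux')) (mul_mem (Unitary.star_mem ux') uy') nX' (by linarith)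
    (by linarith)
  have f1 : -(cay k * x) * (star x * y) = -(cay k * y) := by
    rw [neg_mul, mul_assoc, ← mul_assoc x, Unitary.mul_star_self_of_mem ux, one_mul]
  have f2 : -(cay k' * x') * (star x' * y') = -(cay k' * y') := by
    rw [neg_mul, mul_assoc, ← mul_assoc x', Unitary.mul_star_self_of_mem ux', one_mul]
  rw [f1] at m1
  rw [f2] at m2
  linarith

end Crest.Agent.R078T
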