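import Crest.Agent.R078T.CobA

/-! Row 78, tracial stage: the approximate primitive. -/

set_option autoImplicit false

open scoped InnerProductSpace ComplexConjugate

namespace Crest.Agent.R078T

open Crest.Agent.R121 (Mn Bd)

variable {H : Type*} [NormedAddCommGroup H] [InnerProductSpace ℂ H] [CompleteSpace H]
variable {B : Base H} {M N : VonNeumannAlgebra H}
variable {D ω e : ℝ} {Δ : (H →L[ℂ] H) → (H →L[ℂ] H) → (H →L[ℂ] H)}

lemma Cob_swap (hc : B.Ctx M N D ω e) (hD : D ≤ 1 / 10 ^ 8) (hΔ : B.Det M N Δ)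
    {u u₁ u₂ : H →L[ℂ] H} {e₁ : ℝ} (h1 : B.Lift M N u u₁ (10 * D) (10 * ω) e₁)
    (uu : u ∈ unitary _) (u1 : u₁ ∈ unitary _) (h2 : u₂ ∈ N) (u2 : u₂ ∈ unitary _)
    (n2 : ‖u - u₂‖ ≤ 20 * D) (s2 : B.SN (u - u₂) (21 * ω)) {w : H} (hw : w ∈ B.V) :
    |qf (pb Δ u u₁) w - qf (pb Δ u u₂) w| ≤ 1922 * ω ^ 2 * ‖w‖ ^ 2 := by
  have hD0 := hc.D_pos
  have h := pb_indep hΔ h1.mem h1.mem' h2 uu u1 u2 (h1.norm.trans (by linarith))
    (n2.trans (by linarith)) h1.sn s2 hw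
  exact h.trans_eq (by ring)

lemma Cob_swap' (hc : B.Ctx M N D ω e) (hD : D ≤ 1 / 10 ^ 8) (hΔ : B.Det M N Δ)
    {u u₁ u₂ : H →L[ℂ] H} {e₁ e₂ : ℝ} (h1 : B.Lift M N u u₁ (10 * D) (10 * ω) e₁)
    (uu : u ∈ unitary _) (u1 : u₁ ∈ unitary _) (h2 : B.Lift M N u u₂ (10 * D) (10 * ω) e₂)
    (u2 : u₂ ∈ unitary _) {w : H} (hw : w ∈ B.V) :
    |qf (pb Δ u u₁) w - qf (pb Δ u u₂) w| ≤ 1922 * ω ^ 2 * ‖w‖ ^ 2 := by
  have hD0 := hc.D_pos
  have hω := hc.ω_nn
  exact Cob_swap hc hD hΔ h1 uu u1 h2.mem' u2 (h2.norm.trans (by linarith))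
    (h2.sn.mono (by linarith)) hw

lemma Cob_norm_I {a a' : H →L[ℂ] H} (ua : a ∈ unitary (H →L[ℂ] H)) :
    ‖Complex.I • (star a * a' - 1)‖ ≤ ‖a - a'‖ := by
  have e : star a * a' - 1 = star a * (a' - a) := by
    rw [mul_sub, Unitary.star_mul_self_of_mem ua]
  rw [norm_smul, Complex.norm_I, one_mul, e,
    CStarRing.norm_mem_unitary_mul _ (Unitary.star_mem ua), norm_sub_rev]

lemma Cob_ws_I {T : H →L[ℂ] H} {c : ℝ} (h : B.WS M T c) : B.WS M (Complex.I • T) c := by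
  intro a ha b hb v hv
  rw [smul_apply, inner_smul_right, norm_mul, Complex.norm_I, one_mul]
  exact h a ha b hb v hv

lemma Cob_norm_mul {x n y y' : H →L[ℂ] H} (ux : x ∈ unitary (H →L[ℂ] H))
    (uy' : y' ∈ unitary (H →L[ℂ] H)) : ‖x * y - n * y'‖ ≤ ‖y - y'‖ + ‖x - n‖ := by
  have e : x * y - n * y' = x * (y - y') + (x - n) * y' := by
    rw [mul_sub, sub_mul]; abel
  rw [e]
  refine (norm_add_le _ _).trans_eq ?_
  rw [CStarRing.norm_mem_unitary_mul _ ux, CStarRing.norm_mul_mem_unitary _ uy']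

lemma Cob_sn_mul (hc : B.Ctx M N D ω e) {x n y y' : H →L[ℂ] H} (hx : x ∈ M) (hn : n ∈ N)
    (hy' : y' ∈ N) (ux : x ∈ unitary (H →L[ℂ] H)) (uy' : y' ∈ unitary (H →L[ℂ] H))
    (s1 : B.SN (x - n) (10 * ω)) (s2 : B.SN (y - y') (10 * ω)) :
    B.SN (x * y - n * y') (21 * ω) := by
  intro v hv
  have e : (x * y - n * y') v = x ((y - y') v) + (B.R y' ((x - n) v) + B.cm x y' v) := by
    simp only [sub_apply, mul_apply_eq_comp, map_sub, Base.cm_apply,
      hc.gN.R_V hy' hv, hc.gN.apply_apply_V hn hy' hv]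
    abel
  have h1 := s1 v hv
  have h2 := s2 v hv
  have h3 := hc.om x hx y' hy' v hv
  have h4 : ω * ‖x‖ * ‖y'‖ * ‖v‖ ≤ ω * 1 * 1 * ‖v‖ := by
    have hω := hc.ω_nn
    gcongr
    exacts [norm_unitary_le ux, norm_unitary_le uy']
  rw [e]
  refine (norm_add_le _ _).trans ((add_le_add le_rfl (norm_add_le _ _)).trans ?_)
  rw [norm_unitary_apply ux, norm_unitary_apply (B.R_unitary uy')]
  linarith

/-- `β u = pb Δ u (l u)` with `l` from `Ctx.ulift`. By `pb_indep`, `β (a y)` may be replaced by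
`pb (a y) (a' y')` (`SN (21 ω)`, `Lift.mul`); then `pb_left`, `pb_right` with `Lift.ws`,
`Lift.ws_R`; `pb_u_mul`, `pb_mul_u`, `pb_star` with `Lift.u_mul`, `Lift.mul_u`, `Lift.star`.
Last part: `pb_indep` for `x` (lifts `l x`, `n`) and `x y` (lifts `l (x y)`, `n y'`;
`(x - n) (y' w) = R y' ((x - n) w) + cm x y' w`), `pb_cm`. -/
theorem exists_cob (hc : B.Ctx M N D ω e) (hD : D ≤ 1 / 10 ^ 8) (hΔ : B.Det M N Δ) :
    ∃ β, B.Cob M β (10 * D) (10 ^ 4 * ω ^ 2) (101 * e) ∧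
      ∀ x ∈ M, ∀ n ∈ N, x ∈ unitary _ → n ∈ unitary _ → ‖x - n‖ ≤ 10 * D →
        B.SN (x - n) (10 * ω) → ∀ y ∈ M, y ∈ unitary _ → ∀ w ∈ B.V,
        |qf (β (x * y)) w - qf (β x) w - qf (β y) w - (⟪n (y w), B.R y (n w)⟫_ℂ).im| ≤
          10 ^ 4 * ω ^ 2 * ‖w‖ ^ 2 := by
  choose! l ul hl using fun u (hu : u ∈ M) (hu' : u ∈ unitary _) => hc.ulift hu hu'
  have hD0 := hc.D_pos
  have hω := hc.ω_nn
  have nn : ∀ w : H, 0 ≤ ω ^ 2 * ‖w‖ ^ 2 := fun w => by positivity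
  have hmul : ∀ a ∈ M, a ∈ unitary _ → ∀ y ∈ M, y ∈ unitary _ → ∀ w ∈ B.V,
      |qf (pb Δ (a * y) (l (a * y))) w - qf (pb Δ (a * y) (l a * l y)) w| ≤
        1922 * ω ^ 2 * ‖w‖ ^ 2 := by
    intro a ha ua y hy uy w hw
    refine Cob_swap hc hD hΔ (hl _ (mul_mem ha hy) (mul_mem ua uy)) (mul_mem ua uy)
      (ul _ (mul_mem ha hy) (mul_mem ua uy)) (mul_mem (hl a ha ua).mem' (hl y hy uy).mem')
      (mul_mem (ul a ha ua) (ul y hy uy)) ?_
      (Cob_sn_mul hc ha (hl a ha ua).mem' (hl y hy uy).mem' ua (ul y hy uy) (hl a ha ua).sn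
        (hl y hy uy).sn) hw
    have h1 := (hl a ha ua).norm
    have h2 := (hl y hy uy).norm
    exact (Cob_norm_mul ua (ul y hy uy)).trans (by linarith)
  refine ⟨fun u => pb Δ u (l u), ⟨?_, ?_, ?_, ?_, ?_, ?_, ?_⟩, ?_⟩
  · intro u hu uu
    have h1 := hΔ.norm_le u (l u)
    have h2 : ‖Complex.I • (star u * l u)‖ ≤ 1 := by
      rw [norm_smul, Complex.norm_I, one_mul]
      exact norm_unitary_le (mul_mem (Unitary.star_mem uu) (ul u hu uu))
    exact (norm_add_le _ _).trans (by linarith)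
  · intro u hu uu
    exact (hΔ.cz u hu _ (hl u hu uu).mem').add
      (((hc.gM.cz hu).star.mul (hc.gN.cz (hl u hu uu).mem')).smul _)
  · intro a ha ua
    refine ⟨Complex.I • (star a * l a - 1), (Cob_norm_I ua).trans (hl a ha ua).norm,
      (((hc.gM.cz ha).star.mul (hc.gN.cz (hl a ha ua).mem')).sub Base.CZ.one).smul _,
      Cob_ws_I (((hl a ha ua).ws hc ua (norm_unitary_le (ul a ha ua))).mono (by linarith)),
      fun y hy uy w hw => ?_⟩
    have h1 := hmul a ha ua y hy uy w hw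
    have h2 := pb_left hc hD hΔ ua (ul a ha ua) (hl a ha ua) (hl y hy uy) uy (ul y hy uy) hw
    have h3 := nn w
    rw [abs_le] at h1 h2 ⊢
    constructor <;> linarith [h1.1, h1.2, h2.1, h2.2]
  · intro y hy uy
    refine ⟨Complex.I • (star (B.R y) * B.R (l y) - 1), (Cob_norm_I (B.R_unitary uy)).trans ?_,
      (((hc.gM.cz_R (hc.gM.cz hy)).star.mul
        (hc.gM.cz_R (hc.gN.cz (hl y hy uy).mem'))).sub Base.CZ.one).smul _,
      Cob_ws_I (((hl y hy uy).ws_R hc uy (norm_unitary_le (ul y hy uy))).mono (by linarith)),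
      fun a ha ua w hw => ?_⟩
    · rw [← B.R_sub, B.norm_R]
      exact (hl y hy uy).norm
    have h1 := hmul a ha ua y hy uy w hw
    have h2 := pb_right hc hD hΔ ua (ul a ha ua) (hl a ha ua) (hl y hy uy) uy (ul y hy uy) hw
    have h3 := nn w
    rw [abs_le] at h1 h2 ⊢
    constructor <;> linarith [h1.1, h1.2, h2.1, h2.2]
  · intro a ha ua γ w hw
    have m1 := mul_mem (hc.gM.u_mem γ) ha
    have m2 := mul_mem (B.u_unitary γ) ua
    have h1 := Cob_swap' hc hD hΔ (hl _ m1 m2) m2 (ul _ m1 m2)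
      ((hl a ha ua).u_mul hc.gM hc.gN γ) (mul_mem (B.u_unitary γ) (ul a ha ua)) hw
    rw [pb_u_mul hc hD hΔ ua (ul a ha ua) ha (hl a ha ua).mem' (hl a ha ua).norm γ hw] at h1
    have h3 := nn w
    exact h1.trans (by linarith)
  · intro a ha ua γ w hw
    have m1 := mul_mem ha (hc.gM.u_mem γ)
    have m2 := mul_mem ua (B.u_unitary γ)
    have h1 := Cob_swap' hc hD hΔ (hl _ m1 m2) m2 (ul _ m1 m2)
      ((hl a ha ua).mul_u hc.gM hc.gN γ) (mul_mem (ul a ha ua) (B.u_unitary γ)) hw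
    rw [pb_mul_u hc hD hΔ ua (ul a ha ua) ha (hl a ha ua).mem' (hl a ha ua).norm γ hw] at h1
    have h3 := nn w
    exact h1.trans (by linarith)
  · intro a ha ua w hw
    have m1 := star_mem ha
    have m2 := Unitary.star_mem ua
    have h1 := Cob_swap' hc hD hΔ (hl _ m1 m2) m2 (ul _ m1 m2)
      ((hl a ha ua).star hc.gM hc.gN) (Unitary.star_mem (ul a ha ua)) (hc.gM.J_mem_V hw)
    rw [pb_star hc hD hΔ ua (ul a ha ua) ha (hl a ha ua).mem' (hl a ha ua).norm hw,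
      sub_neg_eq_add, B.J.norm_map] at h1
    have h3 := nn w
    exact h1.trans (by linarith)
  · intro x hx n hn ux un h1 h2 y hy uy w hw
    have k1 := Cob_swap hc hD hΔ (hl x hx ux) ux (ul x hx ux) hn un (h1.trans (by linarith))
      (h2.mono (by linarith)) hw
    have k2 := Cob_swap hc hD hΔ (hl _ (mul_mem hx hy) (mul_mem ux uy)) (mul_mem ux uy)
      (ul _ (mul_mem hx hy) (mul_mem ux uy)) (mul_mem hn (hl y hy uy).mem')
      (mul_mem un (ul y hy uy))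
      ((Cob_norm_mul ux (ul y hy uy)).trans (by linarith [(hl y hy uy).norm]))
      (Cob_sn_mul hc hx hn (hl y hy uy).mem' ux (ul y hy uy) h2 (hl y hy uy).sn) hw
    have k3 := pb_cm hc hD hΔ ux un hx hn h1 h2 (hl y hy uy) uy (ul y hy uy) hw
    have h3 := nn w
    rw [abs_le] at k1 k2 k3 ⊢
    constructor <;> linarith [k1.1, k1.2, k2.1, k2.2, k3.1, k3.2]

end Crest.Agent.R078T
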