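import Crest.Agent.R078T.ULift

/-! Row 78, tracial stage: the primitive on pairs. -/

set_option autoImplicit false

open scoped InnerProductSpace ComplexConjugate

namespace Crest.Agent.R078T

open Crest.Agent.R121 (Mn Bd)

variable {H : Type*} [NormedAddCommGroup H] [InnerProductSpace ℂ H] [CompleteSpace H]
variable {B : Base H} {M N : VonNeumannAlgebra H}
variable {D ω e : ℝ} {Δ : (H →L[ℂ] H) → (H →L[ℂ] H) → (H →L[ℂ] H)}

/-- `Δ (u, u') - im ⟪u w, u' w⟫` as an operator. -/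
noncomputable def pb (Δ : (H →L[ℂ] H) → (H →L[ℂ] H) → (H →L[ℂ] H)) (u u' : H →L[ℂ] H) :
    H →L[ℂ] H := Δ u u' + Complex.I • (star u * u')

omit [CompleteSpace H] in
theorem coba_qf_I (T : H →L[ℂ] H) (w : H) : qf (Complex.I • T) w = -(⟪w, T w⟫_ℂ).im := by
  simp [qf]

omit [CompleteSpace H] in
theorem coba_self (x : H) : (⟪x, x⟫_ℂ).im = 0 := inner_self_im (𝕜 := ℂ) x

theorem coba_qf_I' (S T : H →L[ℂ] H) (w : H) :
    qf (Complex.I • (star S * T - 1)) w = -(⟪S w, T w⟫_ℂ).im := by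
  rw [coba_qf_I, sub_apply, inner_sub_right, mul_apply_eq_comp, inner_star_right,
    one_apply_eq_self, Complex.sub_im, coba_self, sub_zero]

omit [CompleteSpace H] in
theorem coba_im_le {x y : H} {p q : ℝ} (hx : ‖x‖ ≤ p) (hy : ‖y‖ ≤ q) :
    |(⟪x, y⟫_ℂ).im| ≤ p * q :=
  (Complex.abs_im_le_norm _).trans ((norm_inner_le_norm _ _).trans
    (mul_le_mul hx hy (norm_nonneg _) ((norm_nonneg _).trans hx)))

theorem coba_cm {ω : ℝ} (hω : 0 ≤ ω) (h : B.Om M N ω) {x n : H →L[ℂ] H} (hx : x ∈ M) (hn : n ∈ N)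
    (ux : x ∈ unitary _) (un : n ∈ unitary _) {w : H} (hw : w ∈ B.V) :
    ‖B.cm x n w‖ ≤ ω * ‖w‖ := by
  refine (h x hx n hn w hw).trans (mul_le_mul_of_nonneg_right ?_ (norm_nonneg _))
  rw [mul_assoc]
  exact mul_le_of_le_one_right hω
    (mul_le_one₀ (norm_unitary_le ux) (norm_nonneg _) (norm_unitary_le un))

theorem qf_pb (u u' : H →L[ℂ] H) (w : H) :
    qf (pb Δ u u') w = qf (Δ u u') w - (⟪u w, u' w⟫_ℂ).im := by
  rw [pb, qf_add, coba_qf_I, mul_apply_eq_comp, inner_star_right, sub_eq_add_neg]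

/-- Independence of the lift: `Δ (u, u₁) = Δ (u, u₂) + Δ (1, u₂⋆ u₁)`, `near`, and
`⟪u w, (u₁ - u₂) w⟫ = ⟪u₂ w, (u₁ - u₂) w⟫ + ⟪(u - u₂) w, (u₁ - u₂) w⟫`. -/
theorem pb_indep (hΔ : B.Det M N Δ) {u u₁ u₂ : H →L[ℂ] H} (hu : u ∈ M) (h1 : u₁ ∈ N) (h2 : u₂ ∈ N)
    (uu : u ∈ unitary _) (u1 : u₁ ∈ unitary _) (u2 : u₂ ∈ unitary _)
    (n1 : ‖u - u₁‖ ≤ 1 / (2 * 10 ^ 6)) (n2 : ‖u - u₂‖ ≤ 1 / (2 * 10 ^ 6)) {ω₁ ω₂ : ℝ}
    (s1 : B.SN (u - u₁) ω₁) (s2 : B.SN (u - u₂) ω₂) {w : H} (hw : w ∈ B.V) :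
    |qf (pb Δ u u₁) w - qf (pb Δ u u₂) w| ≤ 2 * (ω₁ + ω₂) ^ 2 * ‖w‖ ^ 2 := by
  have us : star u₂ * u₁ ∈ unitary _ := mul_mem (Unitary.star_mem u2) u1
  have hs : star u₂ * u₁ ∈ N := mul_mem (star_mem h2) h1
  have e1 : star u₂ * u₁ - 1 = star u₂ * ((u - u₂) - (u - u₁)) := by
    rw [sub_sub_sub_cancel_left, mul_sub, Unitary.star_mul_self_of_mem u2]
  have n3 : ‖star u₂ * u₁ - 1‖ ≤ 1 / 10 ^ 6 := by
    rw [e1, CStarRing.norm_mem_unitary_mul _ (Unitary.star_mem u2)]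
    exact (norm_sub_le_of_le n2 n1).trans (by norm_num)
  have a1 := hΔ.add u hu u₂ h2 1 (one_mem M) _ hs uu u2 (one_mem _) us (n2.trans (by norm_num))
    (by rwa [norm_sub_rev]) w hw
  rw [mul_one, ← mul_assoc, Unitary.mul_star_self_of_mem u2, one_mul] at a1
  have a2 := hΔ.near _ hs us n3 w hw
  have b1 := s1 w hw
  have b2 := s2 w hw
  have b3 : ‖(u - u₂) w - (u - u₁) w‖ ≤ ω₂ * ‖w‖ + ω₁ * ‖w‖ := norm_sub_le_of_le b2 b1
  have e2 : ‖(star u₂ * u₁) w - w‖ = ‖(u - u₂) w - (u - u₁) w‖ := by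
    change ‖(star u₂ * u₁ - 1) w‖ = _
    rw [e1, mul_apply_eq_comp, norm_unitary_apply (Unitary.star_mem u2)]
    rfl
  rw [e2, mul_apply_eq_comp, inner_star_right] at a2
  have a3 := coba_im_le (b2.trans (le_add_of_nonneg_right ((norm_nonneg _).trans b1))) b3
  have a4 := pow_le_pow_left₀ (norm_nonneg _) b3 2
  simp only [sub_apply, inner_sub_left, inner_sub_right, Complex.sub_im,
    coba_self] at a3
  rw [qf_pb, qf_pb, a1, abs_le] at *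
  constructor <;> linarith [a2.1, a2.2, a3.1, a3.2]

section

variable (hc : B.Ctx M N D ω e) (hD : D ≤ 1 / 10 ^ 8) (hΔ : B.Det M N Δ) {a a' y y' : H →L[ℂ] H}
  (ua : a ∈ unitary (H →L[ℂ] H)) (ua' : a' ∈ unitary (H →L[ℂ] H))
include hc hD hΔ ua ua'

/-- `add`, and `⟪a y w, a' y' w⟫ = ⟪y w, y' w⟫ + ⟪y w, (a⋆ a' - 1) (y w)⟫ +
⟪(a - a') (y w), a' ((y' - y) w)⟫`; `norm_apply_M`. -/
theorem pb_left {e₁ e₂ : ℝ} (ha : B.Lift M N a a' (10 * D) (10 * ω) e₁)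
    (hy : B.Lift M N y y' (10 * D) (10 * ω) e₂) (uy : y ∈ unitary _) (uy' : y' ∈ unitary _)
    {w : H} (hw : w ∈ B.V) :
    |qf (pb Δ (a * y) (a' * y')) w - qf (pb Δ a a') w - qf (pb Δ y y') w -
      (qf (Complex.I • (star a * a' - 1)) (y w) - qf (Complex.I • (star a * a' - 1)) w)| ≤
      110 * ω ^ 2 * ‖w‖ ^ 2 := by
  have a1 := hΔ.add a ha.mem a' ha.mem' y hy.mem y' hy.mem' ua ua' uy uy'
    (ha.norm.trans (by linarith)) (hy.norm.trans (by linarith)) w hw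
  have b1 : ‖(a - a') (y w)‖ ≤ 11 * ω * ‖w‖ := by
    refine (ha.norm_apply_M hc hy.mem hw).trans (mul_le_mul_of_nonneg_right ?_ (norm_nonneg _))
    have := mul_le_of_le_one_right hc.ω_nn (norm_unitary_le ua')
    have := hc.ω_nn
    exact (mul_le_of_le_one_right (by positivity) (norm_unitary_le uy)).trans (by linarith)
  have a3 := coba_im_le b1 ((norm_unitary_apply ua' _).trans_le (hy.sn w hw))
  simp only [sub_apply, map_sub, inner_sub_left, inner_sub_right, Complex.sub_im,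
    coba_self, inner_unitary ua'] at a3
  rw [qf_pb, qf_pb, qf_pb, a1, coba_qf_I', coba_qf_I', mul_apply_eq_comp, mul_apply_eq_comp,
    abs_le] at *
  constructor <;> linarith [a3.1, a3.2]

/-- `a y w = R y (a w)`, `a' y' w = R y' (a' w)`; with `S = (R y)⋆ R y' - 1`,
`⟪a w, S (a' w)⟫ = ⟪a w, S (a w)⟫ + ⟪S⋆ (a w), (a' - a) w⟫`, `‖S⋆ (a w)‖ = ‖(R y - R y') (a w)‖`
and `(R y - R y') (a w) = a ((y - y') w) + cm a y' w`. -/
theorem pb_right {e₁ e₂ : ℝ} (ha : B.Lift M N a a' (10 * D) (10 * ω) e₁)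
    (hy : B.Lift M N y y' (10 * D) (10 * ω) e₂) (uy : y ∈ unitary _) (uy' : y' ∈ unitary _)
    {w : H} (hw : w ∈ B.V) :
    |qf (pb Δ (a * y) (a' * y')) w - qf (pb Δ a a') w - qf (pb Δ y y') w -
      (qf (Complex.I • (star (B.R y) * B.R y' - 1)) (a w) -
        qf (Complex.I • (star (B.R y) * B.R y' - 1)) w)| ≤ 110 * ω ^ 2 * ‖w‖ ^ 2 := by
  have a1 := hΔ.add a ha.mem a' ha.mem' y hy.mem y' hy.mem' ua ua' uy uy'
    (ha.norm.trans (by linarith)) (hy.norm.trans (by linarith)) w hw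
  have e1 := hc.gM.apply_apply_V ha.mem hy.mem hw
  have e2 := hc.gN.apply_apply_V ha.mem' hy.mem' hw
  have b1 : ‖B.R y (a w) - B.R y' (a w)‖ ≤ 10 * ω * ‖w‖ + ω * ‖w‖ := by
    have : B.R y (a w) - B.R y' (a w) = a ((y - y') w) + B.cm a y' w := by
      rw [← e1, B.cm_apply, hc.gN.R_V hy.mem' hw, sub_apply, map_sub]
      abel
    rw [this]
    exact norm_add_le_of_le ((norm_unitary_apply ua _).trans_le (hy.sn w hw))
      (coba_cm hc.ω_nn hc.om ha.mem hy.mem' ua uy' hw)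
  have a3 := coba_im_le b1 ((norm_unitary_apply (B.R_unitary uy') _).trans_le (ha.sn w hw))
  simp only [sub_apply, map_sub, inner_sub_left, inner_sub_right, Complex.sub_im,
    coba_self, inner_unitary (B.R_unitary uy')] at a3
  rw [qf_pb, qf_pb, qf_pb, a1, coba_qf_I', coba_qf_I', mul_apply_eq_comp, mul_apply_eq_comp, e1, e2,
    hc.gM.R_V hy.mem hw, hc.gN.R_V hy.mem' hw, abs_le]
  rw [abs_le] at a3
  constructor <;> linarith [a3.1, a3.2]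

/-- `⟪a y w, a' y' w⟫ = ⟪a y w, a' y w⟫ + ⟪y w, y' w⟫ - ‖w‖² + ⟪(a - a') (y w), a' ((y' - y) w)⟫`,
`⟪a w, a' w⟫ = ⟪a y w, R y (a' w)⟫`, and replace `a y w` by `a' y w` in `⟪a y w, cm a' y w⟫`;
`(a - a') (y w) = R y ((a - a') w) - cm a' y w`. -/
theorem pb_cm {e₂ : ℝ} (ha : a ∈ M) (ha' : a' ∈ N) (h1 : ‖a - a'‖ ≤ 10 * D)
    (h2 : B.SN (a - a') (10 * ω)) (hy : B.Lift M N y y' (10 * D) (10 * ω) e₂)
    (uy : y ∈ unitary _) (uy' : y' ∈ unitary _) {w : H} (hw : w ∈ B.V) :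
    |qf (pb Δ (a * y) (a' * y')) w - qf (pb Δ a a') w - qf (pb Δ y y') w -
      (⟪a' (y w), B.R y (a' w)⟫_ℂ).im| ≤ 121 * ω ^ 2 * ‖w‖ ^ 2 := by
  have a1 := hΔ.add a ha a' ha' y hy.mem y' hy.mem' ua ua' uy uy'
    (h1.trans (by linarith)) (hy.norm.trans (by linarith)) w hw
  have e1 := hc.gM.apply_apply_V ha hy.mem hw
  have b0 := coba_cm hc.ω_nn hc.om' ha' hy.mem ua' uy hw
  rw [B.cm_apply, hc.gM.R_V hy.mem hw] at b0
  have b1 : ‖a (y w) - a' (y w)‖ ≤ 10 * ω * ‖w‖ + ω * ‖w‖ := by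
    have : a (y w) - a' (y w) = B.R y ((a - a') w) - (a' (y w) - B.R y (a' w)) := by
      rw [e1, sub_apply, map_sub]
      abel
    rw [this]
    exact norm_sub_le_of_le ((norm_unitary_apply (B.R_unitary uy) _).trans_le (h2 w hw)) b0
  have a3 := coba_im_le b1 ((norm_unitary_apply ua' _).trans_le (hy.sn w hw))
  have a4 := coba_im_le b1 b0
  have a5 := inner_unitary (B.R_unitary uy) (a w) (a' w)
  rw [← e1] at a5
  simp only [sub_apply, map_sub, inner_sub_left, inner_sub_right, Complex.sub_im,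
    coba_self, inner_unitary ua', a5] at a3 a4
  rw [qf_pb, qf_pb, qf_pb, a1, mul_apply_eq_comp, mul_apply_eq_comp, abs_le]
  rw [abs_le] at a3 a4
  constructor <;> linarith [a3.1, a3.2, a4.1, a4.2]

/-- `add`, `diag`. -/
theorem pb_u_mul (ha : a ∈ M) (ha' : a' ∈ N) (h1 : ‖a - a'‖ ≤ 10 * D) (γ : B.G) {w : H}
    (hw : w ∈ B.V) : qf (pb Δ (B.u γ * a) (B.u γ * a')) w = qf (pb Δ a a') w := by
  have ug := B.u_unitary γ
  rw [qf_pb, qf_pb, hΔ.add _ (hc.gM.u_mem γ) _ (hc.gN.u_mem γ) a ha a' ha' ug ug ua ua' (by simp)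
    (h1.trans (by linarith)) w hw, hΔ.diag _ (hc.gM.u_mem γ) (hc.gN.u_mem γ) ug w hw, zero_add,
    mul_apply_eq_comp, mul_apply_eq_comp, inner_unitary ug]

theorem pb_mul_u (ha : a ∈ M) (ha' : a' ∈ N) (h1 : ‖a - a'‖ ≤ 10 * D) (γ : B.G) {w : H}
    (hw : w ∈ B.V) : qf (pb Δ (a * B.u γ) (a' * B.u γ)) w = qf (pb Δ a a') w := by
  have ug := B.u_unitary γ
  rw [qf_pb, qf_pb, hΔ.add a ha a' ha' _ (hc.gM.u_mem γ) _ (hc.gN.u_mem γ) ua ua' ug ug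
    (h1.trans (by linarith)) (by simp) w hw, hΔ.diag _ (hc.gM.u_mem γ) (hc.gN.u_mem γ) ug w hw,
    add_zero, mul_apply_eq_comp, mul_apply_eq_comp, hc.gM.apply_apply_V ha (hc.gM.u_mem γ) hw,
    hc.gN.apply_apply_V ha' (hc.gN.u_mem γ) hw, inner_unitary (B.R_unitary ug)]

/-- `inner_J_V` with `Det.cz`, `add` for `a⋆ a = 1`, `diag`, `J_V`, `inner_J`. -/
theorem pb_star (ha : a ∈ M) (ha' : a' ∈ N) (h1 : ‖a - a'‖ ≤ 10 * D) {w : H} (hw : w ∈ B.V) :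
    qf (pb Δ (star a) (star a')) (B.J w) = -qf (pb Δ a a') w := by
  have a1 := hΔ.add _ (star_mem ha) _ (star_mem ha') a ha a' ha' (Unitary.star_mem ua)
    (Unitary.star_mem ua') ua ua' (by rw [← star_sub, norm_star]; linarith)
    (h1.trans (by linarith)) w hw
  rw [Unitary.star_mul_self_of_mem ua, Unitary.star_mul_self_of_mem ua',
    hΔ.diag 1 (one_mem M) (one_mem N) (one_mem _) w hw] at a1
  have a2 : qf (Δ (star a) (star a')) (B.J w) = qf (Δ (star a) (star a')) w := by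
    rw [qf, qf, hc.gM.inner_J_V (hΔ.cz _ (star_mem ha) _ (star_mem ha')) hw]
  rw [qf_pb, qf_pb, a2, ← hc.gM.J_V ha hw, ← hc.gN.J_V ha' hw, B.inner_J, ← inner_conj_symm,
    Complex.conj_im]
  linarith

end

end Crest.Agent.R078T
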