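import Crest.Agent.R078T.Lifts
import Crest.Agent.R078T.Cay

/-! Row 78, tracial stage: conjugating one of the algebras. -/

set_option autoImplicit false

open scoped InnerProductSpace ComplexConjugate

namespace Crest.Agent.R078T

open Crest.Agent.R121 (Mn Bd)

variable {H : Type*} [NormedAddCommGroup H] [InnerProductSpace ℂ H] [CompleteSpace H]
variable {B : Base H} {M N : VonNeumannAlgebra H}
variable {U W : H →L[ℂ] H}

theorem Base.Sym.one : B.Sym 1 := by
  exact ⟨one_mem _, fun γ => by simp, Base.CZ.one, rfl, fun _ => rfl⟩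

theorem Base.Sym.mul (hU : B.Sym U) (hW : B.Sym W) : B.Sym (U * W) := by
  refine ⟨mul_mem hU.mem hW.mem, fun γ => ?_, hU.cz.mul hW.cz, ?_, fun ζ => ?_⟩
  · rw [← mul_assoc, hU.u_comm, mul_assoc, hW.u_comm, mul_assoc]
  · rw [mul_apply_eq_comp, hW.fix, hU.fix]
  · rw [mul_apply_eq_comp, mul_apply_eq_comp, hU.J_comm, hW.J_comm]

theorem Base.Sym.star (hU : B.Sym U) : B.Sym (star U) := by
  refine ⟨Unitary.star_mem hU.mem, fun γ => ?_, hU.cz.star, ?_, fun ζ => ?_⟩
  · have h := congrArg Star.star (hU.u_comm γ⁻¹)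
    rw [star_mul, star_mul, B.u_inv, star_star] at h
    exact h.symm
  · conv_lhs => rw [← hU.fix]
    exact star_apply_apply hU.mem _
  · rw [← star_apply_apply hU.mem (B.J (Star.star U ζ)), ← hU.J_comm, apply_star_apply hU.mem]

theorem Base.Sym.fix_V (hU : B.Sym U) {v : H} (hv : v ∈ B.V) : U v = v := by
  obtain ⟨z, hz, rfl⟩ := hv
  rw [hU.cz.apply hz, hU.fix]

theorem Base.Sym.R_conj (hU : B.Sym U) (T : H →L[ℂ] H) :
    B.R (U * T * Star.star U) = U * B.R T * Star.star U := by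
  have h1 : B.R U = Star.star U := by
    ext v
    rw [B.R_apply, hU.star.J_comm, B.J_J]
  rw [B.R_mul, B.R_mul, B.R_star, h1, star_star, mul_assoc]

/-- Norm limits of symmetries. -/
theorem Base.Sym.of_tendsto {F : ℕ → (H →L[ℂ] H)} (h : ∀ k, B.Sym (F k))
    (hl : Filter.Tendsto F Filter.atTop (nhds W)) : B.Sym W := by
  have hs : Filter.Tendsto (fun k => Star.star (F k)) Filter.atTop (nhds (Star.star W)) := hl.star
  have ha : ∀ ζ : H, Filter.Tendsto (fun k => F k ζ) Filter.atTop (nhds (W ζ)) := fun ζ =>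
    ((ContinuousLinearMap.apply ℂ H ζ).continuous.tendsto W).comp hl
  have hc : ∀ T : H →L[ℂ] H, (∀ k, T * F k = F k * T) → T * W = W * T := fun T hT =>
    tendsto_nhds_unique (hl.const_mul T) ((hl.mul_const T).congr fun k => (hT k).symm)
  refine ⟨⟨?_, ?_⟩, fun γ => hc _ fun k => (h k).u_comm γ,
    fun z hz => hc _ fun k => (h k).cz z hz, ?_, fun ζ => ?_⟩
  · exact tendsto_nhds_unique (hs.mul hl)
      (tendsto_const_nhds.congr fun k => (h k).mem.1.symm)
  · exact tendsto_nhds_unique (hl.mul hs)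
      (tendsto_const_nhds.congr fun k => (h k).mem.2.symm)
  · exact tendsto_nhds_unique (ha _) (tendsto_const_nhds.congr fun k => (h k).fix.symm)
  · exact tendsto_nhds_unique ((B.J.continuous.tendsto _).comp (ha ζ))
      ((ha (B.J ζ)).congr fun k => ((h k).J_comm ζ).symm)

/-- `U = cay h`, `h = -κ / 2`; `R U = cay (R h) = cay (-h) = U⋆` gives `J U = U J`. -/
theorem Base.Gen.exists_sym {κ : H →L[ℂ] H} (h : B.Gen κ) :
    ∃ U, B.Sym U ∧ ‖U - 1‖ ≤ ‖κ‖ ∧ ‖U - 1 + Complex.I • κ‖ ≤ ‖κ‖ ^ 2 / 2 := by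
  have hh : IsSelfAdjoint ((-(1 / 2) : ℂ) • κ) := by
    rw [IsSelfAdjoint, star_smul, h.sa.star_eq]
    simp
  have hn : ‖(-(1 / 2) : ℂ) • κ‖ = ‖κ‖ / 2 := by
    rw [norm_smul]
    simp
    ring
  have hc : ∀ T : H →L[ℂ] H, T * κ = κ * T →
      T * cay ((-(1 / 2) : ℂ) • κ) = cay ((-(1 / 2) : ℂ) • κ) * T := fun T hT =>
    cay_comm hh (by rw [mul_smul_comm, smul_mul_assoc, hT])
  refine ⟨cay ((-(1 / 2) : ℂ) • κ), ⟨cay_unitary hh, fun γ => hc _ (h.u_comm γ),
    fun z hz => hc _ (h.cz z hz), ?_, fun ζ => ?_⟩, ?_, ?_⟩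
  · exact cay_apply_of_eq_zero hh (by rw [smul_apply, h.kill, smul_zero])
  · rw [B.J_op, B.R_star, B.R_cay hh, B.R_smul, h.anti, smul_neg, ← star_cay hh, star_star]
  · refine (norm_cay_sub_one hh).trans_eq ?_
    rw [hn]
    ring
  · have h1 := norm_cay_second hh
    have h2 : (2 * Complex.I) • (-(1 / 2) : ℂ) • κ = -(Complex.I • κ) := by
      rw [smul_smul, ← neg_smul]
      congr 1
      ring
    rw [h2, sub_neg_eq_add, hn] at h1
    refine h1.trans_eq ?_
    ring

theorem conj_conj_eq (hU : U ∈ unitary (H →L[ℂ] H)) (x : H →L[ℂ] H) :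
    U * (star U * x * U) * star U = x := by
  rw [← mul_assoc, ← mul_assoc, Unitary.mul_star_self_of_mem hU, one_mul, mul_assoc,
    Unitary.mul_star_self_of_mem hU, mul_one]

theorem conj_conj_eq' (hU : U ∈ unitary (H →L[ℂ] H)) (x : H →L[ℂ] H) :
    star U * (U * x * star U) * U = x := by
  rw [← mul_assoc, ← mul_assoc, Unitary.star_mul_self_of_mem hU, one_mul, mul_assoc,
    Unitary.star_mul_self_of_mem hU, mul_one]

theorem conj_norm_eq (hU : U ∈ unitary (H →L[ℂ] H)) (x : H →L[ℂ] H) :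
    ‖star U * x * U‖ = ‖x‖ := by
  rw [CStarRing.norm_mul_mem_unitary _ hU,
    CStarRing.norm_mem_unitary_mul _ (Unitary.star_mem hU)]

theorem conj_eq_of_comm (hU : U ∈ unitary (H →L[ℂ] H)) {x : H →L[ℂ] H} (h : x * U = U * x) :
    star U * x * U = x := by
  rw [mul_assoc, h, ← mul_assoc, Unitary.star_mul_self_of_mem hU, one_mul]

theorem conj_mem_conjVN (hU : U ∈ unitary (H →L[ℂ] H)) {x : H →L[ℂ] H} (hx : x ∈ M) :
    U * x * star U ∈ conjVN U hU M := by
  rw [mem_conjVN, conj_conj_eq' hU]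
  exact hx

theorem conjVN_one : conjVN (1 : H →L[ℂ] H) (one_mem _) M = M := by
  refine SetLike.ext fun x => ?_
  rw [mem_conjVN, star_one, one_mul, mul_one]

theorem conjVN_mul (hU : U ∈ unitary (H →L[ℂ] H)) (hW : W ∈ unitary (H →L[ℂ] H)) :
    conjVN U hU (conjVN W hW M) = conjVN (U * W) (mul_mem hU hW) M := by
  refine SetLike.ext fun x => ?_
  rw [mem_conjVN, mem_conjVN, mem_conjVN, star_mul]
  simp only [mul_assoc]

theorem mem_commutant_conjVN (hU : U ∈ unitary (H →L[ℂ] H)) {y : H →L[ℂ] H} :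
    y ∈ (conjVN U hU M).commutant ↔ star U * y * U ∈ M.commutant := by
  have h1 := Unitary.mul_star_self_of_mem hU
  have h2 := Unitary.star_mul_self_of_mem hU
  rw [VonNeumannAlgebra.mem_commutant_iff, VonNeumannAlgebra.mem_commutant_iff]
  constructor
  · intro h g hg
    have h3 := h _ (conj_mem_conjVN hU hg)
    calc g * (star U * y * U) = star U * (U * g * star U * y) * U := by
          simp only [← mul_assoc, h2, one_mul]
      _ = star U * y * U * g := by
          rw [h3]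
          simp only [mul_assoc, h2, mul_one]
  · intro h g hg
    have h3 := h _ ((mem_conjVN hU).1 hg)
    calc g * y = U * (star U * g * U * (star U * y * U)) * star U := by
          simp only [← mul_assoc, h1, one_mul]
          simp only [mul_assoc, h1, mul_one]
      _ = y * g := by
          rw [h3]
          simp only [← mul_assoc, h1, one_mul]
          simp only [mul_assoc, h1, mul_one]

theorem Base.Good.conj (hM : B.Good M) (hU : B.Sym U) : B.Good (conjVN U hU.mem M) := by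
  have hs := hU.star
  refine ⟨?_, fun x hx => ?_, fun y hy => ?_, fun γ => ?_, fun z hz => ?_, fun z hz x hx => ?_,
    fun x hx h => ?_⟩
  · have hsurj : Function.Surjective U := fun v => ⟨star U v, apply_star_apply hU.mem v⟩
    refine (hsurj.denseRange.dense_image U.continuous hM.cyc).mono ?_
    rintro _ ⟨_, ⟨a, rfl⟩, rfl⟩
    refine ⟨⟨U * a * star U, conj_mem_conjVN hU.mem a.2⟩, ?_⟩
    simp only [mul_apply_eq_comp, hs.fix]
  · have h1 := hM.J_app _ ((mem_conjVN hU.mem).1 hx)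
    simp only [star_mul, star_star, mul_apply_eq_comp, hU.fix, hs.J_comm] at h1
    rw [← apply_star_apply hU.mem (B.J (x B.ξ)), h1, apply_star_apply hU.mem]
  · have h1 := hM.R_mem _ ((mem_commutant_conjVN hU.mem).1 hy)
    have h2 := hs.R_conj y
    rw [star_star] at h2
    rw [h2] at h1
    exact h1
  · rw [mem_conjVN, conj_eq_of_comm hU.mem (hU.u_comm γ)]
    exact hM.u_mem γ
  · rw [mem_conjVN, conj_eq_of_comm hU.mem (hU.cz z hz)]
    exact hM.Z_mem z hz
  · have h1 := (hU.cz.mul (hM.cz ((mem_conjVN hU.mem).1 hx))).mul hs.cz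
    rw [conj_conj_eq hU.mem] at h1
    exact h1 z hz
  · have h1 : star U * x * U ∈ B.Z := hM.irr _ ((mem_conjVN hU.mem).1 hx) fun γ => by
      rw [← mul_assoc, ← mul_assoc, hs.u_comm, mul_assoc _ _ x, h, mul_assoc, mul_assoc,
        hU.u_comm]
      simp only [mul_assoc]
    have h2 := conj_eq_of_comm hs.mem (hs.cz _ h1)
    rw [star_star, conj_conj_eq hU.mem] at h2
    rw [h2]
    exact h1

theorem norm_conj_sub (hU : U ∈ unitary (H →L[ℂ] H)) (x : H →L[ℂ] H) :
    ‖U * x * star U - x‖ ≤ 2 * ‖U - 1‖ * ‖x‖ := by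
  have h1 : U * x * star U - x = (U - 1) * x * star U + x * star (U - 1) := by
    rw [star_sub, star_one]
    noncomm_ring
  rw [h1]
  refine (norm_add_le _ _).trans ?_
  rw [CStarRing.norm_mul_mem_unitary _ (Unitary.star_mem hU)]
  have h2 := norm_mul_le (U - 1) x
  have h3 := norm_mul_le x (star (U - 1))
  rw [norm_star] at h3
  linarith

theorem Close.conj_left {D : ℝ} (h : Close M N D) (hU : U ∈ unitary (H →L[ℂ] H)) :
    Close (conjVN U hU M) N (D + 2 * ‖U - 1‖) := by
  intro x hx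
  obtain ⟨z, hz, h1⟩ := h _ ((mem_conjVN hU).1 hx)
  have h2 := norm_conj_sub hU (star U * x * U)
  rw [conj_conj_eq hU, conj_norm_eq hU] at h2
  rw [conj_norm_eq hU] at h1
  refine ⟨z, hz, (norm_sub_le_norm_sub_add_norm_sub x (star U * x * U) z).trans ?_⟩
  linarith

theorem Close.conj_right {D : ℝ} (h : Close N M D) (hU : U ∈ unitary (H →L[ℂ] H)) :
    Close N (conjVN U hU M) (D + 2 * (1 + D) * ‖U - 1‖) := by
  intro x hx
  obtain ⟨y, hy, h1⟩ := h x hx
  have h2 := norm_conj_sub hU y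
  have h3 : ‖y‖ ≤ (1 + D) * ‖x‖ := by
    have := norm_sub_norm_le y x
    rw [norm_sub_rev] at this
    linarith
  refine ⟨_, conj_mem_conjVN hU hy, (norm_sub_le_norm_sub_add_norm_sub x y _).trans ?_⟩
  rw [norm_sub_rev y]
  have h4 := mul_le_mul_of_nonneg_left h3 (by positivity : 0 ≤ 2 * ‖U - 1‖)
  linarith

theorem Base.Om.conj {ω : ℝ} (h : B.Om M N ω) (hU : U ∈ unitary (H →L[ℂ] H)) :
    B.Om (conjVN U hU M) N (ω + 4 * ‖U - 1‖) := by
  intro x hx n hn v hv
  have h1 := h _ ((mem_conjVN hU).1 hx) n hn v hv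
  have h2 := norm_conj_sub hU (star U * x * U)
  rw [conj_conj_eq hU, conj_norm_eq hU] at h2
  rw [conj_norm_eq hU] at h1
  set y := star U * x * U
  have h3 : B.cm x n v = B.cm y n v + ((x - y) * B.R n - B.R n * (x - y)) v := by
    rw [← add_apply]
    congr 1
    simp only [Base.cm]
    noncomm_ring
  have h4 : ‖(x - y) * B.R n - B.R n * (x - y)‖ ≤ 4 * ‖U - 1‖ * ‖x‖ * ‖n‖ := by
    refine (norm_sub_le _ _).trans ?_
    have h5 := norm_mul_le (x - y) (B.R n)
    have h6 := norm_mul_le (B.R n) (x - y)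
    rw [B.norm_R] at h5 h6
    have h7 := mul_le_mul_of_nonneg_right h2 (norm_nonneg n)
    linarith
  rw [h3]
  refine (norm_add_le _ _).trans ?_
  have h5 := ((x - y) * B.R n - B.R n * (x - y)).le_of_opNorm_le h4 v
  linarith

/-- If the weak defect vanishes the algebras coincide. `cm x n ξ = 0` by density;
`cm x n (n' ξ) = cm x (n' n) ξ - R n (cm x n' ξ) = 0`, so `x` commutes with `R N` and `M ≤ N`
(`mem_of_comm_R`); then `y ∈ N` commutes with `R M ⊆ R N`. -/
theorem eq_of_weak_zero (hM : B.Good M) (hN : B.Good N)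
    (h : ∀ x ∈ M, ∀ n ∈ N, ∀ m ∈ N, ⟪m B.ξ, B.cm x n B.ξ⟫_ℂ = 0) : M = N := by
  have h1 : ∀ x ∈ M, ∀ n ∈ N, B.cm x n B.ξ = 0 := by
    intro x hx n hn
    have h2 : (fun v => ⟪v, B.cm x n B.ξ⟫_ℂ) = fun _ => 0 :=
      Continuous.ext_on hN.cyc (by fun_prop) continuous_const (by
        rintro _ ⟨m, rfl⟩
        exact h x hx n hn m m.2)
    exact inner_self_eq_zero.1 (congrFun h2 _)
  have h2 : ∀ x ∈ M, x ∈ N := by
    intro x hx
    refine hN.mem_of_comm_R fun n hn => hN.ext_cyc fun n' hn' => ?_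
    have h3 := h1 x hx n' hn'
    have h4 := h1 x hx (n' * n) (mul_mem hn' hn)
    rw [Base.cm_apply, sub_eq_zero] at h3 h4
    rw [B.R_mul, mul_apply_eq_comp, mul_apply_eq_comp, ← h3, hN.R_ξ hn'] at h4
    rw [mul_apply_eq_comp, mul_apply_eq_comp, h4]
  refine SetLike.ext fun x => ⟨h2 x, fun hx => ?_⟩
  exact hM.mem_of_comm_R fun y hy => hN.R_comm (h2 y hy) hx

end Crest.Agent.R078T
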