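import Crest.Agent.R121.WMean
import Crest.Agent.R121.Compact

/-! Row 78, tracial stage: definitions and the elementary API. -/

set_option autoImplicit false

open scoped InnerProductSpace ComplexConjugate

namespace Crest.Agent.R078T

open Crest.Agent.R121 (Mn Bd IsW Avg)
open Crest.Agent.R124 (IsVN)

variable {H : Type*} [NormedAddCommGroup H] [InnerProductSpace ℂ H] [CompleteSpace H]

/-- The data common to the two algebras: trace vector, conjugation, amenable group of unitaries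
with a two-sided invariant mean, centre, and a sequence of qubits in the group. -/
structure Base (H : Type*) [NormedAddCommGroup H] [InnerProductSpace ℂ H] [CompleteSpace H] where
  /-- the trace vector -/
  ξ : H
  norm_ξ : ‖ξ‖ = 1
  /-- the conjugation -/
  J : H ≃ₗᵢ⋆[ℂ] H
  J_J : ∀ x, J (J x) = x
  /-- the group -/
  G : Subgroup (unitary (H →L[ℂ] H))
  /-- the invariant mean -/
  m : Mn G
  m_mul : ∀ f : G → ℂ, Bd f → ∀ h : G, m (fun g => f (g * h)) = m f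
  m_inv : ∀ f : G → ℂ, Bd f → m (fun g => f g⁻¹) = m f
  /-- the centre -/
  Z : StarSubalgebra ℂ (H →L[ℂ] H)
  /-- qubit flips -/
  X : ℕ → G
  /-- qubit signs -/
  Y : ℕ → G
  Y_sq : ∀ i, Y i * Y i = 1
  Y_comm : ∀ i j, Y i * Y j = Y j * Y i
  XY_anti : ∀ i, (X i).1.1 * (Y i).1.1 = -((Y i).1.1 * (X i).1.1)
  XY_comm : ∀ i j, i ≠ j → X i * Y j = Y j * X i

/-- Every element of `M` is relatively `D`-close to `N`. -/
def Close (M N : VonNeumannAlgebra H) (D : ℝ) : Prop :=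
  ∀ x ∈ M, ∃ y ∈ N, ‖x - y‖ ≤ D * ‖x‖

/-- `re ⟪ζ, T ζ⟫`. -/
noncomputable def qf (T : H →L[ℂ] H) (ζ : H) : ℝ := (⟪ζ, T ζ⟫_ℂ).re

namespace Base

variable (B : Base H)

/-- The operator of a group element. -/
def u (γ : B.G) : H →L[ℂ] H := γ.1.1

/-- Right multiplication `J T⋆ J`. -/
noncomputable def R (T : H →L[ℂ] H) : H →L[ℂ] H :=
  LinearMap.mkContinuous
    { toFun := fun v => B.J (star T (B.J v))
      map_add' := fun v w => by simp only [map_add]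
      map_smul' := fun c v => by
        simp only [map_smulₛₗ, RingHom.id_apply, RingHomCompTriple.comp_apply] } ‖T‖ fun v => by
    change ‖B.J (star T (B.J v))‖ ≤ _
    rw [B.J.norm_map]
    refine ((star T).le_opNorm _).trans_eq ?_
    rw [B.J.norm_map, norm_star]

/-- The central vectors `z ξ`. -/
def V : Set H := {v | ∃ z ∈ B.Z, z B.ξ = v}

/-- `M` is a finite algebra in standard form for the common data. -/
structure Good (M : VonNeumannAlgebra H) : Prop where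
  cyc : Dense (Set.range fun a : M => (a : H →L[ℂ] H) B.ξ)
  J_app : ∀ x ∈ M, B.J (x B.ξ) = star x B.ξ
  R_mem : ∀ y ∈ M.commutant, B.R y ∈ M
  u_mem : ∀ γ : B.G, B.u γ ∈ M
  Z_mem : ∀ z ∈ B.Z, z ∈ M
  Z_comm : ∀ z ∈ B.Z, ∀ x ∈ M, z * x = x * z
  irr : ∀ x ∈ M, (∀ γ : B.G, B.u γ * x = x * B.u γ) → x ∈ B.Z

/-- `T` commutes with the centre. -/
def CZ (T : H →L[ℂ] H) : Prop := ∀ z ∈ B.Z, z * T = T * z

/-- `L²` smallness on central vectors. -/
def SN (T : H →L[ℂ] H) (c : ℝ) : Prop := ∀ v ∈ B.V, ‖T v‖ ≤ c * ‖v‖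

/-- `L¹(N)` smallness on central vectors. -/
def WN (N : VonNeumannAlgebra H) (T : H →L[ℂ] H) (c : ℝ) : Prop :=
  ∀ n ∈ N, ∀ v ∈ B.V, ∀ w ∈ B.V, ‖⟪n w, T v⟫_ℂ‖ ≤ c * ‖n‖ * ‖v‖ * ‖w‖

/-- Smallness on pairs of `M`-bounded vectors. -/
def WS (M : VonNeumannAlgebra H) (T : H →L[ℂ] H) (c : ℝ) : Prop :=
  ∀ a ∈ M, ∀ b ∈ M, ∀ v ∈ B.V, ‖⟪b v, T (a v)⟫_ℂ‖ ≤ c * ‖a‖ * ‖b‖ * ‖v‖ ^ 2

/-- The commutator of `x` with right multiplication by `n`. -/
noncomputable def cm (x n : H →L[ℂ] H) : H →L[ℂ] H := x * B.R n - B.R n * x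

/-- The `L²` defect. -/
def Om (M N : VonNeumannAlgebra H) (ω : ℝ) : Prop :=
  ∀ x ∈ M, ∀ n ∈ N, B.SN (B.cm x n) (ω * ‖x‖ * ‖n‖)

/-- The weak defect. -/
def Ep (M N : VonNeumannAlgebra H) (ε : ℝ) : Prop :=
  ∀ x ∈ M, ∀ n ∈ N, B.WN N (B.cm x n) (ε * ‖x‖ * ‖n‖)

/-- The standing hypotheses on a pair. -/
structure Ctx (M N : VonNeumannAlgebra H) (D ω e : ℝ) : Prop where
  gM : B.Good M
  gN : B.Good N
  cMN : Close M N D
  cNM : Close N M D
  om : B.Om M N ω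
  om' : B.Om N M ω
  ep : B.Ep M N e
  ep' : B.Ep N M e
  sq : ω ^ 2 ≤ e
  D_pos : 0 < D
  D_le : D ≤ 1 / 100
  ω_nn : 0 ≤ ω

/-- `a' ∈ N` is close to `a ∈ M` in the three norms. -/
structure Lift (M N : VonNeumannAlgebra H) (a a' : H →L[ℂ] H) (δ ω e : ℝ) : Prop where
  mem : a ∈ M
  mem' : a' ∈ N
  norm : ‖a - a'‖ ≤ δ
  sn : B.SN (a - a') ω
  wM : B.WN M (a - a') e
  wN : B.WN N (a - a') e

/-- Unitaries preserving the common data. -/
structure Sym (U : H →L[ℂ] H) : Prop where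
  mem : U ∈ unitary (H →L[ℂ] H)
  u_comm : ∀ γ : B.G, B.u γ * U = U * B.u γ
  cz : B.CZ U
  fix : U B.ξ = B.ξ
  J_comm : ∀ ζ, B.J (U ζ) = U (B.J ζ)

end Base

/-- The conjugate algebra `U M U⋆`. -/
noncomputable def conjVN (U : H →L[ℂ] H) (hU : U ∈ unitary (H →L[ℂ] H))
    (M : VonNeumannAlgebra H) : VonNeumannAlgebra H where
  carrier := {x | star U * x * U ∈ M}
  mul_mem' := fun {a b} ha hb => by
    have : star U * (a * b) * U = star U * a * U * (star U * b * U) := by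
      rw [mul_assoc (star U * a), ← mul_assoc U, ← mul_assoc U, Unitary.mul_star_self_of_mem hU,
        one_mul]
      simp only [mul_assoc]
    change star U * (a * b) * U ∈ M
    rw [this]
    exact mul_mem ha hb
  one_mem' := by
    change star U * 1 * U ∈ M
    rw [mul_one, Unitary.star_mul_self_of_mem hU]
    exact one_mem M
  add_mem' := fun {a b} ha hb => by
    change star U * (a + b) * U ∈ M
    rw [mul_add, add_mul]
    exact add_mem ha hb
  zero_mem' := by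
    change star U * 0 * U ∈ M
    rw [mul_zero, zero_mul]
    exact zero_mem M
  algebraMap_mem' := fun c => by
    change star U * algebraMap ℂ _ c * U ∈ M
    rw [← Algebra.commutes, mul_assoc, Unitary.star_mul_self_of_mem hU, mul_one]
    exact M.toStarSubalgebra.algebraMap_mem c
  star_mem' := fun {a} ha => by
    change star U * star a * U ∈ M
    have := star_mem (show star U * a * U ∈ M from ha)
    rwa [star_mul, star_mul, star_star, ← mul_assoc] at this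
  centralizer_centralizer' := by
    have h1 := Unitary.mul_star_self_of_mem hU
    have h2 := Unitary.star_mul_self_of_mem hU
    refine Set.Subset.antisymm (fun x hx => ?_) Set.subset_centralizer_centralizer
    change star U * x * U ∈ (M : Set (H →L[ℂ] H))
    rw [← M.centralizer_centralizer]
    intro t ht
    have h3 : U * t * star U * x = x * (U * t * star U) := hx _ fun y hy => by
      have h4 : star U * y * U * t = t * (star U * y * U) := ht _ hy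
      calc y * (U * t * star U) = U * (star U * y * U * t) * star U := by
            simp only [← mul_assoc, h1, one_mul]
        _ = U * t * star U * y := by
            rw [h4]
            simp only [mul_assoc, h1, mul_one]
    calc t * (star U * x * U) = star U * (U * t * star U * x) * U := by
          simp only [← mul_assoc, h2, one_mul]
      _ = star U * x * U * t := by
          rw [h3]
          simp only [mul_assoc, h2, mul_one]

lemma mem_conjVN {U : H →L[ℂ] H} (hU : U ∈ unitary (H →L[ℂ] H)) {M : VonNeumannAlgebra H}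
    {x : H →L[ℂ] H} : x ∈ conjVN U hU M ↔ star U * x * U ∈ M := Iff.rfl

/-- The Cayley transform `(1 + i h) (1 - i h)⁻¹`. -/
noncomputable def cay (h : H →L[ℂ] H) : H →L[ℂ] H :=
  (1 + Complex.I • h) * Ring.inverse (1 - Complex.I • h)

/-- The argument of a unitary. -/
noncomputable def lg (x : H →L[ℂ] H) : H →L[ℂ] H := cfc (fun z : ℂ => (z.arg : ℂ)) x

/-- `x` has a spectral gap of size `η` at `-1`. -/
def Gap (x : H →L[ℂ] H) (η : ℝ) : Prop := ∀ ζ, η * ‖ζ‖ ≤ ‖x ζ + ζ‖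

/-- The vector functional of `w` is tracial on `M`. -/
def TrV (M : VonNeumannAlgebra H) (w : H) : Prop :=
  ∀ a ∈ M, ∀ b ∈ M, ⟪w, (a * b) w⟫_ℂ = ⟪w, (b * a) w⟫_ℂ

namespace Base

variable (B : Base H)

/-- A relative determinant on close pairs of unitaries. -/
structure Det (M N : VonNeumannAlgebra H) (Δ : (H →L[ℂ] H) → (H →L[ℂ] H) → (H →L[ℂ] H)) :
    Prop where
  norm_le : ∀ u u', ‖Δ u u'‖ ≤ 13
  cz : ∀ u ∈ M, ∀ u' ∈ N, B.CZ (Δ u u')
  add : ∀ u ∈ M, ∀ u' ∈ N, ∀ v ∈ M, ∀ v' ∈ N, u ∈ unitary _ → u' ∈ unitary _ → v ∈ unitary _ →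
    v' ∈ unitary _ → ‖u - u'‖ ≤ 1 / 10 ^ 6 → ‖v - v'‖ ≤ 1 / 10 ^ 6 → ∀ w ∈ B.V,
    qf (Δ (u * v) (u' * v')) w = qf (Δ u u') w + qf (Δ v v') w
  near : ∀ s ∈ N, s ∈ unitary _ → ‖s - 1‖ ≤ 1 / 10 ^ 6 → ∀ w ∈ B.V,
    |qf (Δ 1 s) w - (⟪w, s w⟫_ℂ).im| ≤ ‖s w - w‖ ^ 2
  diag : ∀ g ∈ M, g ∈ N → g ∈ unitary _ → ∀ w ∈ B.V, qf (Δ g g) w = 0

/-- An approximate primitive of the defect cocycle on the unitary group of `M`. -/
structure Cob (M : VonNeumannAlgebra H) (β : (H →L[ℂ] H) → (H →L[ℂ] H)) (δ O c : ℝ) : Prop where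
  norm_le : ∀ u ∈ M, u ∈ unitary _ → ‖β u‖ ≤ 14
  cz : ∀ u ∈ M, u ∈ unitary _ → B.CZ (β u)
  left : ∀ a ∈ M, a ∈ unitary _ → ∃ s, ‖s‖ ≤ δ ∧ B.CZ s ∧ B.WS M s c ∧
    ∀ y ∈ M, y ∈ unitary _ → ∀ w ∈ B.V,
      |qf (β (a * y)) w - qf (β a) w - qf (β y) w - (qf s (y w) - qf s w)| ≤ O * ‖w‖ ^ 2
  right : ∀ y ∈ M, y ∈ unitary _ → ∃ s, ‖s‖ ≤ δ ∧ B.CZ s ∧ B.WS M s c ∧
    ∀ a ∈ M, a ∈ unitary _ → ∀ w ∈ B.V,
      |qf (β (a * y)) w - qf (β a) w - qf (β y) w - (qf s (a w) - qf s w)| ≤ O * ‖w‖ ^ 2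
  u_mul : ∀ a ∈ M, a ∈ unitary _ → ∀ γ : B.G, ∀ w ∈ B.V,
    |qf (β (B.u γ * a)) w - qf (β a) w| ≤ O * ‖w‖ ^ 2
  mul_u : ∀ a ∈ M, a ∈ unitary _ → ∀ γ : B.G, ∀ w ∈ B.V,
    |qf (β (a * B.u γ)) w - qf (β a) w| ≤ O * ‖w‖ ^ 2
  star : ∀ a ∈ M, a ∈ unitary _ → ∀ w ∈ B.V,
    |qf (β (star a)) (B.J w) + qf (β a) w| ≤ O * ‖w‖ ^ 2

/-- The generator of the Newton step. -/
structure Gen (κ : H →L[ℂ] H) : Prop where
  sa : IsSelfAdjoint κ
  u_comm : ∀ γ : B.G, B.u γ * κ = κ * B.u γ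
  cz : B.CZ κ
  anti : B.R κ = -κ
  kill : κ B.ξ = 0

end Base

end Crest.Agent.R078T
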