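import Crest.Agent.R078T.Branch

/-! Row 78, tracial stage: the relative determinant. -/

set_option autoImplicit false

open scoped InnerProductSpace ComplexConjugate

namespace Crest.Agent.R078T

open Crest.Agent.R121 (Mn Bd)

variable {H : Type*} [NormedAddCommGroup H] [InnerProductSpace ℂ H] [CompleteSpace H]
variable {B : Base H} {M N : VonNeumannAlgebra H}

/-- Admissible perturbations of `u`. -/
structure Adm (M N : VonNeumannAlgebra H) (u a a' : H →L[ℂ] H) (ρ δ : ℝ) : Prop where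
  mem : a ∈ M
  mem' : a' ∈ N
  uni : a ∈ unitary (H →L[ℂ] H)
  uni' : a' ∈ unitary (H →L[ℂ] H)
  near : ‖a - 1‖ ≤ ρ
  close : ‖a - a'‖ ≤ δ
  gap : Gap (u * a) (1 / 200)

/-- The determinant computed with the perturbation `(a, a')`. -/
noncomputable def detF (u u' a a' : H →L[ℂ] H) : H →L[ℂ] H :=
  lg (u' * a') - lg (u * a) - lg a' + lg a

open Classical in
/-- The relative determinant. -/
noncomputable def detD (M N : VonNeumannAlgebra H) (u u' : H →L[ℂ] H) : H →L[ℂ] H :=
  if h : ∃ p : (H →L[ℂ] H) × (H →L[ℂ] H), Adm M N u p.1 p.2 (1 / 100) (1 / (4 * 10 ^ 4)) then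
    detF u u' h.choose.1 h.choose.2 else 0

lemma detD_norm_mul_sub {a b a' b' : H →L[ℂ] H} (ua : a' ∈ unitary (H →L[ℂ] H))
    (ub : b ∈ unitary (H →L[ℂ] H)) : ‖a * b - a' * b'‖ ≤ ‖a - a'‖ + ‖b - b'‖ := by
  have e : a * b - a' * b' = (a - a') * b + a' * (b - b') := by noncomm_ring
  rw [e]
  refine (norm_add_le _ _).trans (le_of_eq ?_)
  rw [CStarRing.norm_mul_mem_unitary _ ub, CStarRing.norm_mem_unitary_mul _ ua]

lemma detD_norm_star_mul {a b : H →L[ℂ] H} (ua : a ∈ unitary (H →L[ℂ] H)) :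
    ‖star a * b - 1‖ = ‖b - a‖ := by
  have e : star a * b - 1 = star a * (b - a) := by
    rw [mul_sub, Unitary.star_mul_self_of_mem ua]
  rw [e, CStarRing.norm_mem_unitary_mul _ (Unitary.star_mem ua)]

lemma detD_norm_mul_one {a b : H →L[ℂ] H} (ub : b ∈ unitary (H →L[ℂ] H)) :
    ‖a * b - 1‖ ≤ ‖a - 1‖ + ‖b - 1‖ := by
  simpa using detD_norm_mul_sub (a := a) (b' := 1) (one_mem _) ub

omit [CompleteSpace H] in
lemma detD_norm_sub_tri (a b c : H →L[ℂ] H) : ‖a - c‖ ≤ ‖a - b‖ + ‖b - c‖ :=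
  norm_sub_le_norm_sub_add_norm_sub a b c

lemma detD_lift {D : ℝ} (hc : Close M N D) (hD : D ≤ 1 / 10 ^ 10) {u : H →L[ℂ] H} (hu : u ∈ M)
    (uu : u ∈ unitary (H →L[ℂ] H)) :
    ∃ u' ∈ N, u' ∈ unitary (H →L[ℂ] H) ∧ ‖u - u'‖ ≤ 3 / 10 ^ 10 := by
  have hc2 : Close M N (1 / 10 ^ 10) := fun x hx => by
    obtain ⟨y, hy, h⟩ := hc x hx
    exact ⟨y, hy, h.trans (mul_le_mul_of_nonneg_right hD (norm_nonneg _))⟩
  obtain ⟨u', h1, h2, h3⟩ := exists_ulift_norm hc2 (by norm_num) (by norm_num) hu uu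
  exact ⟨u', h1, h2, h3.trans (by norm_num)⟩

lemma Adm.mono {u a a' : H →L[ℂ] H} {ρ δ ρ' δ' : ℝ} (h : Adm M N u a a' ρ δ) (h1 : ρ ≤ ρ')
    (h2 : δ ≤ δ') : Adm M N u a a' ρ' δ' :=
  ⟨h.mem, h.mem', h.uni, h.uni', h.near.trans h1, h.close.trans h2, h.gap⟩

lemma qf_detF (u u' a a' : H →L[ℂ] H) (w : H) : qf (detF u u' a a') w =
    qf (lg (u' * a')) w - qf (lg (u * a)) w - qf (lg a') w + qf (lg a) w := by
  rw [detF, qf_add, qf_sub, qf_sub]

/-- `a = cay h` with `h` from `exists_open (-u) (1 / 200)`; it commutes with `u` and lies in every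
von Neumann algebra containing `u`. -/
theorem exists_gap_mul {u : H →L[ℂ] H} (hu : u ∈ unitary (H →L[ℂ] H)) :
    ∃ a ∈ unitary (H →L[ℂ] H), ‖a - 1‖ ≤ 1 / 100 ∧ Gap (u * a) (1 / 200) ∧
      ∀ P : VonNeumannAlgebra H, u ∈ P → a ∈ P := by
  have hu' : -u ∈ unitary (H →L[ℂ] H) := ⟨by simpa using hu.1, by simpa using hu.2⟩
  obtain ⟨h, hsa, hcomm, hn, -, hg⟩ := exists_open hu' (r := 1 / 200) (by norm_num) (by norm_num)
  have e : u * cay h = cay h * u := cay_comm hsa (hcomm u (by simp))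
  refine ⟨cay h, cay_unitary hsa, (norm_cay_sub_one hsa).trans (by linarith), ?_, fun P hP => ?_⟩
  · rw [e]
    simpa using hg
  · refine cay_mem hsa (vn_mem_of_comm fun t ht => hcomm t ?_)
    rw [mul_neg, neg_mul, vn_comm hP ht]

section

variable (hM : B.Good M) (hN : B.Good N) {D : ℝ} (hc : Close M N D) (hc' : Close N M D)
  (hD : D ≤ 1 / 10 ^ 10)
include hM hN hc hc' hD

omit hM hN hc' in
lemma exists_adm {u : H →L[ℂ] H} (hu : u ∈ M) (uu : u ∈ unitary (H →L[ℂ] H)) :
    ∃ a a', Adm M N u a a' (1 / 100) (1 / (4 * 10 ^ 4)) := by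
  obtain ⟨a, ua, h1, h2, h3⟩ := exists_gap_mul uu
  obtain ⟨a', h4, h5, h6⟩ := detD_lift hc hD (h3 M hu) ua
  exact ⟨a, a', h3 M hu, h4, ua, h5, h1, h6.trans (by norm_num), h2⟩

lemma detF_eq {u u' a a' b b' : H →L[ℂ] H} (hu : u ∈ M) (hu' : u' ∈ N) (uu : u ∈ unitary _)
    (uu' : u' ∈ unitary _) (h : ‖u - u'‖ ≤ 1 / (2 * 10 ^ 4))
    (ha : Adm M N u a a' (1 / 50) (1 / (2 * 10 ^ 4)))
    (hb : Adm M N u b b' (1 / 50) (1 / (2 * 10 ^ 4))) {w : H} (hw : w ∈ B.V) :
    qf (detF u u' b b') w = qf (detF u u' a a') w := by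
  have a1 := ha.near
  have b1 := hb.near
  have a2 := ha.close
  have b2 := hb.close
  have hab : ‖b - a‖ ≤ 1 / 25 := by
    have := detD_norm_sub_tri b 1 a
    rw [norm_sub_rev 1 a] at this
    linarith
  have a3 : ‖a' - 1‖ ≤ 1 / 40 := by
    have := detD_norm_sub_tri a' a 1
    rw [norm_sub_rev a' a] at this
    linarith
  have b3 : ‖b' - 1‖ ≤ 1 / 40 := by
    have := detD_norm_sub_tri b' b 1
    rw [norm_sub_rev b' b] at this
    linarith
  have hab' : ‖b' - a'‖ ≤ 1 / 20 := by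
    have := detD_norm_sub_tri b' 1 a'
    rw [norm_sub_rev 1 a'] at this
    linarith
  have t := third hM hN hc hc' (hD.trans (by norm_num)) (mul_mem hu ha.mem) (mul_mem hu hb.mem)
    (mul_mem hu' ha.mem') (mul_mem hu' hb.mem') (mul_mem uu ha.uni) (mul_mem uu hb.uni)
    (mul_mem uu' ha.uni') (mul_mem uu' hb.uni') ha.gap hb.gap
    (by rw [← mul_sub, CStarRing.norm_mem_unitary_mul _ uu, norm_sub_rev]; exact hab)
    ((detD_norm_mul_sub uu' ha.uni).trans (by linarith))
    ((detD_norm_mul_sub uu' hb.uni).trans (by linarith)) hw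
  have e1 : ∀ {v c d : H →L[ℂ] H}, v ∈ unitary (H →L[ℂ] H) →
      star (v * c) * (v * d) = star c * d := fun {v c d} hv => by
    rw [star_mul, mul_assoc, ← mul_assoc (star v), Unitary.star_mul_self_of_mem hv, one_mul]
  have e2 : ∀ {c d : H →L[ℂ] H}, c ∈ unitary (H →L[ℂ] H) → c * (star c * d) = d := fun hv => by
    rw [← mul_assoc, Unitary.mul_star_self_of_mem hv, one_mul]
  rw [e1 uu, e1 uu'] at t
  have m1 := ell_mul_near (hM.trV hw) ha.mem (mul_mem (star_mem ha.mem) hb.mem) ha.uni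
    (mul_mem (Unitary.star_mem ha.uni) hb.uni) (by linarith)
    (by rw [detD_norm_star_mul ha.uni]; linarith)
  have m2 := ell_mul_near (hN.trV hw) ha.mem' (mul_mem (star_mem ha.mem') hb.mem') ha.uni'
    (mul_mem (Unitary.star_mem ha.uni') hb.uni') (by linarith)
    (by rw [detD_norm_star_mul ha.uni']; linarith)
  rw [e2 ha.uni] at m1
  rw [e2 ha.uni'] at m2
  rw [qf_detF, qf_detF]
  linarith

/-- An admissible pair exists (`exists_gap_mul`, `exists_ulift_norm`); for two admissible pairs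
use `third` with `x = u a`, `y = u b`, and `ell_mul_near` for `b = a (a⋆ b)`, `b' = a' (a'⋆ b')`. -/
theorem detD_eq {u u' a a' : H →L[ℂ] H} (hu : u ∈ M) (hu' : u' ∈ N) (uu : u ∈ unitary _)
    (uu' : u' ∈ unitary _) (h : ‖u - u'‖ ≤ 1 / (2 * 10 ^ 4))
    (ha : Adm M N u a a' (1 / 50) (1 / (2 * 10 ^ 4))) {w : H} (hw : w ∈ B.V) :
    qf (detD M N u u') w = qf (detF u u' a a') w := by
  have hex : ∃ p : (H →L[ℂ] H) × (H →L[ℂ] H),
      Adm M N u p.1 p.2 (1 / 100) (1 / (4 * 10 ^ 4)) := by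
    obtain ⟨b, b', hb⟩ := exists_adm hc hD hu uu
    exact ⟨(b, b'), hb⟩
  rw [detD, dif_pos hex]
  exact detF_eq hM hN hc hc' hD hu hu' uu uu' h ha
    (hex.choose_spec.mono (by norm_num) (by norm_num)) hw

/-- If `(a, a')` is admissible for `u s` then `(s a, s' a')` is admissible for `u`. -/
theorem detD_step {u u' s s' : H →L[ℂ] H} (hu : u ∈ M) (hu' : u' ∈ N) (uu : u ∈ unitary _)
    (uu' : u' ∈ unitary _) (hs : s ∈ M) (hs' : s' ∈ N) (us : s ∈ unitary _) (us' : s' ∈ unitary _)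
    (h : ‖u - u'‖ ≤ 1 / (2 * 10 ^ 4)) (h1 : ‖u * s - u' * s'‖ ≤ 1 / (2 * 10 ^ 4))
    (h2 : ‖s - 1‖ ≤ 1 / 100) (h3 : ‖s - s'‖ ≤ 1 / (4 * 10 ^ 4)) {w : H} (hw : w ∈ B.V) :
    qf (detD M N (u * s) (u' * s')) w = qf (detD M N u u') w + qf (lg s') w - qf (lg s) w := by
  obtain ⟨a, a', ha⟩ := exists_adm hc hD (mul_mem hu hs) (mul_mem uu us)
  have a1 := ha.near
  have a2 := ha.close
  have hb : Adm M N u (s * a) (s' * a') (1 / 50) (1 / (2 * 10 ^ 4)) :=
    ⟨mul_mem hs ha.mem, mul_mem hs' ha.mem', mul_mem us ha.uni, mul_mem us' ha.uni',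
      (detD_norm_mul_one ha.uni).trans (by linarith),
      (detD_norm_mul_sub us' ha.uni).trans (by linarith), by rw [← mul_assoc]; exact ha.gap⟩
  have a3 : ‖a' - 1‖ ≤ 1 / 2 := by
    have := detD_norm_sub_tri a' a 1
    rw [norm_sub_rev a' a] at this
    linarith
  have s3 : ‖s' - 1‖ ≤ 1 / 2 := by
    have := detD_norm_sub_tri s' s 1
    rw [norm_sub_rev s' s] at this
    linarith
  have m1 := ell_mul_near (hM.trV hw) hs ha.mem us ha.uni (by linarith) (by linarith)
  have m2 := ell_mul_near (hN.trV hw) hs' ha.mem' us' ha.uni' s3 a3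
  rw [detD_eq hM hN hc hc' hD (mul_mem hu hs) (mul_mem hu' hs') (mul_mem uu us) (mul_mem uu' us') h1
    (ha.mono (by norm_num) (by norm_num)) hw, detD_eq hM hN hc hc' hD hu hu' uu uu' h hb hw,
    qf_detF, qf_detF, mul_assoc, mul_assoc]
  linarith

lemma detD_diag {g : H →L[ℂ] H} (hg : g ∈ M) (hg' : g ∈ N) (ug : g ∈ unitary _) {w : H}
    (hw : w ∈ B.V) : qf (detD M N g g) w = 0 := by
  obtain ⟨a, ua, h1, h2, h3⟩ := exists_gap_mul ug
  rw [detD_eq hM hN hc hc' hD hg hg' ug ug (by simp) (a := a) (a' := a)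
    ⟨h3 M hg, h3 N hg', ua, ua, h1.trans (by norm_num), by simp, h2⟩ hw, qf_detF]
  ring

/-- `add`: write `v = s ^ 400 * a⋆` (`exists_gap_mul`, `exists_root`), lift `s` and `a⋆` to
unitaries `s'`, `b'` (`exists_ulift_norm`), `r' = (s' ^ 400 b')⋆ v'`. By `detD_step` the
difference `Δ (u p, u' p') - Δ (p, p')` is the same for `(p, p') = (s ^ j, s' ^ j)`, `j ≤ 400`,
`(v, s' ^ 400 b')`, `(v 1, s' ^ 400 b' r')`, and `Δ (1, 1) = 0` by `diag`.
`near`: `detD_step` from `(1, 1)` with the pair `(1, s)`, `ell_near`.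
`diag`: `detD_eq` with `a' = a` from `exists_gap_mul`. -/
theorem det_detD : B.Det M N (detD M N) := by
  refine ⟨fun u u' => ?_, fun u hu u' hu' => ?_, ?_, fun s hs us h w hw => ?_,
    fun g hg hg' ug w hw => detD_diag hM hN hc hc' hD hg hg' ug hw⟩
  · rw [detD]
    split_ifs with h
    · have hpi := Real.pi_lt_d2
      have h1 := norm_lg_le (u' * h.choose.2)
      have h2 := norm_lg_le (u * h.choose.1)
      have h3 := norm_lg_le h.choose.2
      have h4 := norm_lg_le h.choose.1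
      rw [detF]
      refine (norm_add_le _ _).trans ((add_le_add ((norm_sub_le _ _).trans
        (add_le_add (norm_sub_le _ _) le_rfl)) le_rfl).trans ?_)
      linarith
    · rw [norm_zero]; norm_num
  · rw [detD]
    split_ifs with h
    · have ha := h.choose_spec
      exact (((hN.cz (lg_mem (mul_mem hu' ha.mem'))).sub (hM.cz (lg_mem (mul_mem hu ha.mem)))).sub
        (hN.cz (lg_mem ha.mem'))).add (hM.cz (lg_mem ha.mem))
    · exact hM.cz (zero_mem M)
  · intro u hu u' hu' v hv v' hv' uu uu' uv uv' h1 h2 w hw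
    -- the invariant difference
    have step : ∀ {p p' t t' : H →L[ℂ] H}, p ∈ M → p' ∈ N → p ∈ unitary _ → p' ∈ unitary _ →
        t ∈ M → t' ∈ N → t ∈ unitary _ → t' ∈ unitary _ → ‖p - p'‖ ≤ 1 / 10 ^ 5 →
        ‖t - 1‖ ≤ 1 / 100 → ‖t - t'‖ ≤ 1 / 10 ^ 5 →
        qf (detD M N (u * (p * t)) (u' * (p' * t'))) w - qf (detD M N (p * t) (p' * t')) w =
          qf (detD M N (u * p) (u' * p')) w - qf (detD M N p p') w := by
      intro p p' t t' hp hp' up up' ht ht' ut ut' n1 n2 n3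
      have n4 := detD_norm_mul_sub (a := u) (b' := p') uu' up
      have n5 := detD_norm_mul_sub (a := p) (b' := t') up' ut
      have n6 := detD_norm_mul_sub (a := u * p) (b' := t') (mul_mem uu' up') ut
      have e1 := detD_step hM hN hc hc' hD (mul_mem hu hp) (mul_mem hu' hp') (mul_mem uu up)
        (mul_mem uu' up') ht ht' ut ut' (by linarith) (by linarith) n2 (by linarith) hw
      have e2 := detD_step hM hN hc hc' hD hp hp' up up' ht ht' ut ut' (by linarith) (by linarith)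
        n2 (by linarith) hw
      rw [← mul_assoc, ← mul_assoc, e1, e2]
      ring
    obtain ⟨a, ua, a1, a2, a3⟩ := exists_gap_mul uv
    have ha := a3 M hv
    obtain ⟨s, hs, us, s1, s2⟩ := exists_root (by norm_num) (mul_mem hv ha) (mul_mem uv ua) a2
      (k := 400) (by norm_num)
    obtain ⟨s', hs', us', s3⟩ := detD_lift hc hD hs us
    obtain ⟨b', hb', ub', b3⟩ := detD_lift hc hD (star_mem ha) (Unitary.star_mem ua)
    have s4 : ‖s - 1‖ ≤ 1 / 100 := by
      have hpi := Real.pi_le_four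
      push_cast at s2
      linarith
    have pw : ∀ j : ℕ, ‖s ^ j - s' ^ j‖ ≤ j * (3 / 10 ^ 10) := by
      intro j
      induction j with
      | zero => simp
      | succ j ih =>
        rw [pow_succ, pow_succ]
        refine (detD_norm_mul_sub (pow_mem us' j) us).trans ?_
        push_cast
        linarith
    have ind : ∀ j : ℕ, j ≤ 400 →
        qf (detD M N (u * s ^ j) (u' * s' ^ j)) w - qf (detD M N (s ^ j) (s' ^ j)) w =
          qf (detD M N u u') w := by
      intro j hj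
      induction j with
      | zero =>
        rw [pow_zero, pow_zero, mul_one, mul_one,
          detD_diag hM hN hc hc' hD (one_mem M) (one_mem N) (one_mem _) hw, sub_zero]
      | succ j ih =>
        have hj' : (j : ℝ) ≤ 400 := by exact_mod_cast (Nat.le_succ j).trans hj
        rw [pow_succ, pow_succ, step (pow_mem hs j) (pow_mem hs' j) (pow_mem us j) (pow_mem us' j)
          hs hs' us us' ((pw j).trans (by linarith)) s4 (by linarith)]
        exact ih ((Nat.le_succ j).trans hj)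
    have p400 : ‖s ^ 400 - s' ^ 400‖ ≤ 400 * (3 / 10 ^ 10) := by exact_mod_cast pw 400
    have i400 := ind 400 le_rfl
    have hS := pow_mem hs 400
    have hS' := pow_mem hs' 400
    have uS := pow_mem us 400
    have uS' := pow_mem us' 400
    clear ind pw
    generalize s ^ 400 = S at s1 p400 i400 hS uS
    generalize s' ^ 400 = S' at p400 i400 hS' uS'
    have hv1 : S * star a = v := by
      rw [s1, mul_assoc, Unitary.mul_star_self_of_mem ua, mul_one]
    have e1 := step hS hS' uS uS' (star_mem ha) hb' (Unitary.star_mem ua) ub' (by linarith)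
      (by rw [← norm_star, star_sub, star_star, star_one]; exact a1) (by linarith)
    have n1 := detD_norm_mul_sub (a := S) (b' := b') uS' (Unitary.star_mem ua)
    rw [i400, hv1] at e1
    rw [hv1] at n1
    have hp' : S' * b' ∈ N := mul_mem hS' hb'
    have up' : S' * b' ∈ unitary (H →L[ℂ] H) := mul_mem uS' ub'
    generalize S' * b' = p' at e1 n1 hp' up'
    have n2 : ‖1 - star p' * v'‖ ≤ 1 / 10 ^ 5 := by
      have := detD_norm_sub_tri v' v p'
      rw [norm_sub_rev v' v] at this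
      rw [norm_sub_rev, detD_norm_star_mul up']
      linarith
    have e2 := step hv hp' uv up' (one_mem M) (mul_mem (star_mem hp') hv') (one_mem _)
      (mul_mem (Unitary.star_mem up') uv') (by linarith) (by simp) n2
    rw [mul_one, ← mul_assoc p', Unitary.mul_star_self_of_mem up', one_mul] at e2
    linarith
  · have h' : ‖1 - s‖ ≤ 1 / 10 ^ 6 := by rwa [norm_sub_rev]
    have e := detD_step hM hN hc hc' hD (one_mem M) (one_mem N) (one_mem _) (one_mem _) (one_mem M)
      hs (one_mem _) us (by simp) (by rw [one_mul, one_mul]; linarith) (by simp) (by linarith) hw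
    rw [one_mul, one_mul, detD_diag hM hN hc hc' hD (one_mem M) (one_mem N) (one_mem _) hw, lg_one,
      zero_add] at e
    have e0 : qf (0 : H →L[ℂ] H) w = 0 := by simp [qf]
    rw [e, e0, sub_zero]
    exact ell_near us (by linarith) w

end

end Crest.Agent.R078T
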