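import Crest.Agent.R078T.Flat
import Crest.Agent.R078T.ULift

/-! Row 78, tracial stage: averaged pairs; the `L²` defect of lifts. -/

set_option autoImplicit false

open scoped InnerProductSpace ComplexConjugate

namespace Crest.Agent.R078T

open Crest.Agent.R121 (Mn Bd)

variable {H : Type*} [NormedAddCommGroup H] [InnerProductSpace ℂ H] [CompleteSpace H]
variable {B : Base H} {M N : VonNeumannAlgebra H}
variable {D ω e : ℝ}

theorem Base.WS.A (hM : B.Good M) {T : H →L[ℂ] H} {c : ℝ} (h : B.WS M T c) :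
    B.WS M (B.A T) c := by
  intro a ha b hb v hv
  rw [B.inner_A]
  refine B.m.norm_le fun γ => ?_
  have := h _ (mul_mem (hM.u_mem γ) ha) _ (mul_mem (hM.u_mem γ) hb) v hv
  rwa [CStarRing.norm_mem_unitary_mul _ (B.u_unitary γ),
    CStarRing.norm_mem_unitary_mul _ (B.u_unitary γ), mul_apply_eq_comp, mul_apply_eq_comp] at this

/-- `R g (a v) = a g v`. -/
theorem Base.WS.AR (hM : B.Good M) {T : H →L[ℂ] H} {c : ℝ} (h : B.WS M T c) :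
    B.WS M (B.AR T) c := by
  intro a ha b hb v hv
  rw [B.inner_AR]
  refine B.m.norm_le fun γ => ?_
  have := h _ (mul_mem ha (hM.u_mem γ)) _ (mul_mem hb (hM.u_mem γ)) v hv
  rwa [CStarRing.norm_mul_mem_unitary _ (B.u_unitary γ),
    CStarRing.norm_mul_mem_unitary _ (B.u_unitary γ), mul_apply_eq_comp, mul_apply_eq_comp,
    hM.apply_apply_V ha (hM.u_mem γ) hv, hM.apply_apply_V hb (hM.u_mem γ) hv] at this

/-- `flatten` for `A (a⋆ a' - 1)` (`Lift.ws`, `comm_A`, `inner_A`). -/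
theorem Base.Lift.kl (hc : B.Ctx M N D ω e) {a a' : H →L[ℂ] H} {δ₁ ω₁ e₁ : ℝ}
    (h : B.Lift M N a a' δ₁ ω₁ e₁) (ha : a ∈ unitary _) (ha' : a' ∈ unitary _) (ζ η : H) :
    ‖B.m (fun γ => ⟪a (B.u γ ζ), a' (B.u γ η)⟫_ℂ) - ⟪ζ, η⟫_ℂ‖ ≤ 10 ^ 4 * (e₁ + e) * ‖ζ‖ * ‖η‖ := by
  have hK : ‖B.A (Star.star a * a' - 1)‖ ≤ 10 ^ 4 * (e₁ + e) := by
    refine flatten hc.gM (B.u_mul_A _) (fun γ => B.comm_A (hc.gM.u_R_comm γ) ?_)
      ((h.ws hc ha (norm_unitary_le ha')).A hc.gM)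
    have e1 := hc.gM.R_comm (hc.gM.u_mem γ) (star_mem h.mem)
    have e2 := hc.gN.R_comm (hc.gN.u_mem γ) h.mem'
    rw [mul_sub, sub_mul, mul_one, one_mul, ← mul_assoc, e1, mul_assoc, e2, mul_assoc]
  have e : B.m (fun γ => ⟪a (B.u γ ζ), a' (B.u γ η)⟫_ℂ) - ⟪ζ, η⟫_ℂ =
      ⟪ζ, B.A (Star.star a * a' - 1) η⟫_ℂ := by
    rw [B.inner_A]
    simp only [sub_apply, inner_sub_right, mul_apply_eq_comp,
      inner_star_right, one_apply_eq_self, inner_unitary (B.u_unitary _), B.m.map_sub,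
      B.m.map_const]
  rw [e]
  exact (norm_inner_op_le _ _ _).trans (by gcongr)

/-- `flatten` for `AR ((R a)⋆ R a' - 1)` (`Lift.ws_R`, `comm_AR`, `inner_AR`). -/
theorem Base.Lift.kr (hc : B.Ctx M N D ω e) {a a' : H →L[ℂ] H} {δ₁ ω₁ e₁ : ℝ}
    (h : B.Lift M N a a' δ₁ ω₁ e₁) (ha : a ∈ unitary _) (ha' : a' ∈ unitary _) (ζ η : H) :
    ‖B.m (fun γ => ⟪B.R a (B.R (B.u γ) ζ), B.R a' (B.R (B.u γ) η)⟫_ℂ) - ⟪ζ, η⟫_ℂ‖ ≤
      10 ^ 4 * (e₁ + e) * ‖ζ‖ * ‖η‖ := by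
  have hK : ‖B.AR (Star.star (B.R a) * B.R a' - 1)‖ ≤ 10 ^ 4 * (e₁ + e) := by
    refine flatten hc.gM (fun γ => B.comm_AR (fun δ => (hc.gM.u_R_comm δ γ).symm) ?_)
      (B.Ru_mul_AR _) ((h.ws_R hc ha (norm_unitary_le ha')).AR hc.gM)
    have e1 := hc.gM.R_comm (star_mem h.mem) (hc.gM.u_mem γ)
    have e2 := hc.gN.R_comm h.mem' (hc.gN.u_mem γ)
    rw [B.R_star] at e1
    rw [mul_sub, sub_mul, mul_one, one_mul, ← mul_assoc, ← e1, mul_assoc, ← e2, mul_assoc]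
  have e : B.m (fun γ => ⟪B.R a (B.R (B.u γ) ζ), B.R a' (B.R (B.u γ) η)⟫_ℂ) - ⟪ζ, η⟫_ℂ =
      ⟪ζ, B.AR (Star.star (B.R a) * B.R a' - 1) η⟫_ℂ := by
    rw [B.inner_AR]
    simp only [sub_apply, inner_sub_right, mul_apply_eq_comp,
      inner_star_right, one_apply_eq_self, inner_unitary (B.R_unitary (B.u_unitary _)),
      B.m.map_sub, B.m.map_const]
  rw [e]
  exact (norm_inner_op_le _ _ _).trans (by gcongr)

/-- For `η = x ξ`, `x ∈ N`: `(R g)⋆ g x ξ = g x g⋆ ξ`, the mean is `⟪η', A x ξ⟫` (`inner_A'`),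
`A x ξ ∈ V` and `‖A x ξ‖ ≤ ‖x ξ‖` (`norm_wm_apply_le`). General `η` by density. -/
theorem mean_central (hN : B.Good N) {η' : H} {β : ℝ} (h : ∀ c ∈ B.V, ‖⟪c, η'⟫_ℂ‖ ≤ β * ‖c‖)
    (η : H) : ‖B.m fun γ => ⟪η', star (B.R (B.u γ)) (B.u γ η)⟫_ℂ‖ ≤ β * ‖η‖ := by
  have hβ : 0 ≤ β := by
    have := (norm_nonneg _).trans (h _ B.ξ_mem_V)
    rwa [B.norm_ξ, mul_one] at this
  have hb : Bd fun γ => star (B.R (B.u γ)) * B.u γ :=
    ⟨1, fun γ => norm_unitary_le (mul_mem (Unitary.star_mem (B.R_unitary (B.u_unitary γ)))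
      (B.u_unitary γ))⟩
  have e : ∀ η, (B.m fun γ => ⟪η', star (B.R (B.u γ)) (B.u γ η)⟫_ℂ) =
      ⟪η', wm B.m (fun γ => star (B.R (B.u γ)) * B.u γ) η⟫_ℂ := fun η => by
    rw [inner_wm _ hb]
    simp only [mul_apply_eq_comp]
  rw [e]
  refine Dense.induction hN.cyc (P := fun η =>
    ‖⟪η', wm B.m (fun γ => star (B.R (B.u γ)) * B.u γ) η⟫_ℂ‖ ≤ β * ‖η‖) ?_ ?_ η
  · rintro _ ⟨⟨x, hx⟩, rfl⟩
    change ‖⟪η', wm B.m (fun γ => star (B.R (B.u γ)) * B.u γ) (x B.ξ)⟫_ℂ‖ ≤ β * ‖x B.ξ‖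
    have e2 : ∀ γ, ⟪η', star (B.R (B.u γ)) (B.u γ (x B.ξ))⟫_ℂ =
        ⟪star (B.u γ) η', x (star (B.u γ) B.ξ)⟫_ℂ := fun γ => by
      rw [← B.R_star, hN.R_comm_apply (star_mem (hN.u_mem γ)) (hN.u_mem γ),
        hN.R_comm_apply (star_mem (hN.u_mem γ)) hx, hN.R_ξ (star_mem (hN.u_mem γ)),
        inner_star_left]
    rw [← e]
    simp only [e2]
    rw [← B.inner_A', norm_inner_symm]
    refine (h _ ⟨_, hN.A_mem_Z hx, rfl⟩).trans (mul_le_mul_of_nonneg_left ?_ hβ)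
    refine norm_wm_apply_le _ (B.bd_A x) fun γ => ?_
    rw [mul_apply_eq_comp, mul_apply_eq_comp,
      norm_unitary_apply (Unitary.star_mem (B.u_unitary γ)),
      hN.apply_apply_V hx (hN.u_mem γ) B.ξ_mem_V,
      norm_unitary_apply (B.R_unitary (B.u_unitary γ))]
  · exact isClosed_le (by fun_prop) (by fun_prop)

end Crest.Agent.R078T
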