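import Crest.Agent.R078T.Kap
import Crest.Agent.R078T.KL

/-! Row 78, tracial stage: the generator of the Newton step. -/

set_option autoImplicit false

open scoped InnerProductSpace ComplexConjugate

namespace Crest.Agent.R078T

open Crest.Agent.R121 (Mn Bd)

variable {H : Type*} [NormedAddCommGroup H] [InnerProductSpace ℂ H] [CompleteSpace H]
variable {B : Base H} {M N : VonNeumannAlgebra H}
variable {β : (H →L[ℂ] H) → (H →L[ℂ] H)} {δ O c : ℝ}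

lemma gen_R_comm {κ : H →L[ℂ] H} (h2 : ∀ γ, B.u γ * κ = κ * B.u γ) (h4 : B.R κ = -κ)
    (γ : B.G) : B.R (B.u γ) * κ = κ * B.R (B.u γ) := by
  have h := congrArg B.R (h2 γ)
  rw [B.R_mul, B.R_mul, h4, neg_mul, mul_neg, neg_inj] at h
  exact h.symm

lemma gen_mean_abs {X : Type*} (m : Mn X) {f : X → ℂ} (hf : Bd f) {t e : ℝ}
    (h : ∀ x, |(f x).re - t| ≤ e) : |(m f).re - t| ≤ e := by
  have h1 := m.re_le hf (c := t + e) fun x => by linarith [(abs_le.1 (h x)).2]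
  have h2 := m.le_re hf (c := t - e) fun x => by linarith [(abs_le.1 (h x)).1]
  exact abs_le.2 ⟨by linarith, by linarith⟩

lemma gen_qf_A {T : H →L[ℂ] H} {ζ : H} {t e : ℝ} (h : ∀ γ, |qf T (B.u γ ζ) - t| ≤ e) :
    |qf (B.A T) ζ - t| ≤ e := by
  rw [qf, B.inner_A]
  exact gen_mean_abs _ (Base.bd_inner_unitary B.u_unitary T ζ ζ) h

lemma gen_qf_AR {T : H →L[ℂ] H} {ζ : H} {t e : ℝ} (h : ∀ γ, |qf T (B.R (B.u γ) ζ) - t| ≤ e) :
    |qf (B.AR T) ζ - t| ≤ e := by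
  rw [qf, B.inner_AR]
  exact gen_mean_abs _
    (Base.bd_inner_unitary (fun γ => B.R_unitary (B.u_unitary γ)) T ζ ζ) h

lemma gen_ws_star {T : H →L[ℂ] H} (h : B.WS M T c) : B.WS M (star T) c := fun a ha b hb v hv => by
  rw [inner_star_right, ← inner_conj_symm, Complex.norm_conj]
  exact (h b hb a ha v hv).trans_eq (by ring)

lemma gen_ws_R (hM : B.Good M) {T : H →L[ℂ] H} (h : B.WS M T c) : B.WS M (B.R T) c :=
  fun a ha b hb v hv => by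
    rw [B.inner_R, hM.J_V ha hv, hM.J_V hb hv]
    refine (h _ (star_mem hb) _ (star_mem ha) _ (hM.J_mem_V hv)).trans_eq ?_
    rw [norm_star, norm_star, B.J.norm_map]
    ring

lemma gen_ws_neg {T : H →L[ℂ] H} (h : B.WS M T c) : B.WS M (-T) c := fun a ha b hb v hv => by
  rw [neg_apply, inner_neg_right, norm_neg]
  exact h a ha b hb v hv

lemma gen_ws_mid {S T : H →L[ℂ] H} (hS : B.WS M S c) (hT : B.WS M T c) :
    B.WS M ((((1 / 2 : ℝ)) : ℂ) • (S + T)) c := fun a ha b hb v hv => by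
  rw [smul_apply, inner_smul_right, add_apply, inner_add_right, norm_mul, Complex.norm_real]
  have h1 := hS a ha b hb v hv
  have h2 := hT a ha b hb v hv
  have h3 := norm_add_le ⟪b v, S (a v)⟫_ℂ ⟪b v, T (a v)⟫_ℂ
  rw [Real.norm_eq_abs, abs_of_pos (by norm_num : (0 : ℝ) < 1 / 2)]
  linarith

lemma gen_comm_mid {S T U : H →L[ℂ] H} (hS : U * S = S * U) (hT : U * T = T * U) (r : ℂ) :
    U * (r • (S + T)) = (r • (S + T)) * U := by
  rw [mul_smul_comm, smul_mul_assoc, mul_add, add_mul, hS, hT]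

lemma gen_comm_star {S U : H →L[ℂ] H} (h : star U * S = S * star U) :
    U * star S = star S * U := by
  have := congrArg star h
  rw [star_mul, star_mul, star_star] at this
  exact this.symm

/-- An operator which commutes with the group, its right copy and the centre, is self-adjoint and
satisfies `R κ = -κ` kills `ξ`: `qf κ w = -qf κ (J w) = -qf κ w` on `V` (`qf_R`, `inner_J_V`), so
`⟪w', κ w⟫ = 0` on `V` (`two_weight` with `S = 1`, `c = 0`), and for `x ∈ M`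
`⟪x ξ, κ ξ⟫ = ⟪g⋆ x g ξ, κ ξ⟫` for every `g` (`g⋆ x g ξ = g⋆ R g (x ξ)`, `R g ξ = g ξ`), hence
`= ⟪A x ξ, κ ξ⟫ = 0`. -/
theorem gen_of (hM : B.Good M) {κ : H →L[ℂ] H} (h1 : IsSelfAdjoint κ)
    (h2 : ∀ γ, B.u γ * κ = κ * B.u γ) (h3 : B.CZ κ) (h4 : B.R κ = -κ) : B.Gen κ := by
  refine ⟨h1, h2, h3, h4, ?_⟩
  have e1 : ∀ w ∈ B.V, ‖⟪(1 : H →L[ℂ] H) w, κ w⟫_ℂ‖ ≤ 0 * ‖w‖ ^ 2 := fun w hw => by
    have h := B.inner_R κ w w
    rw [hM.inner_J_V h3 hw, h4, neg_apply, inner_neg_right] at h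
    have h0 : ⟪w, κ w⟫_ℂ = 0 := by linear_combination (-1 / 2 : ℂ) * h
    simp [h0]
  have e2 : ∀ w ∈ B.V, ⟪κ B.ξ, w⟫_ℂ = 0 := fun w hw => by
    have h := Base.two_weight e1 B.ξ_mem_V hw
    simp only [mul_zero, zero_mul, one_apply_eq_self, norm_le_zero_iff] at h
    rw [← inner_conj_symm, h, map_zero]
  refine DenseRange.eq_zero_of_inner_left ℂ hM.cyc fun x => ?_
  have e3 : ∀ γ, ⟪B.u γ (κ B.ξ), (x : H →L[ℂ] H) (B.u γ B.ξ)⟫_ℂ =
      ⟪κ B.ξ, (x : H →L[ℂ] H) B.ξ⟫_ℂ := fun γ => by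
    have a1 : B.u γ (κ B.ξ) = B.R (B.u γ) (κ B.ξ) := by
      rw [← mul_apply_eq_comp, h2, mul_apply_eq_comp, ← hM.R_ξ (hM.u_mem γ), ← mul_apply_eq_comp,
        ← gen_R_comm h2 h4, mul_apply_eq_comp]
    rw [a1, hM.apply_apply_V x.2 (hM.u_mem γ) B.ξ_mem_V,
      inner_unitary (B.R_unitary (B.u_unitary γ))]
  have e4 := e2 (B.A x B.ξ) ⟨_, hM.A_mem_Z x.2, rfl⟩
  rw [B.inner_A] at e4
  simp only [e3, B.m.map_const] at e4
  exact e4

theorem Base.Gen.R_comm {κ : H →L[ℂ] H} (h : B.Gen κ) (γ : B.G) :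
    B.R (B.u γ) * κ = κ * B.R (B.u γ) := by
  exact gen_R_comm h.u_comm h.anti γ

theorem Base.Gen.kill_V {κ : H →L[ℂ] H} (h : B.Gen κ) {v : H} (hv : v ∈ B.V) : κ v = 0 := by
  obtain ⟨z, hz, rfl⟩ := hv
  rw [h.cz.apply hz, h.kill, map_zero]

/-- `T` from `exists_kap`, `T₁ = A T` (error `13 O`: `qf (g⋆ T g) (a w) = qf T (g a w)`,
`|qf (β g) w| ≤ 2 O ‖w‖²`), `T₂ = AR T₁` (error `29 O`: `R g (a w) = a g w`),
`T₃ = (T₂ + T₂⋆) / 2`, `κ = (T₃ - R T₃) / 2` (`qf_R`, `J_V`, `Cob.star`; `‖J w‖ = ‖w‖`);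
`WS M κ (2 c)` and `flatten`. -/
theorem exists_gen (hM : B.Good M) (hβ : B.Cob M β δ O c) :
    ∃ κ, B.Gen κ ∧ ‖κ‖ ≤ 2 * 10 ^ 4 * c ∧ ∀ a ∈ M, a ∈ unitary _ → ∀ w ∈ B.V,
      |qf κ (a w) - qf (β a) w| ≤ 30 * O * ‖w‖ ^ 2 := by
  obtain ⟨T, hT, hk⟩ := exists_kap hM hβ
  -- first average
  have e1 : ∀ a ∈ M, a ∈ unitary _ → ∀ w ∈ B.V,
      |qf (B.A T) (a w) - (qf T w + qf (β a) w)| ≤ 6 * O * ‖w‖ ^ 2 := fun a ha ua w hw => by
    refine gen_qf_A fun γ => ?_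
    have a1 := hk _ (mul_mem (hM.u_mem γ) ha) (mul_mem (B.u_unitary γ) ua) w hw
    have a2 := hβ.u_mul a ha ua γ w hw
    rw [mul_apply_eq_comp] at a1
    rw [abs_le] at a1 a2 ⊢
    constructor <;> linarith [a1.1, a1.2, a2.1, a2.2]
  -- second average
  have e2 : ∀ a ∈ M, a ∈ unitary _ → ∀ w ∈ B.V,
      |qf (B.AR (B.A T)) (a w) - (qf T w + qf (β a) w)| ≤ 7 * O * ‖w‖ ^ 2 := fun a ha ua w hw => by
    refine gen_qf_AR fun γ => ?_
    have a1 := e1 _ (mul_mem ha (hM.u_mem γ)) (mul_mem ua (B.u_unitary γ)) w hw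
    have a2 := hβ.mul_u a ha ua γ w hw
    rw [mul_apply_eq_comp, hM.apply_apply_V ha (hM.u_mem γ) hw] at a1
    rw [abs_le] at a1 a2 ⊢
    constructor <;> linarith [a1.1, a1.2, a2.1, a2.2]
  have c2 : B.CZ (B.AR (B.A T)) := hM.cz_AR (hM.cz_A hT.cz)
  have w2 : B.WS M (B.AR (B.A T)) (2 * c) := (hT.ws.A hM).AR hM
  have u2 : ∀ γ, B.u γ * B.AR (B.A T) = B.AR (B.A T) * B.u γ := fun γ =>
    B.comm_AR (fun δ => (hM.u_R_comm δ γ).symm) (B.u_mul_A T γ)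
  have r2 : ∀ γ, B.R (B.u γ) * B.AR (B.A T) = B.AR (B.A T) * B.R (B.u γ) := B.Ru_mul_AR _
  generalize B.AR (B.A T) = T₂ at e2 c2 w2 u2 r2
  -- self-adjoint part
  obtain ⟨T₃, hT₃⟩ : ∃ T₃, T₃ = (((1 / 2 : ℝ)) : ℂ) • (T₂ + star T₂) := ⟨_, rfl⟩
  have s3 : star T₃ = T₃ := by
    rw [hT₃, star_smul, star_add, star_star, add_comm, Complex.star_def, Complex.conj_ofReal]
  have q3 : ∀ ζ, qf T₃ ζ = qf T₂ ζ := fun ζ => by
    rw [hT₃, qf_smul, qf_add, qf_star]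
    ring
  have c3 : B.CZ T₃ := hT₃ ▸ (c2.add c2.star).smul _
  have w3 : B.WS M T₃ (2 * c) := hT₃ ▸ gen_ws_mid w2 (gen_ws_star w2)
  have u3 : ∀ γ, B.u γ * T₃ = T₃ * B.u γ := fun γ =>
    hT₃ ▸ gen_comm_mid (u2 γ) (gen_comm_star (u2 γ⁻¹)) _
  have r3 : ∀ γ, B.R (B.u γ) * T₃ = T₃ * B.R (B.u γ) := fun γ =>
    hT₃ ▸ gen_comm_mid (r2 γ) (gen_comm_star (by rw [← B.R_star]; exact r2 γ⁻¹)) _
  -- antisymmetric part
  obtain ⟨κ, hκ⟩ : ∃ κ, κ = (((1 / 2 : ℝ)) : ℂ) • (T₃ + -B.R T₃) := ⟨_, rfl⟩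
  have g : B.Gen κ := by
    refine gen_of hM ?_ (fun γ => hκ ▸ gen_comm_mid (u3 γ) ?_ _)
      (hκ ▸ (c3.add (hM.cz_R c3).neg).smul _) ?_
    · rw [IsSelfAdjoint, hκ, star_smul, star_add, star_neg, ← B.R_star, s3, Complex.star_def,
        Complex.conj_ofReal]
    · have h := congrArg B.R (r3 γ)
      rw [B.R_mul, B.R_mul, B.R_R] at h
      rw [mul_neg, neg_mul, h]
    · rw [hκ, B.R_smul, B.R_add, B.R_neg, B.R_R, ← smul_neg, neg_add, neg_neg, add_comm]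
  refine ⟨κ, g, ?_, fun a ha ua w hw => ?_⟩
  · have := flatten hM g.u_comm g.R_comm
      (show B.WS M κ (2 * c) from hκ ▸ gen_ws_mid w3 (gen_ws_neg (gen_ws_R hM w3)))
    linarith
  · have a1 := e2 a ha ua w hw
    have a2 := e2 _ (star_mem ha) (Unitary.star_mem ua) _ (hM.J_mem_V hw)
    have a3 := hβ.star a ha ua w hw
    have a4 : qf T (B.J w) = qf T w := by rw [qf, qf, hM.inner_J_V hT.cz hw]
    have a5 : 0 ≤ O * ‖w‖ ^ 2 := (abs_nonneg _).trans a3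
    rw [B.J.norm_map, a4] at a2
    rw [hκ, qf_smul, qf_add, qf_neg, B.qf_R, hM.J_V ha hw, q3, q3]
    rw [abs_le] at a1 a2 a3 ⊢
    constructor <;> linarith [a1.1, a1.2, a2.1, a2.2, a3.1, a3.2]

end Crest.Agent.R078T
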