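import Crest.Agent.R078T.Conj
import Crest.Agent.R078T.Gen

/-! Row 78, tracial stage: diagonal tests after the conjugation. -/

set_option autoImplicit false

open scoped InnerProductSpace ComplexConjugate

namespace Crest.Agent.R078T

open Crest.Agent.R121 (Mn Bd)

variable {H : Type*} [NormedAddCommGroup H] [InnerProductSpace ℂ H] [CompleteSpace H]
variable {B : Base H} {M N : VonNeumannAlgebra H}

omit [CompleteSpace H] in
theorem diag_inner_le {a b : H} {s t : ℝ} (ha : ‖a‖ ≤ s) (hb : ‖b‖ ≤ t) : ‖⟪a, b⟫_ℂ‖ ≤ s * t :=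
  (norm_inner_le_norm a b).trans (mul_le_mul ha hb (norm_nonneg _) ((norm_nonneg _).trans ha))

omit [CompleteSpace H] in
theorem diag_op_le {T : H →L[ℂ] H} {a : H} {s t : ℝ} (hT : ‖T‖ ≤ s) (ha : ‖a‖ ≤ t) :
    ‖T a‖ ≤ s * t :=
  (T.le_opNorm a).trans (mul_le_mul hT ha (norm_nonneg _) ((norm_nonneg _).trans hT))

omit [CompleteSpace H] in
theorem diag_I_smul (a : H) : ‖Complex.I • a‖ = ‖a‖ := by
  rw [norm_smul, Complex.norm_I, one_mul]

omit [CompleteSpace H] in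
theorem diag_qf_sub {κ : H →L[ℂ] H} {K r s : ℝ} (hK : ‖κ‖ ≤ K) {a b : H} (ha : ‖a‖ ≤ r)
    (hb : ‖b‖ ≤ r) (hab : ‖a - b‖ ≤ s) : |qf κ a - qf κ b| ≤ 2 * K * r * s := by
  have h1 : ⟪a, κ a⟫_ℂ - ⟪b, κ b⟫_ℂ = ⟪a - b, κ a⟫_ℂ + ⟪b, κ (a - b)⟫_ℂ := by
    rw [map_sub, inner_sub_left, inner_sub_right]
    ring
  have h2 := diag_inner_le hab (diag_op_le hK ha)
  have h3 := diag_inner_le hb (diag_op_le hK hab)
  rw [qf, qf, ← Complex.sub_re, h1]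
  refine (Complex.abs_re_le_norm _).trans ((norm_add_le _ _).trans ?_)
  linarith

theorem diag_U_sub {κ U : H →L[ℂ] H} {K : ℝ} (hK : ‖κ‖ ≤ K) (hK1 : K ≤ 1 / 100)
    (hU1 : ‖U - 1 + Complex.I • κ‖ ≤ K ^ 2 / 2) : ‖U - 1‖ ≤ 5 / 4 * K := by
  have hK0 : 0 ≤ K := (norm_nonneg _).trans hK
  have h1 := norm_sub_le (U - 1 + Complex.I • κ) (Complex.I • κ)
  rw [add_sub_cancel_right, norm_smul, Complex.norm_I, one_mul] at h1
  nlinarith

theorem diag_expand {U κ n S : H →L[ℂ] H} (uU : U ∈ unitary (H →L[ℂ] H))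
    (un : n ∈ unitary (H →L[ℂ] H)) (uS : S ∈ unitary (H →L[ℂ] H)) (hsa : IsSelfAdjoint κ) {K : ℝ}
    (hK : ‖κ‖ ≤ K) (hK1 : K ≤ 1 / 100) (hU1 : ‖U - 1 + Complex.I • κ‖ ≤ K ^ 2 / 2) {p q : H}
    {r ω : ℝ} (hp : ‖p‖ ≤ r) (hq : ‖q‖ ≤ r) (hd : ‖n p - S q‖ ≤ ω * r) :
    |(⟪star U (n (U p)), S (star U q)⟫_ℂ).im -
      ((⟪n p, S q⟫_ℂ).im - qf κ (n p) + qf κ p + qf κ q)| ≤ (3 * K * ω + 7 * K ^ 2) * r ^ 2 := by
  have hK0 : 0 ≤ K := (norm_nonneg _).trans hK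
  have hr0 : 0 ≤ r := (norm_nonneg _).trans hp
  have hU2 : ‖star U - 1‖ ≤ 5 / 4 * K := by
    rw [← norm_star, star_sub, star_star, star_one]
    exact diag_U_sub hK hK1 hU1
  set ρ := U - 1 + Complex.I • κ with hρ
  have hρ' : ‖star ρ‖ ≤ K ^ 2 / 2 := by rwa [norm_star]
  have e1 : ∀ v, U v = v - Complex.I • κ v + ρ v := fun v => by
    simp only [hρ, add_apply, sub_apply,
      one_apply_eq_self, smul_apply]
    abel
  have e2 : ∀ v, star U v = v + Complex.I • κ v + star ρ v := fun v => by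
    rw [hρ, star_add, star_sub, star_one, star_smul, hsa.star_eq, Complex.star_def, Complex.conj_I]
    simp only [add_apply, sub_apply,
      one_apply_eq_self, smul_apply, neg_smul,
      neg_apply]
    abel
  have nn : ∀ v, ‖n v‖ = ‖v‖ := norm_unitary_apply un
  have nS : ∀ v, ‖S v‖ = ‖v‖ := norm_unitary_apply uS
  have nU : ∀ v, ‖star U v‖ = ‖v‖ := norm_unitary_apply (Unitary.star_mem uU)
  have hnp : ‖n p‖ ≤ r := by rwa [nn]
  have hκp : ‖κ p‖ ≤ K * r := diag_op_le hK hp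
  have hκq : ‖κ q‖ ≤ K * r := diag_op_le hK hq
  have hκnp : ‖κ (n p)‖ ≤ K * r := diag_op_le hK hnp
  have hnκp : ‖n (κ p)‖ ≤ K * r := by rwa [nn]
  set E1 := star ρ (n p) - Complex.I • (star U - 1) (n (κ p)) + star U (n (ρ p)) with hE1
  set A1 := Complex.I • κ (n p) - Complex.I • n (κ p) with hA1
  set E2 := star ρ q with hE2
  set d := n p - S q with hd'
  have b1 : ‖E1‖ ≤ 3 * K ^ 2 * r := by
    have h1 := diag_op_le hρ' hnp
    have h2 := diag_op_le hU2 hnκp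
    have h3 := diag_op_le hU1 hp
    refine (norm_add_le _ _).trans ((add_le_add_left (norm_sub_le _ _) _).trans ?_)
    rw [diag_I_smul, nU, nn]
    nlinarith [mul_nonneg (sq_nonneg K) hr0]
  have b2 : ‖E2‖ ≤ K ^ 2 / 2 * r := diag_op_le hρ' hq
  have b3 : ‖A1‖ ≤ 2 * K * r := by
    refine (norm_sub_le _ _).trans ?_
    rw [diag_I_smul, diag_I_smul]
    linarith
  have b4 : ‖S (Complex.I • κ q + E2)‖ ≤ 5 / 4 * K * r := by
    rw [nS]
    refine (norm_add_le _ _).trans ?_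
    rw [diag_I_smul]
    nlinarith [mul_nonneg hK0 hr0]
  have i1 : star U (n (U p)) = n p + A1 + E1 := by
    rw [e1 p, map_add, map_sub, map_smul, map_add, map_sub, map_smul, e2 (n p), hA1, hE1]
    simp only [sub_apply, one_apply_eq_self, smul_sub]
    abel
  have i2 : S (star U q) = S q + S (Complex.I • κ q + E2) := by
    rw [e2 q, ← map_add, add_assoc]
  have i3 : ⟪star U (n (U p)), S (star U q)⟫_ℂ =
      ⟪n p, S q⟫_ℂ - Complex.I * ⟪κ (n p), n p⟫_ℂ + Complex.I * ⟪κ p, p⟫_ℂ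
        + Complex.I * ⟪q, κ q⟫_ℂ +
      (Complex.I * ⟪κ (n p), d⟫_ℂ - Complex.I * ⟪n (κ p), d⟫_ℂ + Complex.I * ⟪d, S (κ q)⟫_ℂ
        + ⟪n p, S E2⟫_ℂ + ⟪A1, S (Complex.I • κ q + E2)⟫_ℂ + ⟪E1, S (star U q)⟫_ℂ) := by
    have j1 : ⟪n p, S (star U q)⟫_ℂ =
        ⟪n p, S q⟫_ℂ + Complex.I * ⟪n p, S (κ q)⟫_ℂ + ⟪n p, S E2⟫_ℂ := by
      rw [i2, map_add, map_smul, inner_add_right, inner_add_right, inner_smul_right, add_assoc]
    have j2 : ⟪A1, S (star U q)⟫_ℂ = -Complex.I * ⟪κ (n p), S q⟫_ℂ + Complex.I * ⟪n (κ p), S q⟫_ℂ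
        + ⟪A1, S (Complex.I • κ q + E2)⟫_ℂ := by
      rw [i2, inner_add_right]
      congr 1
      rw [hA1, inner_sub_left, inner_smul_left, inner_smul_left, Complex.conj_I]
      ring
    rw [i1, inner_add_left, inner_add_left, j1, j2, hd', inner_sub_right, inner_sub_right,
      inner_sub_left (n p), inner_unitary un, inner_unitary uS]
    ring
  have q1 : ∀ v, (⟪κ v, v⟫_ℂ).re = qf κ v := fun v => by
    rw [qf, ← inner_star_left, hsa.star_eq]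
  have hT : ‖Complex.I * ⟪κ (n p), d⟫_ℂ - Complex.I * ⟪n (κ p), d⟫_ℂ +
      Complex.I * ⟪d, S (κ q)⟫_ℂ + ⟪n p, S E2⟫_ℂ + ⟪A1, S (Complex.I • κ q + E2)⟫_ℂ +
      ⟪E1, S (star U q)⟫_ℂ‖ ≤ (3 * K * ω + 7 * K ^ 2) * r ^ 2 := by
    have c1 := diag_inner_le hκnp hd
    have c2 := diag_inner_le hnκp hd
    have c3 := diag_inner_le hd ((nS _).le.trans hκq)
    have c4 := diag_inner_le hnp ((nS _).le.trans b2)
    have c5 := diag_inner_le b3 b4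
    have c6 := diag_inner_le b1 ((nS _).le.trans ((nU _).le.trans hq))
    refine (norm_add_le _ _).trans ((add_le_add_left ((norm_add_le _ _).trans (add_le_add_left
      ((norm_add_le _ _).trans (add_le_add_left ((norm_add_le _ _).trans
        (add_le_add_left (norm_sub_le _ _) _)) _)) _)) _).trans ?_)
    simp only [norm_mul, Complex.norm_I, one_mul]
    nlinarith [mul_nonneg (sq_nonneg K) (sq_nonneg r)]
  refine le_trans (le_of_eq ?_) ((Complex.abs_im_le_norm _).trans hT)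
  congr 1
  rw [i3, Complex.add_im, ← q1, ← q1, qf]
  simp only [Complex.add_im, Complex.sub_im, Complex.I_mul_im]
  ring

/-- Write `y₁ = U y U⋆`, `y ∈ M` unitary. `F = ‖w‖² - G`, `G = ⟪n y₁ w, R y₁ (n w)⟫ =
⟪U⋆ n U y w, R y (U⋆ n w)⟫` (`R_conj`, `fix_V`). `re F = ‖cm n y₁ w‖² / 2` with
`‖cm n y₁ w‖ ≤ (ω + 5 K) ‖w‖` (`Om.conj`, `om_symm`). With `U = 1 - i κ + ρ`:
`G = ⟪n y w, R y n w⟫ - i ⟪κ n y w, R y n w⟫ + i ⟪n κ y w, R y n w⟫ + i ⟪n y w, R y κ n w⟫ + O (7 K²)`.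
Exchange `R y (n w)` and `n (y w)` (cost `K ω` each, `om'`) and `n` by its lift `x` from
`hc.symm.ulift` (`‖(n - x) (y w)‖ ≤ 11 ω ‖w‖`, cost `22 K ω`, `20 K ω`): with `Q a = qf κ (a w)`
(these inner products are real), `im G = im ⟪n y w, R y n w⟫ - Q (x y) + Q y + Q x + O (45 K ω + 7 K²)`,
and `hκ` (three times), `h6` show that the main terms cancel. -/
theorem diag_test {D ω e : ℝ} (hc : B.Ctx M N D ω e) {β : (H →L[ℂ] H) → (H →L[ℂ] H)}
    {κ U : H →L[ℂ] H} {K O O' : ℝ} (hg : B.Gen κ) (hK : ‖κ‖ ≤ K) (hK1 : K ≤ 1 / 100)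
    (hκ : ∀ a ∈ M, a ∈ unitary _ → ∀ w ∈ B.V, |qf κ (a w) - qf (β a) w| ≤ O' * ‖w‖ ^ 2)
    (h6 : ∀ x ∈ M, ∀ n ∈ N, x ∈ unitary _ → n ∈ unitary _ → ‖x - n‖ ≤ 10 * D →
      B.SN (x - n) (10 * ω) → ∀ y ∈ M, y ∈ unitary _ → ∀ w ∈ B.V,
      |qf (β (x * y)) w - qf (β x) w - qf (β y) w - (⟪n (y w), B.R y (n w)⟫_ℂ).im| ≤ O * ‖w‖ ^ 2)
    (hU : B.Sym U) (hU1 : ‖U - 1 + Complex.I • κ‖ ≤ K ^ 2 / 2) {n y₁ : H →L[ℂ] H} (hn : n ∈ N)
    (un : n ∈ unitary _) (hy : y₁ ∈ conjVN U hU.mem M) (uy : y₁ ∈ unitary _) {w : H}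
    (hw : w ∈ B.V) :
    ‖⟪n (y₁ w), B.cm n y₁ w⟫_ℂ‖ ≤ (3 * O' + O + 100 * (ω + K) ^ 2) * ‖w‖ ^ 2 := by
  have hK0 : 0 ≤ K := (norm_nonneg _).trans hK
  have hω := hc.ω_nn
  have hw0 := norm_nonneg w
  have uU := hU.mem
  obtain ⟨y, hyM, uy', rfl⟩ : ∃ y ∈ M, y ∈ unitary (H →L[ℂ] H) ∧ y₁ = U * y * star U := by
    refine ⟨star U * y₁ * U, hy, mul_mem (mul_mem (Unitary.star_mem uU) uy) uU, ?_⟩
    simp only [← mul_assoc, Unitary.mul_star_self_of_mem uU, one_mul]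
    rw [mul_assoc, Unitary.mul_star_self_of_mem uU, mul_one]
  obtain ⟨x, ux, hl⟩ := hc.symm.ulift hn un
  have n1 := norm_unitary_le un
  have n2 := norm_unitary_le uy
  have n3 := norm_unitary_le uy'
  have hM' := hc.gM.conj hU
  have h1 : ‖B.cm n (U * y * star U) w‖ ≤ (ω + 5 * K) * ‖w‖ := by
    have h2 := om_symm hM' (hc.om.conj uU) n hn _ hy w hw
    have h3 := diag_U_sub hK hK1 hU1
    refine h2.trans (mul_le_mul_of_nonneg_right ?_ hw0)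
    have h4 : 0 ≤ ω + 4 * ‖U - 1‖ := by positivity
    calc (ω + 4 * ‖U - 1‖) * ‖n‖ * ‖U * y * star U‖ ≤ (ω + 4 * ‖U - 1‖) * 1 * 1 := by gcongr
      _ ≤ ω + 5 * K := by linarith
  have h2 : ‖n (y w) - B.R y (n w)‖ ≤ ω * ‖w‖ := by
    have h2 := hc.om' n hn y hyM w hw
    rw [Base.cm_apply, hc.gM.R_V hyM hw] at h2
    refine h2.trans (mul_le_mul_of_nonneg_right ?_ hw0)
    calc ω * ‖n‖ * ‖y‖ ≤ ω * 1 * 1 := by gcongr
      _ = ω := by ring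
  have h3 := diag_expand uU un (B.R_unitary uy') hg.sa hK hK1 hU1 (norm_unitary_apply uy' w).le
    (norm_unitary_apply un w).le h2
  have h4 : |qf κ (n w) - qf κ (x w)| ≤ 2 * K * ‖w‖ * (10 * ω * ‖w‖) :=
    diag_qf_sub hK (norm_unitary_apply un w).le (norm_unitary_apply ux w).le (hl.sn w hw)
  have h5 : |qf κ (n (y w)) - qf κ ((x * y) w)| ≤ 2 * K * ‖w‖ * (11 * ω * ‖w‖) := by
    refine diag_qf_sub hK (norm_unitary_apply (mul_mem un uy') w).le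
      (norm_unitary_apply (mul_mem ux uy') w).le
      ((hl.norm_apply_N hc.symm hyM hw).trans (mul_le_mul_of_nonneg_right ?_ hw0))
    calc (10 * ω + ω * ‖n‖) * ‖y‖ ≤ (10 * ω + ω * 1) * 1 := by gcongr
      _ = 11 * ω := by ring
  have h7 := h6 x hl.mem' n hn ux un hl.symm.norm hl.symm.sn y hyM uy' w hw
  have h8 := hκ x hl.mem' ux w hw
  have h9 := hκ y hyM uy' w hw
  have h10 := hκ (x * y) (mul_mem hl.mem' hyM) (mul_mem ux uy') w hw
  rw [Base.cm_apply, hM'.R_V hy hw] at h1 ⊢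
  have h11 : ⟪n ((U * y * star U) w), B.R (U * y * star U) (n w)⟫_ℂ =
      ⟪star U (n (U (y w))), B.R y (star U (n w))⟫_ℂ := by
    rw [hU.R_conj, inner_star_left]
    simp only [mul_apply_eq_comp, hU.star.fix_V hw]
  have h12 : ‖n ((U * y * star U) w)‖ = ‖B.R (U * y * star U) (n w)‖ := by
    rw [norm_unitary_apply un, norm_unitary_apply uy, norm_unitary_apply (B.R_unitary uy),
      norm_unitary_apply un]
  rw [← h11] at h3
  generalize n ((U * y * star U) w) = a at *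
  generalize B.R (U * y * star U) (n w) = b at *
  have h13 : (⟪a, a - b⟫_ℂ).re = ‖a - b‖ ^ 2 / 2 := by
    have e1 := norm_sub_sq (𝕜 := ℂ) a b
    have e2 := inner_self_eq_norm_sq (𝕜 := ℂ) a
    rw [inner_sub_right, Complex.sub_re]
    simp only [RCLike.re_to_complex] at e1 e2
    rw [e1, e2, ← h12]
    ring
  have h14 : (⟪a, a - b⟫_ℂ).im = -(⟪a, b⟫_ℂ).im := by
    have e2 := inner_self_im (𝕜 := ℂ) a
    simp only [RCLike.im_to_complex] at e2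
    rw [inner_sub_right, Complex.sub_im, e2, zero_sub]
  refine (Complex.norm_le_abs_re_add_abs_im _).trans ?_
  rw [h13, h14, abs_neg, abs_of_nonneg (by positivity)]
  have h15 : ‖a - b‖ ^ 2 ≤ ((ω + 5 * K) * ‖w‖) ^ 2 := pow_le_pow_left₀ (norm_nonneg _) h1 2
  have h16 : |(⟪a, b⟫_ℂ).im| ≤ (3 * O' + O + 45 * (K * ω) + 7 * K ^ 2) * ‖w‖ ^ 2 := by
    rw [abs_le] at h3 h4 h5 h7 h8 h9 h10 ⊢
    constructor <;> linarith [h3.1, h3.2, h4.1, h4.2, h5.1, h5.2, h7.1, h7.2, h8.1, h8.2, h9.1, h9.2,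
      h10.1, h10.2]
  nlinarith [mul_nonneg (mul_nonneg hK0 hω) (sq_nonneg ‖w‖),
    mul_nonneg (sq_nonneg K) (sq_nonneg ‖w‖), mul_nonneg (sq_nonneg ω) (sq_nonneg ‖w‖)]

end Crest.Agent.R078T
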