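import Crest.Agent.R078T.Spec

/-! Row 78, tracial stage: common projections of prescribed central trace. -/

set_option autoImplicit false

open scoped InnerProductSpace ComplexConjugate

namespace Crest.Agent.R078T

open Crest.Agent.R121 (Mn Bd)

variable {H : Type*} [NormedAddCommGroup H] [InnerProductSpace ℂ H] [CompleteSpace H]
variable {B : Base H} {M N : VonNeumannAlgebra H}

lemma Dyadic_split {T z : H →L[ℂ] H} (hz : IsStarProjection z) (h : T * z = z * T) (ζ : H) :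
    qf T ζ = qf T (z ζ) + qf T ((1 - z) ζ) := by
  have hs : star z = z := hz.isSelfAdjoint.star_eq
  have hi : z * z = z := hz.isIdempotentElem.eq
  rw [← qf_conj z, ← qf_conj (1 - z), ← qf_add]
  congr 1
  rw [star_sub, star_one, hs]
  have e1 : T * z * z = T * z := by rw [mul_assoc, hi]
  simp only [sub_mul, mul_sub, one_mul, mul_one, ← h, e1]
  abel

lemma Dyadic_qf_proj {z : H →L[ℂ] H} (hz : IsStarProjection z) (ζ : H) :
    qf z ζ = ‖z ζ‖ ^ 2 := by
  rw [← qf_one, ← qf_conj z, mul_one, hz.isSelfAdjoint.star_eq, hz.isIdempotentElem.eq]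

lemma Dyadic_trace (hM : B.Good M) (i : ℕ) {T : H →L[ℂ] H} (hT : T ∈ M)
    (h : T * B.u (B.X i) = B.u (B.X i) * T) {w : H} (hw : w ∈ B.V) :
    qf (T * B.u (B.Y i)) w = 0 := by
  have hX := B.u_unitary (B.X i)
  have hA : B.u (B.X i) * B.u (B.Y i) = -(B.u (B.Y i) * B.u (B.X i)) := B.XY_anti i
  have e1 := hM.trace (star_mem (hM.u_mem (B.X i)))
    (mul_mem (mul_mem (hM.u_mem (B.X i)) hT) (hM.u_mem (B.Y i))) hw hw
  have e2 : star (B.u (B.X i)) * (B.u (B.X i) * T * B.u (B.Y i)) = T * B.u (B.Y i) := by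
    rw [← mul_assoc, ← mul_assoc, Unitary.star_mul_self_of_mem hX, one_mul]
  have e3 : B.u (B.X i) * T * B.u (B.Y i) * star (B.u (B.X i)) = -(T * B.u (B.Y i)) := by
    rw [← h, mul_assoc T, hA, mul_neg, neg_mul, mul_assoc, mul_assoc,
      Unitary.mul_star_self_of_mem hX, mul_one]
  rw [e2, e3] at e1
  have e4 : qf (T * B.u (B.Y i)) w = qf (-(T * B.u (B.Y i))) w := congrArg Complex.re e1
  rw [qf_neg] at e4
  linarith

lemma Dyadic_aux (hM : B.Good M) (hN : B.Good N) (k : ℕ) : ∀ (i : ℕ) {c : H →L[ℂ] H},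
    c ∈ B.Z → IsSelfAdjoint c → (∀ ζ, 0 ≤ qf c ζ) → (∀ ζ, qf c ζ ≤ ‖ζ‖ ^ 2) →
    ∃ e ∈ M, e ∈ N ∧ IsStarProjection e ∧ (∀ j, Commute e (B.u (B.Y j))) ∧
      (∀ j < i, Commute e (B.u (B.X j))) ∧
      ∀ w ∈ B.V, qf e w ≤ qf c w ∧ qf c w ≤ qf e w + (1 / 2) ^ k * ‖w‖ ^ 2 := by
  induction k with
  | zero =>
    intro i c _ _ h0 h1
    refine ⟨0, zero_mem _, zero_mem _, IsStarProjection.zero _, fun _ => Commute.zero_left _,
      fun _ _ => Commute.zero_left _, fun w _ => ?_⟩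
    have : qf (0 : H →L[ℂ] H) w = 0 := by simp [qf]
    rw [this]
    exact ⟨h0 w, by simpa using h1 w⟩
  | succ k ih =>
    intro i c hc hsa h0 h1
    obtain ⟨z, hz, hzc, hge, hle⟩ := exists_level hsa (1 / 2)
    have hzM : z ∈ M := vn_mem_of_comm fun t ht => hzc t (vn_comm (hM.Z_mem c hc) ht)
    have hzZ : z ∈ B.Z := hM.mem_Z hzM fun y hy => hzc y (hM.Z_comm c hc y hy).symm
    have hcz : c * z = z * c := hzc c rfl
    have hq : ∀ ζ, qf (((2 : ℝ) : ℂ) • c - z) ζ = 2 * qf c ζ - qf z ζ := fun ζ => by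
      rw [qf_sub, qf_smul]
    obtain ⟨e, heM, heN, he, heY, heX, hew⟩ := ih (i + 1) (c := ((2 : ℝ) : ℂ) • c - z)
      (sub_mem (B.Z.smul_mem hc _) hzZ)
      ((IsSelfAdjoint.smul (by simp [IsSelfAdjoint]) hsa).sub hz.isSelfAdjoint)
      (fun ζ => by
        have a1 := level_ge hsa hge ζ
        have a2 := h0 ((1 - z) ζ)
        rw [hq, Dyadic_split hz hcz ζ, Dyadic_qf_proj hz]
        linarith)
      (fun ζ => by
        have a1 := level_le hsa hle ζ
        have a2 := h1 (z ζ)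
        have a3 := Dyadic_split (T := 1) hz (by simp) ζ
        rw [qf_one, qf_one, qf_one] at a3
        rw [hq, Dyadic_split hz hcz ζ, Dyadic_qf_proj hz]
        linarith)
    set Y := B.u (B.Y i) with hY
    have hYY : Y * Y = 1 := by rw [hY, ← B.u_mul, B.Y_sq, B.u_one]
    have hYs : star Y = Y := by
      have := Unitary.star_mul_self_of_mem (B.u_unitary (B.Y i))
      calc star Y = star Y * (Y * Y) := by rw [hYY, mul_one]
        _ = Y := by rw [← mul_assoc, this, one_mul]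
    set y : H →L[ℂ] H := (((1 / 2 : ℝ)) : ℂ) • (1 + Y) with hy
    have hyp : IsStarProjection y := by
      refine ⟨?_, ?_⟩
      · change y * y = y
        rw [hy, smul_mul_smul_comm, add_mul, mul_add, mul_add, hYY]
        simp only [one_mul, mul_one]
        push_cast
        module
      · exact IsSelfAdjoint.smul (by simp [IsSelfAdjoint]) ((IsSelfAdjoint.one _).add hYs)
    have hyc : ∀ T : H →L[ℂ] H, Commute Y T → Commute y T := fun T hT =>
      ((Commute.one_left T).add_left hT).smul_left _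
    have hzc' : ∀ T ∈ M, Commute z T := fun T hT => hM.Z_comm z hzZ T hT
    have hyM : y ∈ M := vn_smul_mem _ (add_mem (one_mem _) (hM.u_mem _))
    have hyN : y ∈ N := vn_smul_mem _ (add_mem (one_mem _) (hN.u_mem _))
    have hye : Commute y e := hyc e (heY i).symm
    have hye' : Commute (1 - y) e := (Commute.one_left e).sub_left hye
    have hcomm : ∀ T ∈ M, Commute Y T → Commute e T → Commute (z * y + (1 - y) * e) T :=
      fun T hT h1 h2 => ((hzc' T hT).mul_left (hyc T h1)).add_left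
        (((Commute.one_left T).sub_left (hyc T h1)).mul_left h2)
    refine ⟨z * y + (1 - y) * e, add_mem (mul_mem hzM hyM) (mul_mem (sub_mem (one_mem _) hyM) heM),
      add_mem (mul_mem (hN.Z_mem z hzZ) hyN) (mul_mem (sub_mem (one_mem _) hyN) heN), ?_,
      fun j => hcomm _ (hM.u_mem _) ?_ (heY j),
      fun j hj => hcomm _ (hM.u_mem _) ?_ (heX j (by omega)), fun w hw => ?_⟩
    · refine (hz.mul hyp (hzc' y hyM)).add (hyp.one_sub.mul he hye') ?_
      rw [mul_assoc, ← mul_assoc y, mul_sub, mul_one, hyp.isIdempotentElem.eq, sub_self, zero_mul,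
        mul_zero]
    · change B.u (B.Y i) * B.u (B.Y j) = B.u (B.Y j) * B.u (B.Y i)
      rw [← B.u_mul, ← B.u_mul, B.Y_comm]
    · change B.u (B.Y i) * B.u (B.X j) = B.u (B.X j) * B.u (B.Y i)
      rw [← B.u_mul, ← B.u_mul, B.XY_comm j i (by omega)]
    · have t1 := Dyadic_trace hM i hzM (hzc' _ (hM.u_mem _)) hw
      have t2 := Dyadic_trace hM i heM (heX i (by omega)) hw
      have e1 : z * y + (1 - y) * e =
          (((1 / 2 : ℝ)) : ℂ) • (z + z * Y) + (((1 / 2 : ℝ)) : ℂ) • (e - e * Y) := by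
        rw [hye'.eq, hy, mul_smul_comm, mul_sub, mul_smul_comm, mul_add, mul_add]
        simp only [mul_one]
        push_cast
        module
      obtain ⟨b1, b2⟩ := hew w hw
      rw [hq] at b1 b2
      rw [e1, qf_add, qf_smul, qf_smul, qf_add, qf_sub, t1, t2, pow_succ]
      constructor <;> linarith

/-- Induction on `k`, for all `i` and `c`, with the extra conclusions that `e` commutes with all
`Y j` and with `X j` for `j < i`. Step: `z ∈ Z` from `exists_level c (1 / 2)` (`vn_mem_of_comm`,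
`mem_Z`), `c' = 2 c - z` satisfies `0 ≤ c' ≤ 1` (`level_ge`, `level_le`), `e'` for `c'` and
`i + 1`, `y = (1 + Y i) / 2`, `e = z y + (1 - y) e'`. If `T ∈ M` commutes with `X i` then
`⟪w, T Y w⟫ = ⟪w, X T Y X⋆ w⟫ = -⟪w, T Y w⟫` (trace), so `qf e w = (qf z w + qf e' w) / 2`. -/
theorem exists_dyadic (hM : B.Good M) (hN : B.Good N) (k : ℕ) {c : H →L[ℂ] H} (hc : c ∈ B.Z)
    (hsa : IsSelfAdjoint c) (h0 : ∀ ζ, 0 ≤ qf c ζ) (h1 : ∀ ζ, qf c ζ ≤ ‖ζ‖ ^ 2) :
    ∃ e ∈ M, e ∈ N ∧ IsStarProjection e ∧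
      ∀ w ∈ B.V, qf e w ≤ qf c w ∧ qf c w ≤ qf e w + (1 / 2) ^ k * ‖w‖ ^ 2 := by
  obtain ⟨e, h2, h3, h4, -, -, h5⟩ := Dyadic_aux hM hN k 0 hc hsa h0 h1
  exact ⟨e, h2, h3, h4, h5⟩

end Crest.Agent.R078T
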