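import Crest.Agent.R078T.Basic

/-! Row 78, tracial stage: the trace of the logarithm. -/

set_option autoImplicit false

open scoped InnerProductSpace ComplexConjugate

namespace Crest.Agent.R078T

open Crest.Agent.R121 (Mn Bd)

variable {H : Type*} [NormedAddCommGroup H] [InnerProductSpace ℂ H] [CompleteSpace H]
variable {M : VonNeumannAlgebra H} {x y : H →L[ℂ] H} {η : ℝ}

theorem Gap.mono {η' : ℝ} (h : Gap x η) (hη : η' ≤ η) : Gap x η' := fun ζ =>
  (mul_le_mul_of_nonneg_right hη (norm_nonneg _)).trans (h ζ)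

theorem Gap.perturb {δ : ℝ} (h : Gap x η) (hxy : ‖x - y‖ ≤ δ) : Gap y (η - δ) := by
  intro ζ
  have h1 := h ζ
  have h2 : ‖(x - y) ζ‖ ≤ δ * ‖ζ‖ :=
    ((x - y).le_opNorm ζ).trans (mul_le_mul_of_nonneg_right hxy (norm_nonneg _))
  have h3 : x ζ + ζ = (y ζ + ζ) + (x - y) ζ := by
    rw [ContinuousLinearMap.sub_apply]; abel
  have h4 := norm_add_le (y ζ + ζ) ((x - y) ζ)
  rw [← h3] at h4
  linarith

theorem gap_of_norm {r : ℝ} (h : ‖x - 1‖ ≤ r) : Gap x (2 - r) := by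
  have h1 : Gap (1 : H →L[ℂ] H) 2 := fun ζ => by
    rw [ContinuousLinearMap.one_apply, ← two_smul ℝ ζ, norm_smul]
    simp
  exact h1.perturb (by rwa [norm_sub_rev])

lemma Ell_normal (hx : x ∈ unitary (H →L[ℂ] H)) : IsStarNormal x :=
  ⟨by rw [Commute, SemiconjBy, Unitary.star_mul_self_of_mem hx, Unitary.mul_star_self_of_mem hx]⟩

lemma Ell_cfc_sq (hn : IsStarNormal x) (c : ℂ) :
    cfc (fun z : ℂ => star (z - c) * (z - c)) x =
      star (x - algebraMap ℂ _ c) * (x - algebraMap ℂ _ c) := by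
  have h1 : cfc (fun z : ℂ => z - c) x = x - algebraMap ℂ _ c := by
    rw [cfc_sub (fun z : ℂ => z) (fun _ => c) x, cfc_id' ℂ x, cfc_const c x]
  rw [cfc_mul (fun z : ℂ => star (z - c)) (fun z => z - c) x, cfc_star (fun z : ℂ => z - c) x, h1]

lemma Ell_qf_sq (T : H →L[ℂ] H) (w : H) : qf (star T * T) w = ‖T w‖ ^ 2 := by
  have := qf_conj T 1 w
  rw [mul_one, qf_one] at this
  exact this

open scoped ComplexOrder in
lemma Ell_qf_nonneg {T : H →L[ℂ] H} (hT : 0 ≤ T) (w : H) : 0 ≤ qf T w :=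
  ((ContinuousLinearMap.nonneg_iff_isPositive T).1 hT).re_inner_nonneg_right w

/-- `(x + 1)⋆ (x + 1) - η² = cfc (‖z + 1‖² - η²) x` is a positive operator. -/
theorem Gap.spec (hx : x ∈ unitary (H →L[ℂ] H)) (h : Gap x η) {z : ℂ} (hz : z ∈ spectrum ℂ x) :
    η ≤ ‖z + 1‖ := by
  open scoped ComplexOrder in
  rcases le_or_gt η 0 with h0 | h0
  · exact h0.trans (norm_nonneg _)
  have hn := Ell_normal hx
  have h1 := Ell_cfc_sq hn (-1)
  have h2 : cfc (fun z : ℂ => star (z - (-1)) * (z - (-1)) - ((η ^ 2 : ℝ) : ℂ)) x =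
      star (x - algebraMap ℂ _ (-1)) * (x - algebraMap ℂ _ (-1)) - ((η ^ 2 : ℝ) : ℂ) • 1 := by
    rw [cfc_sub (fun z : ℂ => star (z - (-1)) * (z - (-1))) (fun _ => ((η ^ 2 : ℝ) : ℂ)) x, h1,
      cfc_const _ x, Algebra.algebraMap_eq_smul_one ((η ^ 2 : ℝ) : ℂ)]
  have h3 : 0 ≤ cfc (fun z : ℂ => star (z - (-1)) * (z - (-1)) - ((η ^ 2 : ℝ) : ℂ)) x := by
    rw [h2, ContinuousLinearMap.nonneg_iff_isPositive]
    refine ⟨?_, fun ζ => ?_⟩
    · refine IsSelfAdjoint.isSymmetric ?_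
      refine (IsSelfAdjoint.star_mul_self _).sub ?_
      rw [IsSelfAdjoint, star_smul, star_one, Complex.star_def, Complex.conj_ofReal]
    · have e1 : ∀ T : H →L[ℂ] H, T.reApplyInnerSelf ζ = qf T ζ := fun T => by
        rw [ContinuousLinearMap.reApplyInnerSelf_apply, qf, ← inner_conj_symm ζ, Complex.conj_re]
        rfl
      rw [e1, qf_sub, Ell_qf_sq, qf_smul, qf_one]
      have e2 : (x - algebraMap ℂ (H →L[ℂ] H) (-1)) ζ = x ζ + ζ := by
        simp
      rw [e2]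
      have h4 := pow_le_pow_left₀ (mul_nonneg h0.le (norm_nonneg ζ)) (h ζ) 2
      rw [mul_pow] at h4
      linarith
  have h4 := (cfc_nonneg_iff _ x).1 h3 z hz
  rw [sub_neg_eq_add, Complex.star_def, ← Complex.normSq_eq_conj_mul_self, ← Complex.ofReal_sub,
    Complex.zero_le_real, Complex.normSq_eq_norm_sq] at h4
  exact (pow_le_pow_iff_left₀ h0.le (norm_nonneg _) two_ne_zero).1 (by linarith)

theorem Gap.slit (hx : x ∈ unitary (H →L[ℂ] H)) (h : Gap x η) (hη : 0 < η) :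
    spectrum ℂ x ⊆ Complex.slitPlane := by
  intro z hz
  have h1 := h.spec hx hz
  have h2 : ‖z‖ = 1 := spectrum.norm_eq_one_of_unitary hx hz
  by_contra h3
  rw [Complex.mem_slitPlane_iff, not_or, not_lt, not_not] at h3
  have h4 : z = (z.re : ℂ) := Complex.ext (by simp) (by simp [h3.2])
  rw [h4, Complex.norm_real, Real.norm_eq_abs, abs_of_nonpos h3.1] at h2
  have h5 : z + 1 = 0 := by
    rw [h4, show z.re = -1 by linarith]
    simp
  rw [h5, norm_zero] at h1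
  linarith

theorem norm_lg_le (x : H →L[ℂ] H) : ‖lg x‖ ≤ Real.pi :=
  norm_cfc_le Real.pi_pos.le fun z _ => by
    rw [Complex.norm_real, Real.norm_eq_abs]
    exact Complex.abs_arg_le_pi z

theorem lg_one : lg (1 : H →L[ℂ] H) = 0 := by
  rw [lg, cfc_apply_one]
  simp

theorem lg_mem (hx : x ∈ M) : lg x ∈ M := vn_cfc_mem hx _

theorem lg_sa (x : H →L[ℂ] H) : IsSelfAdjoint (lg x) := by
  rw [IsSelfAdjoint, lg, ← cfc_star]
  simp only [Complex.star_def, Complex.conj_ofReal]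

lemma Ell_scalar {z : ℂ} (h1 : ‖z‖ = 1) (h2 : ‖z - 1‖ ≤ 1 / 2) :
    |z.arg - z.im| ≤ ‖z - 1‖ ^ 2 := by
  have hz : z ≠ 0 := by rintro rfl; simp at h1
  have hs : Real.sin z.arg = z.im := by rw [Complex.sin_arg, h1, div_one]
  have hc : Real.cos z.arg = z.re := by rw [Complex.cos_arg hz, h1, div_one]
  have h3 : ‖z - 1‖ ^ 2 = 2 - 2 * Real.cos z.arg := by
    have h4 : z.re ^ 2 + z.im ^ 2 = 1 := by
      have := Complex.normSq_eq_norm_sq z
      rw [h1, Complex.normSq_apply] at this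
      linarith
    rw [← Complex.normSq_eq_norm_sq, Complex.normSq_apply, hc]
    simp only [Complex.sub_re, Complex.one_re, Complex.sub_im, Complex.one_im]
    linarith
  have h4 : ‖z - 1‖ ^ 2 ≤ 1 / 4 := by nlinarith [norm_nonneg (z - 1)]
  rw [← hs, h3]
  rw [h3] at h4
  generalize hθ : z.arg = θ at *
  have h5 : |θ| ≤ Real.pi := hθ ▸ Complex.abs_arg_le_pi z
  have h6 := Real.cos_le_one_sub_mul_cos_sq h5
  have h7 : 1 / 8 ≤ 2 / Real.pi ^ 2 := by
    rw [div_le_div_iff₀ (by norm_num) (by positivity)]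
    nlinarith [Real.pi_le_four, Real.pi_pos]
  have h8 : θ ^ 2 / 4 ≤ 2 - 2 * Real.cos θ := by nlinarith [sq_nonneg θ]
  have h9 : |θ| ≤ 1 := by
    rw [← sq_le_one_iff_abs_le_one]
    linarith
  have key : ∀ t : ℝ, 0 < t → t ≤ 1 → |t - Real.sin t| ≤ t ^ 2 / 4 := fun t ht ht1 => by
    have a1 := Real.sin_gt_sub_cube ht
    have a2 := Real.sin_le ht.le
    rw [abs_of_nonneg (by linarith)]
    nlinarith [mul_nonneg (sq_nonneg t) (sub_nonneg.2 ht1), sq_nonneg t]
  refine le_trans ?_ h8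
  rcases lt_trichotomy θ 0 with h | h | h
  · have := key (-θ) (by linarith) (by rwa [abs_of_neg h] at h9)
    rw [Real.sin_neg, neg_sq, ← abs_neg,
      show -(-θ - -Real.sin θ) = θ - Real.sin θ by ring] at this
    exact this
  · simp [h]
  · exact key θ h (by rwa [abs_of_pos h] at h9)

/-- `|θ - sin θ| ≤ ‖exp (i θ) - 1‖²` for `‖exp (i θ) - 1‖ ≤ 1 / 2`; both `‖z - 1‖² ± (arg z - im z)`
are nonnegative on the spectrum. -/
theorem ell_near (hx : x ∈ unitary (H →L[ℂ] H)) (h : ‖x - 1‖ ≤ 1 / 2) (w : H) :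
    |qf (lg x) w - (⟪w, x w⟫_ℂ).im| ≤ ‖x w - w‖ ^ 2 := by
  open scoped ComplexOrder in
  have hn := Ell_normal hx
  have hslit := (gap_of_norm h).slit hx (by norm_num)
  have hc : ContinuousOn (fun z : ℂ => (z.arg : ℂ)) (spectrum ℂ x) :=
    Complex.continuous_ofReal.comp_continuousOn (Complex.continuousOn_arg.mono hslit)
  have hsp : ∀ z ∈ spectrum ℂ x, |z.arg - z.im| ≤ ‖z - 1‖ ^ 2 := fun z hz => by
    refine Ell_scalar (spectrum.norm_eq_one_of_unitary hx hz) (le_trans ?_ h)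
    have h1 : cfc (fun z : ℂ => z - 1) x = x - 1 := by
      rw [cfc_sub (fun z : ℂ => z) (fun _ => 1) x, cfc_id' ℂ x, cfc_const_one ℂ x]
    rw [← h1]
    exact norm_apply_le_norm_cfc (fun z : ℂ => z - 1) x hz
  have him : ∀ z : ℂ, (z.im : ℂ) = (-Complex.I / 2) * (z - star z) := fun z => by
    apply Complex.ext <;> simp <;> ring
  have e1 : cfc (fun z : ℂ => (z.im : ℂ)) x = (-Complex.I / 2) • (x - star x) := by
    simp only [him]
    rw [cfc_const_mul (-Complex.I / 2) (fun z : ℂ => z - star z) x,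
      cfc_sub (fun z : ℂ => z) (fun z => star z) x, cfc_id' ℂ x, cfc_star_id (R := ℂ) x]
  have e2 : qf (cfc (fun z : ℂ => (z.im : ℂ)) x) w = (⟪w, x w⟫_ℂ).im := by
    rw [e1, qf, ContinuousLinearMap.smul_apply, ContinuousLinearMap.sub_apply, inner_smul_right,
      inner_sub_right, inner_star_right, ← inner_conj_symm (x w) w, ← Complex.star_def, ← him,
      Complex.ofReal_re]
  have e3 : qf (cfc (fun z : ℂ => star (z - 1) * (z - 1)) x) w = ‖x w - w‖ ^ 2 := by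
    rw [Ell_cfc_sq hn 1, Ell_qf_sq]
    simp
  have e4 : ∀ z : ℂ, star (z - 1) * (z - 1) = ((‖z - 1‖ ^ 2 : ℝ) : ℂ) := fun z => by
    rw [Complex.star_def, ← Complex.normSq_eq_conj_mul_self, Complex.normSq_eq_norm_sq]
  have hi : ContinuousOn (fun z : ℂ => (z.im : ℂ)) (spectrum ℂ x) := by fun_prop
  have e5 : cfc (fun z : ℂ => (z.arg : ℂ) - (z.im : ℂ)) x =
      lg x - cfc (fun z : ℂ => (z.im : ℂ)) x := cfc_sub _ _ x hc hi
  have e6 : cfc (fun z : ℂ => (z.im : ℂ) - (z.arg : ℂ)) x =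
      cfc (fun z : ℂ => (z.im : ℂ)) x - lg x := cfc_sub _ _ x hi hc
  have p1 : cfc (fun z : ℂ => (z.arg : ℂ) - (z.im : ℂ)) x ≤
      cfc (fun z : ℂ => star (z - 1) * (z - 1)) x := by
    refine cfc_mono (fun z hz => ?_) (hc.sub hi)
    rw [e4, ← Complex.ofReal_sub, Complex.real_le_real]
    exact (le_abs_self _).trans (hsp z hz)
  have p2 : cfc (fun z : ℂ => (z.im : ℂ) - (z.arg : ℂ)) x ≤
      cfc (fun z : ℂ => star (z - 1) * (z - 1)) x := by
    refine cfc_mono (fun z hz => ?_) (hi.sub hc)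
    rw [e4, ← Complex.ofReal_sub, Complex.real_le_real]
    exact (le_abs_self _).trans ((abs_sub_comm _ _).trans_le (hsp z hz))
  have q1 := Ell_qf_nonneg (sub_nonneg.2 p1) w
  have q2 := Ell_qf_nonneg (sub_nonneg.2 p2) w
  rw [qf_sub, e3, e5, qf_sub, e2] at q1
  rw [qf_sub, e3, e6, qf_sub, e2] at q2
  rw [abs_le]
  constructor <;> linarith

end Crest.Agent.R078T
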