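import Crest.Agent.R078T.Ell

/-! Row 78, tracial stage: second order expansion of the trace of the logarithm. -/

set_option autoImplicit false
set_option linter.unusedSectionVars false

open scoped InnerProductSpace ComplexConjugate

namespace Crest.Agent.R078T

open Crest.Agent.R121 (Mn Bd)

variable {H : Type*} [NormedAddCommGroup H] [InnerProductSpace ℂ H] [CompleteSpace H]
variable {M : VonNeumannAlgebra H} {x y : H →L[ℂ] H} {η : ℝ}

lemma Ell2_den {z : ℂ} (hz : ‖z‖ = 1) (s : ℝ) : ‖z + 1‖ ≤ 2 * ‖1 + (s : ℂ) * (z - 1)‖ := by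
  have h1 : z * conj z = 1 := by rw [Complex.mul_conj, Complex.normSq_eq_norm_sq, hz]; simp
  have h2 : z + 1 = (1 + (s : ℂ) * (z - 1)) + z * conj (1 + (s : ℂ) * (z - 1)) := by
    simp only [map_add, map_mul, map_sub, map_one, Complex.conj_ofReal]
    linear_combination (-(s : ℂ)) * h1
  calc ‖z + 1‖ ≤ ‖1 + (s : ℂ) * (z - 1)‖ + ‖z * conj (1 + (s : ℂ) * (z - 1))‖ := by
        rw [h2]; exact norm_add_le _ _
    _ = _ := by rw [norm_mul, hz, Complex.norm_conj]; ring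

/-- the resolvent along the segment from `1` to `x` -/
noncomputable def Ell2_r (x : H →L[ℂ] H) (s : ℝ) : H →L[ℂ] H :=
  cfc (fun z : ℂ => (1 + (s : ℂ) * (z - 1))⁻¹) x

section

variable (hη : 0 < η) (hx : x ∈ unitary (H →L[ℂ] H)) (gx : Gap x η)
include hη hx gx

lemma Ell2_ge {z : ℂ} (hz : z ∈ spectrum ℂ x) (s : ℝ) : η / 2 ≤ ‖1 + (s : ℂ) * (z - 1)‖ := by
  have h1 := Ell2_den (spectrum.norm_eq_one_of_unitary hx hz) s
  have h2 := gx.spec hx hz
  linarith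

lemma Ell2_ne {z : ℂ} (hz : z ∈ spectrum ℂ x) (s : ℝ) : 1 + (s : ℂ) * (z - 1) ≠ 0 := by
  have := Ell2_ge hη hx gx hz s
  rw [← norm_pos_iff]; linarith

lemma Ell2_inv_le {z : ℂ} (hz : z ∈ spectrum ℂ x) (s : ℝ) :
    ‖(1 + (s : ℂ) * (z - 1))⁻¹‖ ≤ 2 / η := by
  rw [norm_inv, ← inv_div]
  exact inv_anti₀ (by positivity) (Ell2_ge hη hx gx hz s)

lemma Ell2_cont : ContinuousOn (Function.uncurry fun (s : ℝ) (z : ℂ) => (1 + (s : ℂ) * (z - 1))⁻¹)
    (Set.Ioc 0 1 ×ˢ spectrum ℂ x) := by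
  refine ContinuousOn.inv₀ (f := fun p : ℝ × ℂ => 1 + (p.1 : ℂ) * (p.2 - 1)) (by fun_prop) ?_
  exact fun p hp => Ell2_ne hη hx gx hp.2 p.1

lemma Ell2_cont1 (s : ℝ) : ContinuousOn (fun z : ℂ => (1 + (s : ℂ) * (z - 1))⁻¹) (spectrum ℂ x) :=
  ContinuousOn.inv₀ (by fun_prop) fun _ hz => Ell2_ne hη hx gx hz s

lemma Ell2_norm (s : ℝ) : ‖Ell2_r x s‖ ≤ 2 / η :=
  norm_cfc_le (by positivity) fun _ hz => Ell2_inv_le hη hx gx hz s

lemma Ell2_sub_mul (s : ℝ) : cfc (fun z : ℂ => (z - 1) * (1 + (s : ℂ) * (z - 1))⁻¹) x =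
    (x - 1) * Ell2_r x s := by
  have : IsStarNormal x := isStarNormal_of_mem_unitary hx
  rw [cfc_mul _ _ x (by fun_prop) (Ell2_cont1 hη hx gx s), cfc_sub _ _ x, cfc_id' ℂ x, cfc_const_one ℂ x,
    Ell2_r]

lemma Ell2_comm (s : ℝ) : Ell2_r x s * (x - 1) = (x - 1) * Ell2_r x s := by
  have h : Commute (Ell2_r x s) x :=
    Commute.cfc (Commute.refl x) (isStarNormal_of_mem_unitary hx).star_comm_self _
  exact h.sub_right (Commute.one_right _)

lemma Ell2_inv (s : ℝ) : (1 + (s : ℂ) • (x - 1)) * Ell2_r x s = 1 := by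
  have : IsStarNormal x := isStarNormal_of_mem_unitary hx
  have hc := Ell2_cont1 hη hx gx s
  have hc' : ContinuousOn (fun z : ℂ => (z - 1) * (1 + (s : ℂ) * (z - 1))⁻¹) (spectrum ℂ x) :=
    ContinuousOn.mul (by fun_prop) hc
  have hc'' : ContinuousOn (fun z : ℂ => (s : ℂ) • ((z - 1) * (1 + (s : ℂ) * (z - 1))⁻¹))
    (spectrum ℂ x) := hc'.const_smul (s : ℂ)
  rw [add_mul, one_mul, smul_mul_assoc, ← Ell2_sub_mul hη hx gx, Ell2_r,
    ← cfc_smul _ _ x hc', ← cfc_add x _ _ hc hc'', ← cfc_const_one ℂ x]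
  refine cfc_congr fun z hz => ?_
  have := Ell2_ne hη hx gx hz s
  simp only [smul_eq_mul]
  field_simp

lemma Ell2_inv' (s : ℝ) : Ell2_r x s * (1 + (s : ℂ) • (x - 1)) = 1 := by
  have := Ell2_inv hη hx gx s
  rw [add_mul, one_mul, smul_mul_assoc] at this
  rwa [mul_add, mul_one, mul_smul_comm, Ell2_comm hη hx gx]

lemma Ell2_int1 : MeasureTheory.IntegrableOn (fun s : ℝ => (x - 1) * Ell2_r x s) (Set.Ioc 0 1) ∧
    Complex.I • lg x = ∫ s in Set.Ioc (0 : ℝ) 1, (x - 1) * Ell2_r x s := by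
  have : IsStarNormal x := isStarNormal_of_mem_unitary hx
  have hc : ContinuousOn (Function.uncurry fun (s : ℝ) (z : ℂ) =>
      (z - 1) * (1 + (s : ℂ) * (z - 1))⁻¹) (Set.Ioc 0 1 ×ˢ spectrum ℂ x) :=
    ContinuousOn.mul (f := fun p : ℝ × ℂ => p.2 - 1) (by fun_prop) (Ell2_cont hη hx gx)
  have hb : ∀ᵐ s : ℝ ∂(MeasureTheory.volume.restrict (Set.Ioc (0 : ℝ) 1)), ∀ z ∈ spectrum ℂ x,
      ‖(z - 1) * (1 + (s : ℂ) * (z - 1))⁻¹‖ ≤ 2 * (2 / η) := .of_forall fun s z hz => by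
    rw [norm_mul]
    refine mul_le_mul ((norm_sub_le _ _).trans_eq ?_) (Ell2_inv_le hη hx gx hz s) (norm_nonneg _)
      (by norm_num)
    rw [spectrum.norm_eq_one_of_unitary hx hz, norm_one]; norm_num
  have hi : MeasureTheory.HasFiniteIntegral (fun _ : ℝ => 2 * (2 / η))
      (MeasureTheory.volume.restrict (Set.Ioc (0 : ℝ) 1)) :=
    (MeasureTheory.integrable_const _).hasFiniteIntegral
  simp only [← Ell2_sub_mul hη hx gx]
  refine ⟨integrableOn_cfc measurableSet_Ioc _ _ x hc hb hi, ?_⟩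
  have hs := gx.slit hx hη
  have ha : ContinuousOn (fun z : ℂ => (z.arg : ℂ)) (spectrum ℂ x) :=
    fun z hz => (Complex.continuous_ofReal.continuousAt.comp
      (Complex.continuousAt_arg (hs hz))).continuousWithinAt
  rw [← cfc_setIntegral measurableSet_Ioc _ _ x hc hb hi, lg, ← cfc_smul _ _ x ha]
  refine cfc_congr fun z hz => ?_
  have h1 := Complex.log_eq_integral (z := z - 1) (by simpa using hs hz)
  rw [add_sub_cancel, intervalIntegral.integral_of_le zero_le_one, Complex.log,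
    spectrum.norm_eq_one_of_unitary hx hz, Real.log_one] at h1
  simp only [Complex.real_smul] at h1
  simp only [smul_eq_mul]
  rw [MeasureTheory.integral_const_mul, ← h1]
  simp [mul_comm]

lemma Ell2_int2 : MeasureTheory.IntegrableOn (fun s : ℝ => Ell2_r x s * Ell2_r x s) (Set.Ioc 0 1) ∧
    star x = ∫ s in Set.Ioc (0 : ℝ) 1, Ell2_r x s * Ell2_r x s := by
  have : IsStarNormal x := isStarNormal_of_mem_unitary hx
  have hc : ContinuousOn (Function.uncurry fun (s : ℝ) (z : ℂ) =>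
      (1 + (s : ℂ) * (z - 1))⁻¹ * (1 + (s : ℂ) * (z - 1))⁻¹) (Set.Ioc 0 1 ×ˢ spectrum ℂ x) :=
    (Ell2_cont hη hx gx).mul (Ell2_cont hη hx gx)
  have hb : ∀ᵐ s : ℝ ∂(MeasureTheory.volume.restrict (Set.Ioc (0 : ℝ) 1)), ∀ z ∈ spectrum ℂ x,
      ‖(1 + (s : ℂ) * (z - 1))⁻¹ * (1 + (s : ℂ) * (z - 1))⁻¹‖ ≤ 2 / η * (2 / η) :=
    .of_forall fun s z hz => by
      rw [norm_mul]
      exact mul_le_mul (Ell2_inv_le hη hx gx hz s) (Ell2_inv_le hη hx gx hz s) (norm_nonneg _)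
        (by positivity)
  have hi : MeasureTheory.HasFiniteIntegral (fun _ : ℝ => 2 / η * (2 / η))
      (MeasureTheory.volume.restrict (Set.Ioc (0 : ℝ) 1)) :=
    (MeasureTheory.integrable_const _).hasFiniteIntegral
  have e : ∀ s : ℝ, Ell2_r x s * Ell2_r x s = cfc (fun z : ℂ =>
      (1 + (s : ℂ) * (z - 1))⁻¹ * (1 + (s : ℂ) * (z - 1))⁻¹) x := fun s =>
    (cfc_mul _ _ x (Ell2_cont1 hη hx gx s) (Ell2_cont1 hη hx gx s)).symm
  simp only [e]
  refine ⟨integrableOn_cfc measurableSet_Ioc _ _ x hc hb hi, ?_⟩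
  rw [← cfc_setIntegral measurableSet_Ioc _ _ x hc hb hi, ← cfc_star_id (R := ℂ) (a := x)]
  refine cfc_congr fun z hz => ?_
  have hne := Ell2_ne hη hx gx hz
  have hd : ∀ s : ℝ, HasDerivAt (fun s : ℝ => (s : ℂ) / (1 + (s : ℂ) * (z - 1)))
      ((1 + (s : ℂ) * (z - 1))⁻¹ * (1 + (s : ℂ) * (z - 1))⁻¹) s := fun s => by
    have h1 : HasDerivAt (fun s : ℝ => (s : ℂ)) 1 s := Complex.ofRealCLM.hasDerivAt
    refine (h1.div ((h1.mul_const (z - 1)).const_add 1) (hne s)).congr_deriv ?_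
    have := hne s
    field_simp
    ring
  have hcont : Continuous fun s : ℝ => (1 + (s : ℂ) * (z - 1))⁻¹ :=
    Continuous.inv₀ (by fun_prop) hne
  have h2 := intervalIntegral.integral_eq_sub_of_hasDerivAt (a := 0) (b := 1) (fun s _ => hd s)
    ((hcont.mul hcont).intervalIntegrable 0 1)
  rw [intervalIntegral.integral_of_le zero_le_one] at h2
  simp only [h2]
  simp [Complex.inv_eq_conj (spectrum.norm_eq_one_of_unitary hx hz)]

end

lemma Ell2_alg {A : Type*} [Ring A] [Algebra ℂ A] {a b r r' : A} {s : ℂ}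
    (h : (1 + s • a) * r = 1) (h' : r' * (1 + s • b) = 1) :
    r' * b - a * r - r * (b - a) * r = (-s) • (r' * (b - a) * r * (b - a) * r) := by
  have e1 : r' * b - a * r = r' * (b - a) * r := by
    calc r' * b - a * r = r' * b * ((1 + s • a) * r) - r' * (1 + s • b) * (a * r) := by
          rw [h, h', mul_one, one_mul]
      _ = _ := by
          simp only [mul_add, add_mul, mul_sub, sub_mul, mul_one, one_mul, smul_mul_assoc,
            mul_smul_comm, mul_assoc]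
          abel
  have e2 : r' - r = (-s) • (r' * (b - a) * r) := by
    calc r' - r = r' * ((1 + s • a) * r) - r' * (1 + s • b) * r := by
          rw [h, h', mul_one, one_mul]
      _ = _ := by
          simp only [mul_add, add_mul, mul_sub, sub_mul, mul_one, one_mul, smul_mul_assoc,
            mul_smul_comm, mul_assoc, neg_smul, smul_sub]
          abel
  rw [e1, ← sub_mul, ← sub_mul, e2, smul_mul_assoc, smul_mul_assoc]

/-- Second order expansion. For `s ∈ [0, 1]` let `r_x s = cfc (fun z => (1 + s (z - 1))⁻¹) x`;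
`‖1 + s (z - 1)‖ ≥ ‖z + 1‖ / 2` on the circle, so `‖r_x s‖ ≤ 2 / η`. On the spectrum
`i arg z = log z = ∫₀¹ (z - 1) (1 + s (z - 1))⁻¹ ds` (`Complex.log_eq_integral`) and
`∫₀¹ (1 + s (z - 1))⁻² ds = z⁻¹ = conj z`; lift to operators with `cfc_integral` (or prove the two
identities for `⟪w, a (·) w⟫`). `(y - 1) r_y - (x - 1) r_x = r_y (y - x) r_x`,
`r_y - r_x = -s r_y (y - x) r_x`, and `⟪w, r_x (y - x) r_x w⟫ = ⟪w, r_x² (y - x) w⟫` by the trace
property. So `i ⟪w, (lg y - lg x) w⟫ = ⟪w, (x⋆ y - 1) w⟫ + O (8 η⁻³ ‖x - y‖² ‖w‖²)`. -/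
theorem ell_second (hη : 0 < η) (hx : x ∈ M) (hy : y ∈ M) (hx' : x ∈ unitary _)
    (hy' : y ∈ unitary _) (gx : Gap x η) (gy : Gap y η) {w : H} (hw : TrV M w) :
    |qf (lg y) w - qf (lg x) w - (⟪w, (star x * y) w⟫_ℂ).im| ≤
      8 / η ^ 3 * ‖x - y‖ ^ 2 * ‖w‖ ^ 2 := by
  let φ : (H →L[ℂ] H) →L[ℂ] ℂ := (innerSL ℂ w).comp (ContinuousLinearMap.apply ℂ H w)
  have hφ : ∀ T : H →L[ℂ] H, φ T = ⟪w, T w⟫_ℂ := fun _ => rfl
  obtain ⟨i1, e1⟩ := Ell2_int1 hη hx' gx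
  obtain ⟨i2, e2⟩ := Ell2_int1 hη hy' gy
  obtain ⟨i3, e3⟩ := Ell2_int2 hη hx' gx
  let ψ : (H →L[ℂ] H) →L[ℂ] ℂ := φ.comp ((ContinuousLinearMap.mul ℂ (H →L[ℂ] H)).flip (y - x))
  have hψ : ∀ T : H →L[ℂ] H, ψ T = φ (T * (y - x)) := fun _ => rfl
  have key : φ (Complex.I • lg y) - φ (Complex.I • lg x) - ψ (star x) =
      ∫ s in Set.Ioc (0 : ℝ) 1, (φ ((y - 1) * Ell2_r y s) - φ ((x - 1) * Ell2_r x s) -
        ψ (Ell2_r x s * Ell2_r x s)) := by
    rw [e1, e2, e3, ← φ.integral_comp_comm i1, ← φ.integral_comp_comm i2,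
      ← ψ.integral_comp_comm i3,
      ← MeasureTheory.integral_sub (φ.integrable_comp i2) (φ.integrable_comp i1)]
    exact (MeasureTheory.integral_sub ((φ.integrable_comp i2).sub (φ.integrable_comp i1))
        (ψ.integrable_comp i3)).symm
  have hb : ∀ s ∈ Set.Ioc (0 : ℝ) 1, ‖φ ((y - 1) * Ell2_r y s) - φ ((x - 1) * Ell2_r x s) -
      ψ (Ell2_r x s * Ell2_r x s)‖ ≤ 8 / η ^ 3 * ‖x - y‖ ^ 2 * ‖w‖ ^ 2 := fun s hs => by
    have hr : Ell2_r x s ∈ M := vn_cfc_mem hx _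
    have t1 : ψ (Ell2_r x s * Ell2_r x s) = φ (Ell2_r x s * (y - 1 - (x - 1)) * Ell2_r x s) := by
      rw [hψ, hφ, hφ, sub_sub_sub_cancel_right, mul_assoc (Ell2_r x s) (Ell2_r x s)]
      exact hw _ hr _ (mul_mem hr (sub_mem hy hx))
    rw [t1, ← map_sub, ← map_sub, ← Ell2_comm hη hy' gy,
      Ell2_alg (Ell2_inv hη hx' gx s) (Ell2_inv' hη hy' gy s), hφ, sub_sub_sub_cancel_right]
    refine (norm_inner_op_le _ _ _).trans ?_
    rw [mul_assoc, ← sq, norm_smul, norm_neg, Complex.norm_real, Real.norm_of_nonneg hs.1.le]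
    refine mul_le_mul_of_nonneg_right ?_ (sq_nonneg _)
    have n1 := Ell2_norm hη hx' gx s
    have n2 := Ell2_norm hη hy' gy s
    have n3 : ‖y - x‖ = ‖x - y‖ := norm_sub_rev _ _
    calc _ ≤ 1 * (‖Ell2_r y s‖ * ‖y - x‖ * ‖Ell2_r x s‖ * ‖y - x‖ * ‖Ell2_r x s‖) := by
          refine mul_le_mul hs.2 ?_ (norm_nonneg _) zero_le_one
          refine (norm_mul_le _ _).trans (mul_le_mul_of_nonneg_right ?_ (norm_nonneg _))
          refine (norm_mul_le _ _).trans (mul_le_mul_of_nonneg_right ?_ (norm_nonneg _))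
          refine (norm_mul_le _ _).trans (mul_le_mul_of_nonneg_right ?_ (norm_nonneg _))
          exact norm_mul_le _ _
      _ ≤ 1 * (2 / η * ‖y - x‖ * (2 / η) * ‖y - x‖ * (2 / η)) := by gcongr
      _ = _ := by rw [n3]; ring
  have hn := MeasureTheory.norm_setIntegral_le_of_norm_le_const
    (μ := MeasureTheory.volume) (by simp) hb
  rw [← key] at hn
  simp only [Real.volume_real_Ioc, sub_zero, zero_le_one, sup_of_le_left, mul_one] at hn
  refine le_trans (le_of_eq ?_) ((Complex.abs_im_le_norm _).trans hn)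
  congr 1
  rw [hψ, map_smul, map_smul, mul_sub, Unitary.star_mul_self_of_mem hx', map_sub, hφ, hφ, hφ, hφ]
  simp [qf, ← Complex.ofReal_pow]

end Crest.Agent.R078T
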