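import Crest.Agent.R078T.Basic

/-! Row 78, tracial stage: spectral projections. -/

set_option autoImplicit false

open scoped InnerProductSpace ComplexConjugate

namespace Crest.Agent.R078T

open Crest.Agent.R121 (Mn Bd)

variable {H : Type*} [NormedAddCommGroup H] [InnerProductSpace ℂ H] [CompleteSpace H]

lemma spec_qf_nonneg {T : H →L[ℂ] H} (h : 0 ≤ T) (ζ : H) : 0 ≤ qf T ζ :=
  ((ContinuousLinearMap.nonneg_iff_isPositive T).1 h).re_inner_nonneg_right ζ

lemma spec_qf_const (t : ℝ) (ζ : H) : qf (algebraMap ℝ (H →L[ℂ] H) t) ζ = t * ‖ζ‖ ^ 2 := by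
  rw [← qf_one, ← qf_smul, Algebra.algebraMap_eq_smul_one]
  rfl

lemma spec_le_of_sq {x y : ℝ} (h : x ^ 2 ≤ y ^ 2) (hy : 0 ≤ y) : x ≤ y :=
  le_of_sq_le_sq h hy

/-- `q` is the orthogonal projection onto the orthogonal complement of the kernel `K` of
`c = cfc (max (s - t) 0) a`. If `T` commutes with `a` so does `T⋆`, both commute with `c`
(`Commute.cfc_real`) and leave `K` invariant, so `T` commutes with `K.starProjection`. The range of
`c' = cfc (max (t - s) 0) a` lies in `K` (`c c' = 0`), so `q c' = 0`; take adjoints. -/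
theorem exists_level {a : H →L[ℂ] H} (ha : IsSelfAdjoint a) (t : ℝ) :
    ∃ q : H →L[ℂ] H, IsStarProjection q ∧ (∀ T, T * a = a * T → T * q = q * T) ∧
      cfc (fun s : ℝ => max (t - s) 0) a * q = 0 ∧
      cfc (fun s : ℝ => max (s - t) 0) a * (1 - q) = 0 := by
  set c := cfc (fun s : ℝ => max (s - t) 0) a with hc
  set c' := cfc (fun s : ℝ => max (t - s) 0) a with hc'
  set P : H →L[ℂ] H := (LinearMap.ker (c : H →ₗ[ℂ] H)).starProjection with hP
  have hPp : IsStarProjection P := isStarProjection_starProjection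
  have hcP : c * P = 0 := by
    ext v
    exact Submodule.starProjection_apply_mem (LinearMap.ker (c : H →ₗ[ℂ] H)) v
  have key : ∀ T : H →L[ℂ] H, c * T = 0 → P * T = T := fun T hT => by
    ext v
    exact Submodule.starProjection_eq_self_iff.2 (congrArg (fun S : H →L[ℂ] H => S v) hT)
  have k2 : ∀ T : H →L[ℂ] H, T * a = a * T → P * (T * P) = T * P := fun T hT => by
    refine key _ ?_
    rw [← mul_assoc, (Commute.cfc_real (show Commute a T from hT.symm) _).eq, mul_assoc, hcP,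
      mul_zero]
  refine ⟨1 - P, hPp.one_sub, fun T hT => ?_, ?_, ?_⟩
  · have h1 := k2 T hT
    have h2 := congrArg star (k2 (star T) (by
      have := congrArg star hT
      rw [star_mul, star_mul, ha.star_eq] at this
      exact this.symm))
    simp only [star_mul, star_star, hPp.isSelfAdjoint.star_eq] at h2
    rw [mul_sub, sub_mul, mul_one, one_mul, ← h1, ← h2, mul_assoc]
  · have h1 : c * c' = 0 := by
      rw [hc, hc', ← cfc_mul _ _ a, ← cfc_zero (R := ℝ) a]
      refine cfc_congr fun s _ => ?_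
      rcases le_total s t with h | h
      · simp [max_eq_right (sub_nonpos.2 h)]
      · simp [max_eq_right (sub_nonpos.2 h)]
    have h2 := congrArg star (key c' h1)
    have h3 : IsSelfAdjoint c' := cfc_predicate _ a
    rw [star_mul, hPp.isSelfAdjoint.star_eq, h3.star_eq] at h2
    rw [mul_sub, mul_one, h2, sub_self]
  · rw [sub_sub_cancel, hcP]

/-- If `f ≥ -K max (t - s) 0` on the spectrum then `cfc f a + K c' ≥ 0` and `c' (q ζ) = 0`. -/
theorem level_nonneg {a q : H →L[ℂ] H} (ha : IsSelfAdjoint a) {g f : ℝ → ℝ} (hg : Continuous g)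
    (hf : ContinuousOn f (spectrum ℝ a)) (hq : cfc g a * q = 0) {K : ℝ}
    (h : ∀ s ∈ spectrum ℝ a, 0 ≤ f s + K * g s) (ζ : H) : 0 ≤ qf (cfc f a) (q ζ) := by
  have h1 : 0 ≤ cfc (fun s => f s + K * g s) a := cfc_nonneg h
  have h2 := spec_qf_nonneg h1 (q ζ)
  rw [cfc_add a f (fun s => K * g s) hf (by fun_prop), cfc_const_mul K g a, qf_add] at h2
  have h3 : cfc g a (q ζ) = 0 := congrArg (fun S : H →L[ℂ] H => S ζ) hq
  have h4 : qf (K • cfc g a) (q ζ) = 0 := by simp [qf, h3]
  linarith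

theorem level_ge {a q : H →L[ℂ] H} (ha : IsSelfAdjoint a) {t : ℝ}
    (hq : cfc (fun s : ℝ => max (t - s) 0) a * q = 0) (ζ : H) :
    t * ‖q ζ‖ ^ 2 ≤ qf a (q ζ) := by
  have h := level_nonneg (f := fun s => s - t) ha (by fun_prop) (by fun_prop) hq (K := 1)
    (fun s _ => by linarith [le_max_left (t - s) 0]) ζ
  rw [cfc_sub _ _ a, cfc_id' ℝ a, cfc_const t a, qf_sub, spec_qf_const] at h
  linarith

theorem level_le {a q : H →L[ℂ] H} (ha : IsSelfAdjoint a) {t : ℝ}
    (hq : cfc (fun s : ℝ => max (s - t) 0) a * q = 0) (ζ : H) :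
    qf a (q ζ) ≤ t * ‖q ζ‖ ^ 2 := by
  have h := level_nonneg (f := fun s => t - s) ha (by fun_prop) (by fun_prop) hq (K := 1)
    (fun s _ => by linarith [le_max_left (s - t) 0]) ζ
  rw [cfc_sub _ _ a, cfc_id' ℝ a, cfc_const t a, qf_sub, spec_qf_const] at h
  linarith

/-- `q` from `exists_level` for `a = n⋆ n` at level `t ^ 2`; `p = n f(a)` with
`f s = (max (√s) t)⁻¹`; `p⋆ p = cfc (s f(s)²) ≤ 1`, and `p⋆ n = cfc (s f s)` with
`s f s - t + t⁻¹ max (t² - s) 0 ≥ 0` for `s ≥ 0`. -/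
theorem exists_cut {N : VonNeumannAlgebra H} {n : H →L[ℂ] H} (hn : n ∈ N) {t : ℝ} (ht : 0 < t) :
    ∃ q ∈ N, ∃ p ∈ N, IsStarProjection q ∧ q * (star n * n) = star n * n * q ∧
      ‖n * (1 - q)‖ ≤ t ∧ (∀ ζ, t * ‖q ζ‖ ≤ ‖n (q ζ)‖) ∧ ‖p‖ ≤ 1 ∧
      ∀ ζ, t * ‖q ζ‖ ^ 2 ≤ (⟪p (q ζ), n (q ζ)⟫_ℂ).re := by
  set a := star n * n with ha
  have hsa : IsSelfAdjoint a := IsSelfAdjoint.star_mul_self n
  have ha0 : 0 ≤ a := star_mul_self_nonneg n
  have haN : a ∈ N := mul_mem (star_mem hn) hn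
  obtain ⟨q, hq, hc, h1, h2⟩ := exists_level hsa (t ^ 2)
  have hqf : ∀ v, qf a v = ‖n v‖ ^ 2 := fun v => by
    rw [← qf_one, ← qf_conj, mul_one]
  set f : ℝ → ℝ := fun s => (max (Real.sqrt s) t)⁻¹ with hf
  have hfc : Continuous f :=
    Continuous.inv₀ (by fun_prop) fun s => (ht.trans_le (le_max_right _ _)).ne'
  have hfs : IsSelfAdjoint (cfc f a) := cfc_predicate _ a
  have e1 : cfc f a * a = cfc (fun s => f s * s) a := by
    rw [cfc_mul _ _ a, cfc_id' ℝ a]
  refine ⟨q, vn_mem_of_comm fun T hT => hc T (vn_comm haN hT), n * cfc f a,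
    mul_mem hn (vn_cfc_real_mem haN f), hq, (hc a rfl).symm, ?_, fun ζ => ?_, ?_, fun ζ => ?_⟩
  · refine ContinuousLinearMap.opNorm_le_bound _ ht.le fun ζ => ?_
    have h3 := level_le hsa h2 ζ
    rw [hqf, ← mul_pow] at h3
    have h4 : ‖(1 - q) ζ‖ ≤ ‖ζ‖ :=
      ((1 - q).le_opNorm ζ).trans (mul_le_of_le_one_left (norm_nonneg _) hq.one_sub.norm_le)
    exact (spec_le_of_sq h3 (by positivity)).trans (by gcongr)
  · have h3 := level_ge hsa h1 ζ
    rw [hqf, ← mul_pow] at h3
    exact spec_le_of_sq h3 (norm_nonneg _)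
  · have e2 : star (n * cfc f a) * (n * cfc f a) = cfc (fun s => f s * s * f s) a := by
      rw [cfc_mul _ _ a, ← e1, star_mul, hfs.star_eq, ha]
      simp only [mul_assoc]
    have h3 : ‖star (n * cfc f a) * (n * cfc f a)‖ ≤ 1 := by
      rw [e2]
      refine norm_cfc_le zero_le_one fun s hs => ?_
      have s0 : 0 ≤ s := spectrum_nonneg_of_nonneg ha0 hs
      have m0 : 0 < max (Real.sqrt s) t := ht.trans_le (le_max_right _ _)
      have m1 : s ≤ max (Real.sqrt s) t * max (Real.sqrt s) t := by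
        conv_lhs => rw [← Real.mul_self_sqrt s0]
        gcongr <;> exact le_max_left _ _
      simp only [hf]
      rw [Real.norm_of_nonneg (by positivity), mul_right_comm, ← mul_inv, inv_mul_le_iff₀
        (by positivity), mul_one]
      exact m1
    rw [CStarRing.norm_star_mul_self] at h3
    nlinarith [norm_nonneg (n * cfc f a)]
  · have h3 := level_nonneg (f := fun s => f s * s - t) hsa (by fun_prop) (by fun_prop) h1
      (K := t⁻¹) (fun s hs => ?_) ζ
    · rw [cfc_sub _ _ a, ← e1, cfc_const t a, qf_sub, spec_qf_const] at h3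
      have e3 : qf (cfc f a * a) (q ζ) = (⟪(n * cfc f a) (q ζ), n (q ζ)⟫_ℂ).re := by
        rw [← inner_star_right, star_mul, hfs.star_eq, qf, ha]
        rfl
      linarith
    have s0 : 0 ≤ s := spectrum_nonneg_of_nonneg ha0 hs
    simp only [hf]
    rcases le_total (Real.sqrt s) t with h | h
    · have h4 : t⁻¹ * (t ^ 2 - s) ≤ t⁻¹ * max (t ^ 2 - s) 0 := by
        gcongr
        exact le_max_left _ _
      have h5 : t⁻¹ * s - t + t⁻¹ * (t ^ 2 - s) = 0 := by
        field_simp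
        ring
      rw [max_eq_right h]
      linarith
    · have h4 : 0 ≤ t⁻¹ * max (t ^ 2 - s) 0 := by positivity
      have h5 : (Real.sqrt s)⁻¹ * s = Real.sqrt s := by
        rw [inv_mul_eq_div, Real.div_sqrt]
      rw [max_eq_left h, h5]
      linarith

/-- `s = 2 q - 1` with `q` from `exists_level` at level `0`:
`qf (s b) ζ = qf b (q ζ) - qf b ((1 - q) ζ)`. -/
theorem exists_sign {b : H →L[ℂ] H} (hb : IsSelfAdjoint b) :
    ∃ s : H →L[ℂ] H, IsSelfAdjoint s ∧ s * s = 1 ∧ (∀ T, T * b = b * T → T * s = s * T) ∧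
      ∀ ζ, 0 ≤ qf (s * b) ζ := by
  obtain ⟨q, hq, hc, h1, h2⟩ := exists_level hb 0
  have hqq : q * q = q := hq.isIdempotentElem
  have hqb := hc b rfl
  refine ⟨q - (1 - q), hq.isSelfAdjoint.sub hq.one_sub.isSelfAdjoint, ?_, fun T hT => ?_,
    fun ζ => ?_⟩
  · simp only [mul_sub, sub_mul, hqq, mul_one, one_mul]
    abel
  · simp only [mul_sub, sub_mul, hc T hT, mul_one, one_mul]
  · have h3 := level_ge hb h1 ζ
    have h4 := level_le hb h2 ζ
    rw [← qf_conj, hq.isSelfAdjoint.star_eq, mul_assoc, hqb, ← mul_assoc, hqq] at h3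
    rw [← qf_conj, hq.one_sub.isSelfAdjoint.star_eq, mul_assoc,
      show b * (1 - q) = (1 - q) * b by rw [mul_sub, sub_mul, hqb, mul_one, one_mul], ← mul_assoc,
      hq.one_sub.isIdempotentElem.eq] at h4
    rw [sub_mul, qf_sub]
    linarith

/-- A self-adjoint contraction is the real part of a unitary in its bicommutant:
`U = h + i √(1 - h²)` (`selfAdjoint.unitarySelfAddISMul`, or by hand with `cfc`). -/
theorem exists_unitary_re {h : H →L[ℂ] H} (hh : IsSelfAdjoint h) (h1 : ‖h‖ ≤ 1) :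
    ∃ U ∈ unitary (H →L[ℂ] H), (∀ T, T * h = h * T → T * U = U * T) ∧
      h = (1 / 2 : ℂ) • (U + star U) := by
  set k := cfc (fun s : ℝ => Real.sqrt (1 - s ^ 2)) h with hk
  have hks : IsSelfAdjoint k := cfc_predicate _ h
  have hc : ∀ T : H →L[ℂ] H, T * h = h * T → T * k = k * T := fun T hT =>
    (Commute.cfc_real (show Commute h T from hT.symm) _).eq.symm
  have hkk : k * k = 1 - h * h := by
    have e : cfc (fun s : ℝ => 1 - s * s) h = 1 - h * h := by
      rw [cfc_sub _ _ h, cfc_mul _ _ h, cfc_id' ℝ h, cfc_const_one ℝ h]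
    rw [hk, ← cfc_mul _ _ h, ← e]
    refine cfc_congr fun s hs => ?_
    rcases subsingleton_or_nontrivial (H →L[ℂ] H) with h0 | h0
    · rw [spectrum.of_subsingleton] at hs
      exact hs.elim
    have h2 : |s| ≤ 1 := (spectrum.norm_le_norm_of_mem hs).trans h1
    rw [Real.mul_self_sqrt (by nlinarith [abs_le.1 h2]), sq]
  have hs : star (h + Complex.I • k) = h - Complex.I • k := by
    rw [star_add, star_smul, hh.star_eq, hks.star_eq, sub_eq_add_neg, ← neg_smul]
    simp
  have hkh := hc h rfl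
  refine ⟨h + Complex.I • k, ⟨?_, ?_⟩, fun T hT => ?_, ?_⟩
  · rw [hs]
    simp only [mul_add, sub_mul, mul_smul_comm, smul_mul_assoc, smul_smul, Complex.I_mul_I, hkh, hkk,
      smul_sub]
    module
  · rw [hs]
    simp only [mul_sub, add_mul, mul_smul_comm, smul_mul_assoc, smul_smul, Complex.I_mul_I, hkh, hkk,
      smul_add]
    module
  · rw [mul_add, add_mul, hT, mul_smul_comm, smul_mul_assoc, hc T hT]
  · rw [hs]
    module

end Crest.Agent.R078T
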