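import Crest.Agent.R078T.FlatA
import Crest.Agent.R078T.Spec

/-! Row 78, tracial stage: bimodular operators: the weak norm controls the norm. -/

set_option autoImplicit false

open scoped InnerProductSpace ComplexConjugate

namespace Crest.Agent.R078T

open Crest.Agent.R121 (Mn Bd)

variable {H : Type*} [NormedAddCommGroup H] [InnerProductSpace ℂ H] [CompleteSpace H]
variable {B : Base H} {M N : VonNeumannAlgebra H}

theorem flat_sq (X : H →L[ℂ] H) (v : H) : ‖X v‖ ^ 2 = (⟪v, (star X * X) v⟫_ℂ).re := by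
  rw [mul_apply_eq_comp, inner_star_right, inner_self_eq_norm_sq_to_K]
  norm_cast

theorem flat_cut {X : H →L[ℂ] H} (hX : X ∈ M) {t : ℝ} (ht : 0 < t) (v : H) :
    ∃ X₁ ∈ M, ‖X₁‖ ≤ t ∧ ‖X₁ v‖ ≤ ‖X v‖ ∧ ‖X v - X₁ v‖ ≤ ‖(star X * X) v‖ / t := by
  obtain ⟨q, hq, -, -, hp, hc, h1, h2, -⟩ := exists_cut hX ht
  have e1 : ∀ w, (star X * X) (q w) = q ((star X * X) w) := fun w =>
    (congrArg (fun T : H →L[ℂ] H => T w) hc).symm
  have e2 : ∀ w, q (q w) = q w := fun w => congrArg (fun T : H →L[ℂ] H => T w) hp.isIdempotentElem.eq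
  have e3 : ∀ a b, ⟪a, q b⟫_ℂ = ⟪q a, b⟫_ℂ := fun a b => by
    rw [← inner_star_right, hp.isSelfAdjoint.star_eq]
  have e4 : X v = X (q v) + X (v - q v) := by rw [← map_add, add_sub_cancel]
  refine ⟨X * (1 - q), mul_mem hX (sub_mem (one_mem _) hq), h1, ?_, ?_⟩
  · have h3 : ⟪X (q v), X (v - q v)⟫_ℂ = 0 := by
      rw [← inner_star_right, ← mul_apply_eq_comp, ← e3, ← e1, map_sub, e2, sub_self,
        map_zero, inner_zero_right]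
    have h4 := norm_add_sq_eq_norm_sq_add_norm_sq_of_inner_eq_zero _ _ h3
    rw [← e4] at h4
    exact abs_le_of_sq_le_sq' (a := ‖X (v - q v)‖) (by nlinarith [norm_nonneg (X (q v))])
      (norm_nonneg _) |>.2
  · rw [show X v - (X * (1 - q)) v = X (q v) from sub_eq_of_eq_add e4, le_div_iff₀ ht]
    have h3 : ‖X (q v)‖ ^ 2 ≤ ‖q v‖ * ‖(star X * X) v‖ := by
      rw [flat_sq, e1, e3, e2]
      exact (Complex.re_le_norm _).trans (norm_inner_le_norm _ _)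
    rcases (norm_nonneg (X (q v))).eq_or_lt with h | h
    · rw [← h, zero_mul]
      exact norm_nonneg _
    · refine le_of_mul_le_mul_left ?_ h
      nlinarith [mul_le_mul_of_nonneg_right (h2 v) (norm_nonneg ((star X * X) v)),
        mul_le_mul_of_nonneg_left h3 ht.le]

theorem flat_poly {l s : ℝ} (hl : 0 < l) (x : ℝ) : s * x ^ 3 - l * x ^ 4 ≤ s ^ 4 / (8 * l ^ 3) := by
  rw [le_div_iff₀ (by positivity)]
  nlinarith [sq_nonneg ((l * x) ^ 2 - s * (l * x) / 2 - s ^ 2 / 4), sq_nonneg (s * (l * x / 2 - s / 4))]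

/-- Cut `X = X (1 - q) + X q` at level `t` (`exists_cut`):
`‖X q v‖² = ⟪q v, X⋆ X v⟫ ≤ ‖q v‖ ‖X⋆ X v‖` gives `‖X q v‖ ≤ ‖X⋆ X v‖ / t`; also
`‖X (1 - q) v‖ ≤ ‖X v‖` and `‖X v‖² ≤ ‖X⋆ X v‖ ‖v‖`. With `x⁴ = ‖X⋆ X v‖²`, `y⁴ = ‖Y⋆ Y v‖²`,
`s = ‖K‖ √‖v‖ / t` the error is `s (y x² + y² x) ≤ s (x³ + y³)` and
`s x³ - l x⁴ ≤ s⁴ / (8 l³)`. -/
theorem flat_trunc (hM : B.Good M) {K : H →L[ℂ] H} {c : ℝ} (hc : 0 ≤ c) (h : B.WS M K c) {v : H}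
    (hv : v ∈ B.V) {l t : ℝ} (hl : 0 < l) (ht : 0 < t) {X Y : H →L[ℂ] H} (hX : X ∈ M)
    (hY : Y ∈ M) :
    (⟪Y v, K (X v)⟫_ℂ).re - l * (‖(star X * X) v‖ ^ 2 + ‖(star Y * Y) v‖ ^ 2) ≤
      c * t ^ 2 * ‖v‖ ^ 2 + ‖K‖ ^ 4 * ‖v‖ ^ 2 / (4 * t ^ 4 * l ^ 3) := by
  obtain ⟨X₁, a1, a2, -, a4⟩ := flat_cut hX ht v
  obtain ⟨Y₁, b1, b2, b3, b4⟩ := flat_cut hY ht v
  have hw : ∀ X : H →L[ℂ] H, ‖X v‖ ≤ √‖(star X * X) v‖ * √‖v‖ := fun X => by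
    rw [← Real.sqrt_mul (norm_nonneg _), mul_comm]
    exact Real.le_sqrt_of_sq_le ((flat_sq X v).trans_le
      ((Complex.re_le_norm _).trans (norm_inner_le_norm _ _)))
  have h1 := hw X
  have h2 := b3.trans (hw Y)
  have h3 := (h X₁ a1 Y₁ b1 v hv).trans
    (show c * ‖X₁‖ * ‖Y₁‖ * ‖v‖ ^ 2 ≤ c * t * t * ‖v‖ ^ 2 by gcongr)
  have e : ⟪Y v, K (X v)⟫_ℂ = ⟪Y₁ v, K (X₁ v)⟫_ℂ + ⟪Y₁ v, K (X v - X₁ v)⟫_ℂ +
      ⟪Y v - Y₁ v, K (X v)⟫_ℂ := by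
    rw [map_sub, inner_sub_right, inner_sub_left]
    ring
  rw [← Real.sq_sqrt (norm_nonneg ((star X * X) v))] at a4 ⊢
  rw [← Real.sq_sqrt (norm_nonneg ((star Y * Y) v))] at b4 ⊢
  have hx := Real.sqrt_nonneg ‖(star X * X) v‖
  have hy := Real.sqrt_nonneg ‖(star Y * Y) v‖
  generalize √‖(star X * X) v‖ = x at *
  generalize √‖(star Y * Y) v‖ = y at *
  have h4 := (norm_inner_op_le K (Y₁ v) (X v - X₁ v)).trans
    (show _ ≤ ‖K‖ * (y * √‖v‖) * (x ^ 2 / t) by gcongr)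
  have h5 := (norm_inner_op_le K (Y v - Y₁ v) (X v)).trans
    (show _ ≤ ‖K‖ * (y ^ 2 / t) * (x * √‖v‖) by gcongr)
  have h6 : (‖K‖ * √‖v‖ / t) ^ 4 / (8 * l ^ 3) * 2 = ‖K‖ ^ 4 * ‖v‖ ^ 2 / (4 * t ^ 4 * l ^ 3) := by
    rw [div_pow, mul_pow, show √‖v‖ ^ 4 = (√‖v‖ ^ 2) ^ 2 by ring, Real.sq_sqrt (norm_nonneg v)]
    field_simp
    ring
  have h7 := flat_poly (s := ‖K‖ * √‖v‖ / t) hl x
  have h8 := flat_poly (s := ‖K‖ * √‖v‖ / t) hl y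
  have h9 := mul_le_mul_of_nonneg_left (show y * x ^ 2 + y ^ 2 * x ≤ x ^ 3 + y ^ 3 by
    nlinarith [mul_nonneg (add_nonneg hx hy) (sq_nonneg (x - y))])
    (show 0 ≤ ‖K‖ * √‖v‖ / t by positivity)
  have h10 : ‖K‖ * √‖v‖ / t * (y * x ^ 2 + y ^ 2 * x) =
      ‖K‖ * (y * √‖v‖) * (x ^ 2 / t) + ‖K‖ * (y ^ 2 / t) * (x * √‖v‖) := by ring
  rw [e, Complex.add_re, Complex.add_re]
  linarith [Complex.re_le_norm ⟪Y₁ v, K (X₁ v)⟫_ℂ, Complex.re_le_norm ⟪Y₁ v, K (X v - X₁ v)⟫_ℂ,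
    Complex.re_le_norm ⟪Y v - Y₁ v, K (X v)⟫_ℂ]

/-- `flat_ind` at `j = n`, `X = Y = 0`, with `l = ‖K‖ / (60 n)`, `t² = 1000 n` (`K = 0` is
trivial); divide by `n` and let `n → ∞`: `60³ / (4 · 10⁶) + 6 / 60 ≤ 1 / 6`. -/
theorem flat_norm (hM : B.Good M) {K a b : H →L[ℂ] H} (h1 : ∀ γ, B.u γ * K = K * B.u γ)
    (h2 : ∀ γ, B.R (B.u γ) * K = K * B.R (B.u γ)) {c : ℝ} (hc : 0 ≤ c) (h : B.WS M K c)
    (ha : a ∈ M) (hb : b ∈ M) (ha1 : ‖B.A (star a * a)‖ ≤ 1) (hb1 : ‖B.A (star b * b)‖ ≤ 1)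
    {v : H} (hv : v ∈ B.V) : (⟪b v, K (a v)⟫_ℂ).re ≤ (1000 * c + ‖K‖ / 6) * ‖v‖ ^ 2 := by
  rcases (norm_nonneg K).eq_or_lt with hK | hK
  · rw [norm_eq_zero.1 hK.symm]
    simp only [zero_apply, inner_zero_right, Complex.zero_re]
    positivity
  obtain ⟨n, hn⟩ := exists_nat_gt (3 * (‖a‖ ^ 4 + ‖b‖ ^ 4))
  have hn0 : (0 : ℝ) < n := lt_of_le_of_lt (by positivity) hn
  have hl : 0 < ‖K‖ / (60 * n) := by positivity
  have h3 := flat_ind hM h1 h2 ha hb ha1 hb1 (α := ‖a‖ ^ 4 + ‖b‖ ^ 4)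
    (le_add_of_nonneg_right (by positivity)) (le_add_of_nonneg_left (by positivity)) hv hl.le
    (fun X hX Y hY => flat_trunc hM hc h hv hl (t := √(1000 * n)) (by positivity) hX hY) n 0
    (zero_mem _) 0 (zero_mem _)
  have e1 : ‖K‖ ^ 4 * ‖v‖ ^ 2 / (4 * √(1000 * n) ^ 4 * (‖K‖ / (60 * n)) ^ 3) =
      n * (27 / 500 * ‖K‖ * ‖v‖ ^ 2) := by
    rw [show √(1000 * n) ^ 4 = (√(1000 * n) ^ 2) ^ 2 by ring, Real.sq_sqrt (by positivity)]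
    field_simp
    ring
  have e2 : ‖K‖ / (60 * n) * (2 * n * (‖a‖ ^ 4 + ‖b‖ ^ 4) + 6 * n ^ 2) * ‖v‖ ^ 2 =
      (3 * (‖a‖ ^ 4 + ‖b‖ ^ 4) / 90 + n / 10) * (‖K‖ * ‖v‖ ^ 2) := by
    field_simp
    ring
  rw [e1, e2, Real.sq_sqrt (by positivity)] at h3
  simp only [zero_apply, inner_zero_left, Complex.zero_re, mul_zero, norm_zero,
    sq (0 : ℝ), add_zero, sub_zero] at h3
  have h4 : 0 ≤ ‖K‖ * ‖v‖ ^ 2 := by positivity
  refine le_of_mul_le_mul_left ?_ hn0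
  nlinarith [mul_le_mul_of_nonneg_right hn.le h4, mul_nonneg hn0.le h4]

theorem flat_A_nonneg (B : Base H) (a : H →L[ℂ] H) : 0 ≤ B.A (star a * a) := by
  refine (ContinuousLinearMap.nonneg_iff_isPositive _).2
    (ContinuousLinearMap.isPositive_def'.2 ⟨?_, fun x => ?_⟩)
  · rw [IsSelfAdjoint, B.star_A, star_mul, star_star]
  · rw [ContinuousLinearMap.reApplyInnerSelf, inner_re_symm, B.inner_A]
    have := mn_re_mono B.m (bd_const 0) (Base.bd_inner_unitary B.u_unitary (star a * a) x x)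
      fun γ => by
        rw [← flat_sq]
        exact sq_nonneg _
    rwa [B.m.map_const] at this

theorem flat_A_conj (hM : B.Good M) {z : H →L[ℂ] H} (hz : z ∈ B.Z) (T : H →L[ℂ] H) :
    B.A (star z * T * z) = star z * B.A T * z := op_ext fun a b => by
  have e : ∀ γ w, z (B.u γ w) = B.u γ (z w) := fun γ w =>
    congrArg (fun T : H →L[ℂ] H => T w) (hM.Z_comm z hz _ (hM.u_mem γ))
  simp only [mul_apply_eq_comp, inner_star_right, B.inner_A, e]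

theorem flat_unit (hM : B.Good M) {K : H →L[ℂ] H} (h1 : ∀ γ, B.u γ * K = K * B.u γ)
    (h2 : ∀ γ, B.R (B.u γ) * K = K * B.R (B.u γ)) {c : ℝ} (hc : 0 ≤ c) (h : B.WS M K c)
    {a b : H →L[ℂ] H} (ha : a ∈ M) (hb : b ∈ M) (ha1 : ‖a B.ξ‖ ≤ 1) (hb1 : ‖b B.ξ‖ ≤ 1) :
    (⟪b B.ξ, K (a B.ξ)⟫_ℂ).re ≤ 2500 * c + 5 / 12 * ‖K‖ := by
  have pa := flat_A_nonneg B a
  have pb := flat_A_nonneg B b
  have ma := mul_mem (star_mem ha) ha
  have mb := mul_mem (star_mem hb) hb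
  set d := B.A (star a * a) + B.A (star b * b) + algebraMap ℝ _ (1 / 2 : ℝ) with hd
  have p0 : (0 : H →L[ℂ] H) ≤ algebraMap ℝ _ (1 / 2 : ℝ) := algebraMap_nonneg _ (by norm_num)
  have e0 : algebraMap ℝ (H →L[ℂ] H) (1 / 2 : ℝ) = ((1 / 2 : ℝ) : ℂ) • 1 := by
    rw [Algebra.algebraMap_eq_smul_one, Complex.coe_smul]
  have dZ : d ∈ B.Z := add_mem (add_mem (hM.A_mem_Z ma) (hM.A_mem_Z mb))
    (e0 ▸ SMulMemClass.smul_mem _ (one_mem _))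
  have dsa : IsSelfAdjoint d := .of_nonneg (add_nonneg (add_nonneg pa pb) p0)
  have hs : ∀ x ∈ spectrum ℝ d, 0 < x := fun x hx => lt_of_lt_of_le (by norm_num)
    ((algebraMap_le_iff_le_spectrum dsa).1 (le_add_of_nonneg_left (add_nonneg pa pb)) x hx)
  have c1 : ContinuousOn (fun s : ℝ => √s) (spectrum ℝ d) := Real.continuous_sqrt.continuousOn
  have c2 : ContinuousOn (fun s : ℝ => (√s)⁻¹) (spectrum ℝ d) :=
    c1.inv₀ fun x hx => (Real.sqrt_pos.2 (hs x hx)).ne'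
  have zZ := hM.cfc_real_mem_Z dZ fun s => √s
  have wZ := hM.cfc_real_mem_Z dZ fun s => (√s)⁻¹
  have zsa : star (cfc (fun s : ℝ => √s) d) = _ := (cfc_predicate (fun s : ℝ => √s) d).star_eq
  have wsa : star (cfc (fun s : ℝ => (√s)⁻¹) d) = _ :=
    (cfc_predicate (fun s : ℝ => (√s)⁻¹) d).star_eq
  have zz : cfc (fun s : ℝ => √s) d * cfc (fun s : ℝ => √s) d = d := by
    rw [← cfc_mul _ _ d c1 c1]
    exact (cfc_congr fun x hx => Real.mul_self_sqrt (hs x hx).le).trans (cfc_id' ℝ d dsa)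
  have wz : cfc (fun s : ℝ => (√s)⁻¹) d * cfc (fun s : ℝ => √s) d = 1 := by
    rw [← cfc_mul _ _ d c2 c1]
    exact (cfc_congr fun x hx => inv_mul_cancel₀ (Real.sqrt_pos.2 (hs x hx)).ne').trans
      (cfc_const_one ℝ d dsa)
  generalize cfc (fun s : ℝ => √s) d = z at *
  generalize cfc (fun s : ℝ => (√s)⁻¹) d = w at *
  have key : ∀ x ∈ M, B.A (star x * x) ≤ d → ‖B.A (star (x * w) * (x * w))‖ ≤ 1 := fun x _ hx => by
    refine (CStarAlgebra.norm_le_one_iff_of_nonneg _ (flat_A_nonneg B _)).2 ?_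
    rw [star_mul, ← mul_assoc, mul_assoc (star w), flat_A_conj hM wZ]
    refine (star_left_conjugate_le_conjugate hx w).trans (le_of_eq ?_)
    rw [wsa, ← zz, ← mul_assoc, wz, one_mul, hM.Z_Z zZ wZ, wz]
  have h3 := flat_norm hM h1 h2 hc h (mul_mem ha (hM.Z_mem w wZ)) (mul_mem hb (hM.Z_mem w wZ))
    (key a ha (by rw [hd, add_assoc]; exact le_add_of_nonneg_right (add_nonneg pb p0)))
    (key b hb ((le_add_of_nonneg_left pa).trans (le_add_of_nonneg_right p0))) ⟨z, zZ, rfl⟩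
  have e : ∀ x : H →L[ℂ] H, (x * w) (z B.ξ) = x B.ξ := fun x => by
    rw [← mul_apply_eq_comp, mul_assoc, wz, mul_one]
  have h4 : ‖z B.ξ‖ ^ 2 ≤ 5 / 2 := by
    have q1 := qf_smul (1 / 2) (1 : H →L[ℂ] H) B.ξ
    rw [qf_one, B.norm_ξ, qf] at q1
    rw [flat_sq, zsa, zz, hd, e0, add_apply, add_apply,
      inner_add_right, inner_add_right, hM.inner_A_V ma B.ξ_mem_V B.ξ_mem_V,
      hM.inner_A_V mb B.ξ_mem_V B.ξ_mem_V, Complex.add_re, Complex.add_re, ← flat_sq, ← flat_sq, q1]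
    nlinarith [norm_nonneg (a B.ξ), norm_nonneg (b B.ξ)]
  rw [e, e] at h3
  nlinarith [mul_le_mul_of_nonneg_left h4 (show 0 ≤ 1000 * c + ‖K‖ / 6 by positivity)]

/-- For `a, b ∈ M` with `‖a ξ‖, ‖b ξ‖ ≤ 1` put `d = A (a⋆ a) + A (b⋆ b) + 1 / 2 ∈ Z` (positive,
`≥ 1 / 2`), `z = √d`, `z' = z⁻¹ ∈ Z` (`cfc_real_mem_Z`), `v = z ξ`, `‖v‖² ≤ 5 / 2`
(`inner_A_V`). Then `A ((a z')⋆ (a z')) = z' A (a⋆ a) z' ≤ 1` and `a z' v = a ξ`, so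
`re ⟪b ξ, K a ξ⟫ ≤ 2500 c + 5 ‖K‖ / 12`. Scaling, phases and density give
`‖K‖ ≤ 2500 c + 5 ‖K‖ / 12`. (`c ≥ 0` from `h` at `a = b = 1`, `v = ξ`.) -/
theorem flatten (hM : B.Good M) {K : H →L[ℂ] H} (h1 : ∀ γ, B.u γ * K = K * B.u γ)
    (h2 : ∀ γ, B.R (B.u γ) * K = K * B.R (B.u γ)) {c : ℝ} (h : B.WS M K c) :
    ‖K‖ ≤ 10 ^ 4 * c := by
  have : Nontrivial H := ⟨⟨B.ξ, 0, norm_ne_zero_iff.1 (B.norm_ξ ▸ one_ne_zero)⟩⟩
  have hc : 0 ≤ c := by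
    simpa [B.norm_ξ] using (norm_nonneg _).trans (h 1 (one_mem _) 1 (one_mem _) _ B.ξ_mem_V)
  have h3 : ∀ x y : H, (⟪y, K x⟫_ℂ).re ≤ (2500 * c + 5 / 12 * ‖K‖) * (‖x‖ * ‖y‖) := fun x y => by
    refine DenseRange.induction_on₂ hM.cyc (p := fun x y => (⟪y, K x⟫_ℂ).re ≤
      (2500 * c + 5 / 12 * ‖K‖) * (‖x‖ * ‖y‖)) (isClosed_le (by fun_prop) (by fun_prop))
      (fun a b => ?_) x y
    rcases (norm_nonneg (a.1 B.ξ)).eq_or_lt with ha | ha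
    · simp [norm_eq_zero.1 ha.symm]
    rcases (norm_nonneg (b.1 B.ξ)).eq_or_lt with hb | hb
    · simp [norm_eq_zero.1 hb.symm]
    have h4 := flat_unit hM h1 h2 hc h (vn_smul_mem ((‖a.1 B.ξ‖⁻¹ : ℝ) : ℂ) a.2)
      (vn_smul_mem ((‖b.1 B.ξ‖⁻¹ : ℝ) : ℂ) b.2) (by simp [norm_smul, ha.ne'])
      (by simp [norm_smul, hb.ne'])
    rw [smul_apply, smul_apply, map_smul, inner_smul_left,
      inner_smul_right, Complex.conj_ofReal, Complex.re_ofReal_mul, Complex.re_ofReal_mul,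
      inv_mul_le_iff₀ hb, inv_mul_le_iff₀ ha] at h4
    linarith
  have h4 : ‖K‖ ≤ 2500 * c + 5 / 12 * ‖K‖ := by
    refine K.opNorm_le_bound (by positivity) fun x => ?_
    have h5 := h3 x (K x)
    rw [← inner_star_right, ← mul_apply_eq_comp, ← flat_sq] at h5
    rcases (norm_nonneg (K x)).eq_or_lt with h6 | h6
    · rw [← h6]
      positivity
    · exact le_of_mul_le_mul_right (by linarith) h6
  linarith

end Crest.Agent.R078T
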