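import Crest.Agent.R078T.Basic

/-! Row 78, tracial stage: randomisation with fourth moment control. -/

set_option autoImplicit false

open scoped InnerProductSpace ComplexConjugate

namespace Crest.Agent.R078T

open Crest.Agent.R121 (Mn Bd)

variable {H : Type*} [NormedAddCommGroup H] [InnerProductSpace ℂ H] [CompleteSpace H]
variable {B : Base H} {M N : VonNeumannAlgebra H}

lemma flatA_mean {X : Type*} (m : Mn X) {f g : X → ℂ} (hf : Bd f) (hg : Bd g) (p T : ℝ)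
    (h : ∀ x, T ≤ p * (f x).re + p * (g x).re) : T ≤ p * (m f).re + p * (m g).re := by
  have := mn_re_mono m (bd_const (T : ℂ)) (bd_add (bd_mul_left (p : ℂ) hf) (bd_mul_left (p : ℂ) hg))
    fun x => by simpa using h x
  rw [m.map_const, m.map_add, m.map_mul_left, m.map_mul_left] at this
  simpa using this

/-- Both sides lie in `Z`; test the difference `c` against `c ξ` (`inner_A_V`, `trace`, `sep`). -/
theorem A_mul_comm (hM : B.Good M) {a b : H →L[ℂ] H} (ha : a ∈ M) (hb : b ∈ M) :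
    B.A (a * b) = B.A (b * a) := by
  have hc : B.A (a * b) - B.A (b * a) ∈ B.Z :=
    sub_mem (hM.A_mem_Z (mul_mem ha hb)) (hM.A_mem_Z (mul_mem hb ha))
  have hw : (B.A (a * b) - B.A (b * a)) B.ξ ∈ B.V := Base.Z_apply_mem_V hc B.ξ_mem_V
  have h0 : ⟪(B.A (a * b) - B.A (b * a)) B.ξ, (B.A (a * b) - B.A (b * a)) B.ξ⟫_ℂ = 0 := by
    conv_lhs => rw [sub_apply (B.A (a * b)) (B.A (b * a)) B.ξ]
    rw [← sub_apply (B.A (a * b)) (B.A (b * a)) B.ξ]
    nth_rewrite 2 [sub_apply]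
    rw [inner_sub_right, hM.inner_A_V (mul_mem ha hb) B.ξ_mem_V hw,
      hM.inner_A_V (mul_mem hb ha) B.ξ_mem_V hw, hM.trace ha hb B.ξ_mem_V hw, sub_self]
  exact sub_eq_zero.1 (hM.sep (hM.Z_mem _ hc) (inner_self_eq_zero.1 h0))

/-- One more random summand. For `X' = X ± h a g`, the sum over the two signs of `‖X'⋆ X' v‖²` is
`2 ‖(P + Q) v‖² + 2 ‖(S + S⋆) v‖²` with `P = X⋆ X`, `Q = g⋆ a⋆ a g`, `S = X⋆ h a g`.
`‖Q v‖ ≤ ‖a‖² ‖v‖`; `‖S v‖ = ‖X⋆ h a v‖ = ‖a⋆ h⋆ X v‖ = ‖S⋆ v‖` (`apply_apply_V`,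
`norm_star_V`). -/
theorem flat_m4 (hM : B.Good M) {a X : H →L[ℂ] H} (ha : a ∈ M) (hX : X ∈ M) {v : H}
    (hv : v ∈ B.V) (γ δ : B.G) :
    ‖(star (X + B.u δ * a * B.u γ) * (X + B.u δ * a * B.u γ)) v‖ ^ 2 +
      ‖(star (X - B.u δ * a * B.u γ) * (X - B.u δ * a * B.u γ)) v‖ ^ 2 ≤
      2 * ‖(star X * X) v‖ ^ 2 + 2 * ‖a‖ ^ 4 * ‖v‖ ^ 2 +
      4 * (⟪B.u γ ((star X * X) v), (star a * a) (B.u γ v)⟫_ℂ).re +
      8 * (⟪star (B.u δ) (X v), (a * star a) (star (B.u δ) (X v))⟫_ℂ).re := by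
  have hg := B.u_unitary γ
  have hh := B.u_unitary δ
  have hgM := hM.u_mem γ
  have hhM := hM.u_mem δ
  set g := B.u γ with hgdef
  set h := B.u δ with hhdef
  have hW : star (h * a * g) * (h * a * g) = star g * (star a * a) * g := by
    rw [star_mul, star_mul]
    calc star g * (star a * star h) * (h * a * g)
        = star g * star a * (star h * h) * a * g := by simp only [mul_assoc]
      _ = star g * (star a * a) * g := by
          rw [Unitary.star_mul_self_of_mem hh]; simp only [mul_assoc, one_mul]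
  set P := star X * X with hP
  set Q := star g * (star a * a) * g with hQ
  set S := star X * (h * a * g) with hS
  have e1 : star (X + h * a * g) * (X + h * a * g) = (P + Q) + (S + star S) := by
    rw [star_add, add_mul, mul_add, mul_add, hW, hS, star_mul (star X), star_star]
    abel
  have e2 : star (X - h * a * g) * (X - h * a * g) = (P + Q) - (S + star S) := by
    rw [star_sub, sub_mul, mul_sub, mul_sub, hW, hS, star_mul (star X), star_star]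
    abel
  have hSM : S ∈ M := mul_mem (star_mem hX) (mul_mem (mul_mem hhM ha) hgM)
  have par := parallelogram_law_with_norm ℂ ((P + Q) v) ((S + star S) v)
  have n1 : ‖(P + Q) v‖ ^ 2 = ‖P v‖ ^ 2 + 2 * (⟪g (P v), (star a * a) (g v)⟫_ℂ).re +
      ‖Q v‖ ^ 2 := by
    rw [add_apply, @norm_add_sq ℂ, ← inner_star_right g]
    rfl
  have n2 : ‖Q v‖ ≤ ‖a‖ ^ 2 * ‖v‖ := by
    refine (Q.le_opNorm v).trans (mul_le_mul_of_nonneg_right ?_ (norm_nonneg v))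
    refine (Base.norm_conj_le hg).trans ?_
    rw [CStarRing.norm_star_mul_self, sq]
  have n2' : ‖Q v‖ ^ 2 ≤ ‖a‖ ^ 4 * ‖v‖ ^ 2 := by
    have := pow_le_pow_left₀ (norm_nonneg _) n2 2
    calc ‖Q v‖ ^ 2 ≤ (‖a‖ ^ 2 * ‖v‖) ^ 2 := this
      _ = ‖a‖ ^ 4 * ‖v‖ ^ 2 := by ring
  have hT : star X * h * a ∈ M := mul_mem (mul_mem (star_mem hX) hhM) ha
  have n3 : ‖S v‖ = ‖star a (star h (X v))‖ := by
    have e : S v = (star X * h * a) (g v) := by
      simp only [hS, mul_apply_eq_comp]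
    rw [e, hM.apply_apply_V hT hgM hv, norm_unitary_apply (B.R_unitary hg),
      ← hM.norm_star_V hT hv]
    simp only [star_mul, star_star, mul_apply_eq_comp]
  have n4 : ‖star a (star h (X v))‖ ^ 2 =
      (⟪star h (X v), (a * star a) (star h (X v))⟫_ℂ).re := by
    rw [mul_apply_eq_comp, ← inner_star_left a, @inner_self_eq_norm_sq_to_K ℂ]
    norm_cast
  have n5 : ‖(S + star S) v‖ ≤ 2 * ‖S v‖ := by
    rw [add_apply]
    refine (norm_add_le _ _).trans ?_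
    rw [hM.norm_star_V hSM hv]
    linarith
  have n6 : ‖(S + star S) v‖ ^ 2 ≤ 4 * ‖S v‖ ^ 2 := by
    have := pow_le_pow_left₀ (norm_nonneg _) n5 2
    linarith
  rw [e1, e2, add_apply (P + Q), sub_apply (P + Q), ← n4,
    ← n3]
  nlinarith

/-- Backward induction on the number `j` of remaining summands. Apply the hypothesis for `j` to
`(X ± h a g, Y ± h b g)`, add the two inequalities (the cross terms cancel;
`⟪h b g v, K h a g v⟫ = ⟪b v, K a v⟫` and `‖h a g v‖ = ‖a v‖ ≤ ‖v‖` since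
`‖a v‖² = ⟪v, A (a⋆ a) v⟫`), use `flat_m4`, then take the mean over `γ` (`inner_A`) and over `δ`
(`inner_A'`): with `c = A (a⋆ a) = A (a a⋆) ∈ Z`, `‖c‖ ≤ 1`, both means are
`⟪X v, c X v⟫ ≤ ‖X v‖²`. -/
theorem flat_ind (hM : B.Good M) {K a b : H →L[ℂ] H} (h1 : ∀ γ, B.u γ * K = K * B.u γ)
    (h2 : ∀ γ, B.R (B.u γ) * K = K * B.R (B.u γ)) (ha : a ∈ M) (hb : b ∈ M)
    (ha1 : ‖B.A (star a * a)‖ ≤ 1) (hb1 : ‖B.A (star b * b)‖ ≤ 1) {α : ℝ} (hα : ‖a‖ ^ 4 ≤ α)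
    (hβ : ‖b‖ ^ 4 ≤ α) {v : H} (hv : v ∈ B.V) {l c₀ : ℝ} (hl : 0 ≤ l)
    (h0 : ∀ X ∈ M, ∀ Y ∈ M, (⟪Y v, K (X v)⟫_ℂ).re -
      l * (‖(star X * X) v‖ ^ 2 + ‖(star Y * Y) v‖ ^ 2) ≤ c₀) (j : ℕ) :
    ∀ X ∈ M, ∀ Y ∈ M, (⟪Y v, K (X v)⟫_ℂ).re -
      l * (‖(star X * X) v‖ ^ 2 + ‖(star Y * Y) v‖ ^ 2 + 6 * j * (‖X v‖ ^ 2 + ‖Y v‖ ^ 2)) ≤
      c₀ - j * (⟪b v, K (a v)⟫_ℂ).re + l * (2 * j * α + 6 * j ^ 2) * ‖v‖ ^ 2 := by
  have hcA : ∀ {a : H →L[ℂ] H}, a ∈ M → ‖B.A (star a * a)‖ ≤ 1 → ∀ w : H,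
      (⟪w, B.A (star a * a) w⟫_ℂ).re ≤ ‖w‖ ^ 2 := fun {a} _ ha1 w => by
    have h := abs_qf_le (B.A (star a * a)) w
    have h' := mul_le_mul_of_nonneg_right ha1 (sq_nonneg ‖w‖)
    have h'' := le_abs_self (qf (B.A (star a * a)) w)
    change qf (B.A (star a * a)) w ≤ _
    linarith
  -- the norm of one summand
  have hW : ∀ {a : H →L[ℂ] H}, a ∈ M → ‖B.A (star a * a)‖ ≤ 1 → ∀ γ δ : B.G,
      ‖(B.u δ * a * B.u γ) v‖ ^ 2 ≤ ‖v‖ ^ 2 := fun {a} ha ha1 γ δ => by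
    have e : ‖(B.u δ * a * B.u γ) v‖ = ‖a v‖ := by
      rw [mul_apply_eq_comp, mul_apply_eq_comp, norm_unitary_apply (B.u_unitary δ),
        hM.apply_apply_V ha (hM.u_mem γ) hv, norm_unitary_apply (B.R_unitary (B.u_unitary γ))]
    have e2 : ‖a v‖ ^ 2 = (⟪v, B.A (star a * a) v⟫_ℂ).re := by
      rw [hM.inner_A_V (mul_mem (star_mem ha) ha) hv hv, mul_apply_eq_comp, inner_star_right,
        @inner_self_eq_norm_sq_to_K ℂ]
      norm_cast
    rw [e, e2]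
    exact hcA ha ha1 v
  -- the diagonal term
  have hK : ∀ γ δ : B.G, ⟪(B.u δ * b * B.u γ) v, K ((B.u δ * a * B.u γ) v)⟫_ℂ =
      ⟪b v, K (a v)⟫_ℂ := fun γ δ => by
    have k1 : ∀ ζ, K (B.u δ ζ) = B.u δ (K ζ) := fun ζ =>
      (congrArg (fun T : H →L[ℂ] H => T ζ) (h1 δ)).symm
    have k2 : ∀ ζ, K (B.R (B.u γ) ζ) = B.R (B.u γ) (K ζ) := fun ζ =>
      (congrArg (fun T : H →L[ℂ] H => T ζ) (h2 γ)).symm
    rw [mul_apply_eq_comp, mul_apply_eq_comp, mul_apply_eq_comp, mul_apply_eq_comp, k1,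
      inner_unitary (B.u_unitary δ), hM.apply_apply_V ha (hM.u_mem γ) hv,
      hM.apply_apply_V hb (hM.u_mem γ) hv, k2, inner_unitary (B.R_unitary (B.u_unitary γ))]
  -- the two means
  have hm1 : ∀ {a X : H →L[ℂ] H}, a ∈ M → X ∈ M → ‖B.A (star a * a)‖ ≤ 1 →
      (B.m fun γ => ⟪B.u γ ((star X * X) v), (star a * a) (B.u γ v)⟫_ℂ).re ≤ ‖X v‖ ^ 2 :=
    fun {a X} ha hX ha1 => by
    have hc := hM.A_mem_Z (mul_mem (star_mem ha) ha)
    rw [← B.inner_A, mul_apply_eq_comp, inner_star_left, (hM.cz hX).apply hc]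
    exact hcA ha ha1 _
  have hm2 : ∀ {a X : H →L[ℂ] H}, a ∈ M → ‖B.A (star a * a)‖ ≤ 1 →
      (B.m fun δ => ⟪star (B.u δ) (X v), (a * star a) (star (B.u δ) (X v))⟫_ℂ).re ≤ ‖X v‖ ^ 2 :=
    fun {a X} ha ha1 => by
    rw [← B.inner_A', A_mul_comm hM ha (star_mem ha)]
    exact hcA ha ha1 _
  have hsu : ∀ δ : B.G, star (B.u δ) ∈ unitary (H →L[ℂ] H) := fun δ =>
    Unitary.star_mem (B.u_unitary δ)
  induction j with
  | zero =>
    intro X hX Y hY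
    have := h0 X hX Y hY
    simp only [Nat.cast_zero]
    linarith
  | succ j ih =>
    intro X hX Y hY
    have hj : (0 : ℝ) ≤ j := Nat.cast_nonneg j
    -- the pointwise inequality
    have pt : ∀ γ δ : B.G,
        (⟪Y v, K (X v)⟫_ℂ).re + (⟪b v, K (a v)⟫_ℂ).re -
          l * (‖(star X * X) v‖ ^ 2 + ‖(star Y * Y) v‖ ^ 2 + 2 * α * ‖v‖ ^ 2 +
            6 * j * (‖X v‖ ^ 2 + ‖Y v‖ ^ 2) + 12 * j * ‖v‖ ^ 2) -
          (c₀ - j * (⟪b v, K (a v)⟫_ℂ).re + l * (2 * j * α + 6 * j ^ 2) * ‖v‖ ^ 2) ≤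
        (2 * l * (⟪B.u γ ((star X * X) v), (star a * a) (B.u γ v)⟫_ℂ).re +
          2 * l * (⟪B.u γ ((star Y * Y) v), (star b * b) (B.u γ v)⟫_ℂ).re) +
        (4 * l * (⟪star (B.u δ) (X v), (a * star a) (star (B.u δ) (X v))⟫_ℂ).re +
          4 * l * (⟪star (B.u δ) (Y v), (b * star b) (star (B.u δ) (Y v))⟫_ℂ).re) := by
      intro γ δ
      have hWa : B.u δ * a * B.u γ ∈ M := mul_mem (mul_mem (hM.u_mem δ) ha) (hM.u_mem γ)
      have hWb : B.u δ * b * B.u γ ∈ M := mul_mem (mul_mem (hM.u_mem δ) hb) (hM.u_mem γ)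
      have i1 := ih _ (add_mem hX hWa) _ (add_mem hY hWb)
      have i2 := ih _ (sub_mem hX hWa) _ (sub_mem hY hWb)
      have f1 := flat_m4 hM ha hX hv γ δ
      have f2 := flat_m4 hM hb hY hv γ δ
      have w1 := hW ha ha1 γ δ
      have w2 := hW hb hb1 γ δ
      have k := hK γ δ
      have c1 : (⟪(Y + B.u δ * b * B.u γ) v, K ((X + B.u δ * a * B.u γ) v)⟫_ℂ).re +
          (⟪(Y - B.u δ * b * B.u γ) v, K ((X - B.u δ * a * B.u γ) v)⟫_ℂ).re =
          2 * (⟪Y v, K (X v)⟫_ℂ).re + 2 * (⟪b v, K (a v)⟫_ℂ).re := by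
        rw [← k]
        simp only [add_apply, sub_apply, map_add, map_sub,
          inner_add_left, inner_add_right, inner_sub_left, inner_sub_right, Complex.add_re,
          Complex.sub_re]
        ring
      have p1 : ‖(X + B.u δ * a * B.u γ) v‖ ^ 2 + ‖(X - B.u δ * a * B.u γ) v‖ ^ 2 =
          2 * ‖X v‖ ^ 2 + 2 * ‖(B.u δ * a * B.u γ) v‖ ^ 2 := by
        have := parallelogram_law_with_norm ℂ (X v) ((B.u δ * a * B.u γ) v)
        rw [add_apply, sub_apply]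
        linarith
      have p2 : ‖(Y + B.u δ * b * B.u γ) v‖ ^ 2 + ‖(Y - B.u δ * b * B.u γ) v‖ ^ 2 =
          2 * ‖Y v‖ ^ 2 + 2 * ‖(B.u δ * b * B.u γ) v‖ ^ 2 := by
        have := parallelogram_law_with_norm ℂ (Y v) ((B.u δ * b * B.u γ) v)
        rw [add_apply, sub_apply]
        linarith
      have a1 := mul_le_mul_of_nonneg_right hα (sq_nonneg ‖v‖)
      have a2 := mul_le_mul_of_nonneg_right hβ (sq_nonneg ‖v‖)
      have j1 := mul_le_mul_of_nonneg_left w1 hj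
      have j2 := mul_le_mul_of_nonneg_left w2 hj
      generalize ‖(star (X + B.u δ * a * B.u γ) * (X + B.u δ * a * B.u γ)) v‖ ^ 2 = x1 at *
      generalize ‖(star (X - B.u δ * a * B.u γ) * (X - B.u δ * a * B.u γ)) v‖ ^ 2 = x2 at *
      generalize ‖(star (Y + B.u δ * b * B.u γ) * (Y + B.u δ * b * B.u γ)) v‖ ^ 2 = y1 at *
      generalize ‖(star (Y - B.u δ * b * B.u γ) * (Y - B.u δ * b * B.u γ)) v‖ ^ 2 = y2 at *
      generalize ‖(X + B.u δ * a * B.u γ) v‖ ^ 2 = s1 at *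
      generalize ‖(X - B.u δ * a * B.u γ) v‖ ^ 2 = s2 at *
      generalize ‖(Y + B.u δ * b * B.u γ) v‖ ^ 2 = t1 at *
      generalize ‖(Y - B.u δ * b * B.u γ) v‖ ^ 2 = t2 at *
      have key : x1 + y1 + 6 * j * (s1 + t1) + (x2 + y2 + 6 * j * (s2 + t2)) ≤
          2 * (‖(star X * X) v‖ ^ 2 + ‖(star Y * Y) v‖ ^ 2 + 2 * α * ‖v‖ ^ 2 +
            6 * j * (‖X v‖ ^ 2 + ‖Y v‖ ^ 2) + 12 * j * ‖v‖ ^ 2) +
          (4 * (⟪B.u γ ((star X * X) v), (star a * a) (B.u γ v)⟫_ℂ).re +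
            4 * (⟪B.u γ ((star Y * Y) v), (star b * b) (B.u γ v)⟫_ℂ).re +
            8 * (⟪star (B.u δ) (X v), (a * star a) (star (B.u δ) (X v))⟫_ℂ).re +
            8 * (⟪star (B.u δ) (Y v), (b * star b) (star (B.u δ) (Y v))⟫_ℂ).re) := by
        have q : 6 * (j : ℝ) * (s1 + t1) + 6 * j * (s2 + t2) =
            6 * j * ((s1 + s2) + (t1 + t2)) := by ring
        rw [p1, p2] at q
        nlinarith
      have key2 := mul_le_mul_of_nonneg_left key hl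
      nlinarith
    have m1 : ∀ δ : B.G,
        (⟪Y v, K (X v)⟫_ℂ).re + (⟪b v, K (a v)⟫_ℂ).re -
          l * (‖(star X * X) v‖ ^ 2 + ‖(star Y * Y) v‖ ^ 2 + 2 * α * ‖v‖ ^ 2 +
            6 * j * (‖X v‖ ^ 2 + ‖Y v‖ ^ 2) + 12 * j * ‖v‖ ^ 2) -
          (c₀ - j * (⟪b v, K (a v)⟫_ℂ).re + l * (2 * j * α + 6 * j ^ 2) * ‖v‖ ^ 2) -
          2 * l * (‖X v‖ ^ 2 + ‖Y v‖ ^ 2) ≤
        4 * l * (⟪star (B.u δ) (X v), (a * star a) (star (B.u δ) (X v))⟫_ℂ).re +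
          4 * l * (⟪star (B.u δ) (Y v), (b * star b) (star (B.u δ) (Y v))⟫_ℂ).re := by
      intro δ
      have := flatA_mean B.m (Base.bd_inner_unitary B.u_unitary (star a * a) ((star X * X) v) v)
        (Base.bd_inner_unitary B.u_unitary (star b * b) ((star Y * Y) v) v) (2 * l) _
        fun γ => sub_le_iff_le_add.2 (pt γ δ)
      have q1 := mul_le_mul_of_nonneg_left (hm1 ha hX ha1) hl
      have q2 := mul_le_mul_of_nonneg_left (hm1 hb hY hb1) hl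
      linarith
    have m2 := flatA_mean B.m (Base.bd_inner_unitary hsu (a * star a) (X v) (X v))
      (Base.bd_inner_unitary hsu (b * star b) (Y v) (Y v)) (4 * l) _ m1
    have q1 := mul_le_mul_of_nonneg_left (hm2 (X := X) ha ha1) hl
    have q2 := mul_le_mul_of_nonneg_left (hm2 (X := Y) hb hb1) hl
    have q3 := mul_nonneg hl (sq_nonneg ‖v‖)
    rw [Nat.cast_succ]
    nlinarith

end Crest.Agent.R078T
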