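import Crest.Agent.R078T.Tel
import Crest.Agent.R121.Minimax

/-! Row 78, tracial stage: the Hahn–Banach step. -/

set_option autoImplicit false

open scoped InnerProductSpace ComplexConjugate

namespace Crest.Agent.R078T

open Crest.Agent.R121 (Mn Bd)

variable {H : Type*} [NormedAddCommGroup H] [InnerProductSpace ℂ H] [CompleteSpace H]
variable {B : Base H} {M N : VonNeumannAlgebra H}
variable {β : (H →L[ℂ] H) → (H →L[ℂ] H)} {δ O c : ℝ}

omit [CompleteSpace H] in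
lemma kap_qf_smul (T : H →L[ℂ] H) (t : ℝ) (v : H) : qf T ((t : ℂ) • v) = t ^ 2 * qf T v := by
  simp only [qf, map_smul, inner_smul_left, inner_smul_right, Complex.conj_ofReal,
    Complex.re_ofReal_mul]
  ring

lemma kap_O_nonneg (hβ : B.Cob M β δ O c) : 0 ≤ O := by
  obtain ⟨s, -, -, -, h⟩ := hβ.left 1 (one_mem M) (one_mem _)
  have := (abs_nonneg _).trans (h 1 (one_mem M) (one_mem _) B.ξ B.ξ_mem_V)
  rwa [B.norm_ξ, one_pow, mul_one] at this

lemma kap_beta_one (hβ : B.Cob M β δ O c) {w : H} (hw : w ∈ B.V) :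
    |qf (β 1) w| ≤ O * ‖w‖ ^ 2 := by
  obtain ⟨s, -, -, -, h⟩ := hβ.left 1 (one_mem M) (one_mem _)
  have := h 1 (one_mem M) (one_mem _) w hw
  rw [mul_one, one_apply_eq_self, sub_self, sub_self, zero_sub, sub_zero, abs_neg] at this
  exact this

lemma kap_sqrt (hM : B.Good M) {e : H →L[ℂ] H} (he : e ∈ B.Z) (h0 : 0 ≤ e) {ν : ℝ} (hν : 0 < ν) :
    ∃ s s' : H →L[ℂ] H, s ∈ B.Z ∧ s' ∈ B.Z ∧ star s' = s' ∧ s' * s = 1 ∧
      s' * (e + (ν : ℂ) • 1) * s' = 1 := by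
  have hsa : IsSelfAdjoint e := IsSelfAdjoint.of_nonneg h0
  have hsp : ∀ t ∈ spectrum ℝ e, 0 < t + ν := fun t ht =>
    add_pos_of_nonneg_of_pos (spectrum_nonneg_of_nonneg h0 ht) hν
  have c1 : ContinuousOn (fun t : ℝ => √(t + ν)) (spectrum ℝ e) := by fun_prop
  have c2 : ContinuousOn (fun t : ℝ => (√(t + ν))⁻¹) (spectrum ℝ e) :=
    c1.inv₀ fun t ht => (Real.sqrt_pos.2 (hsp t ht)).ne'
  have e1 : cfc (fun t : ℝ => (√(t + ν))⁻¹) e * cfc (fun t : ℝ => √(t + ν)) e = 1 := by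
    rw [← cfc_mul _ _ e c2 c1, ← cfc_one ℝ e hsa]
    exact cfc_congr fun t ht => inv_mul_cancel₀ (Real.sqrt_pos.2 (hsp t ht)).ne'
  have e2 : cfc (fun t : ℝ => √(t + ν)) e * cfc (fun t : ℝ => (√(t + ν))⁻¹) e = 1 := by
    rw [← cfc_mul _ _ e c1 c2, ← cfc_one ℝ e hsa]
    exact cfc_congr fun t ht => mul_inv_cancel₀ (Real.sqrt_pos.2 (hsp t ht)).ne'
  have e3 : cfc (fun t : ℝ => √(t + ν)) e * cfc (fun t : ℝ => √(t + ν)) e = e + (ν : ℂ) • 1 := by
    rw [← cfc_mul _ _ e c1 c1]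
    have : cfc (fun t : ℝ => t + ν) e = e + (ν : ℂ) • 1 := by
      rw [cfc_add_const ν (fun t : ℝ => t) e, cfc_id' ℝ e hsa, Algebra.algebraMap_eq_smul_one,
        Complex.coe_smul]
    rw [← this]
    exact cfc_congr fun t ht => Real.mul_self_sqrt (hsp t ht).le
  refine ⟨_, _, hM.cfc_real_mem_Z he _, hM.cfc_real_mem_Z he _,
    (cfc_predicate (R := ℝ) _ e : IsSelfAdjoint _), e1, ?_⟩
  rw [← e3, ← mul_assoc, e1, one_mul, e2]

lemma kap_tst_wm {X : Type*} (m : Mn X) {F : X → (H →L[ℂ] H)} {d e : ℝ}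
    (hF : ∀ x, B.Tst M (F x) d e) : B.Tst M (wm m F) d e := by
  have hb : Bd F := ⟨d, fun x => (hF x).norm_le⟩
  refine ⟨norm_wm_le m fun x => (hF x).norm_le, fun z hz => wm_comm m hb fun x => (hF x).cz z hz,
    fun a ha b hb' v hv => ?_⟩
  rw [inner_wm m hb]
  exact m.norm_le fun x => (hF x).ws a ha b hb' v hv

lemma kap_mn_fin {ι : Type*} [Fintype ι] (m : Mn ι) :
    ∃ p : ι → ℝ, (∀ i, 0 ≤ p i) ∧ ∀ f : ι → ℝ, (m fun i => (f i : ℂ)).re = ∑ i, p i * f i := by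
  classical
  refine ⟨fun i => (m fun x => if x = i then 1 else 0).re, fun i => ?_, fun f => ?_⟩
  · refine m.le_re ⟨1, fun x => ?_⟩ fun x => ?_
    · split_ifs <;> simp
    · split_ifs <;> simp
  · have : (fun x => (f x : ℂ)) = fun x => ∑ i, (f i : ℂ) * (if x = i then 1 else 0) := by
      ext x; simp
    rw [this, m.map_sum, Complex.re_sum]
    refine Finset.sum_congr rfl fun i _ => ?_
    rw [m.map_mul_left, Complex.re_ofReal_mul, mul_comm]

/-- With `w i = z i ξ` put `d = ∑ p i (z i)⋆ z i + ν ∈ Z` (positive, `≥ ν`), `w = √d ξ`,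
`r i = √(p i) z i d^(-1/2)`, and one more index with `r = √ν d^(-1/2)`, `a = b = 1` (index type
`Option ι`); `r i w = √(p i) w i`, `‖w‖² = ∑ p i ‖w i‖² + ν`; apply `tel`; `ν` small. -/
theorem tel_weighted (hM : B.Good M) (hβ : B.Cob M β δ O c) {ι : Type*} [Fintype ι]
    {a b : ι → (H →L[ℂ] H)} {w : ι → H} {p : ι → ℝ} (hp : ∀ i, 0 ≤ p i)
    (ha : ∀ i, a i ∈ M ∧ a i ∈ unitary _) (hb : ∀ i, b i ∈ M ∧ b i ∈ unitary _)
    (hw : ∀ i, w i ∈ B.V) {ε : ℝ} (hε : 0 < ε) :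
    ∃ T, B.Tst M T (2 * δ) (2 * c) ∧ -ε ≤ ∑ i, p i * (qf T (a i (w i)) - qf T (b i (w i)) -
      qf (β (a i)) (w i) + qf (β (b i)) (w i) + 4 * O * ‖w i‖ ^ 2) := by
  have hO := kap_O_nonneg hβ
  choose z hz hzw using hw
  set ν : ℝ := ε / (8 * (O + 1)) with hν
  have hν0 : 0 < ν := by positivity
  have hνε : 4 * O * ν ≤ ε / 2 := by
    rw [hν, ← mul_div_assoc, div_le_div_iff₀ (by positivity) (by positivity)]
    nlinarith
  set e : H →L[ℂ] H := ∑ i, (p i : ℂ) • (star (z i) * z i) with he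
  have heZ : e ∈ B.Z := sum_mem fun i _ => B.Z.smul_mem (mul_mem (star_mem (hz i)) (hz i)) _
  have he0 : 0 ≤ e := Finset.sum_nonneg fun i _ => by
    rw [Complex.coe_smul]
    exact smul_nonneg (hp i) (star_mul_self_nonneg _)
  obtain ⟨s, s', hs, hs', hst, hss, hd⟩ := kap_sqrt hM heZ he0 hν0
  let r : Option ι → (H →L[ℂ] H) := fun j =>
    j.elim (((√ν : ℝ) : ℂ) • s') fun i => ((√(p i) : ℝ) : ℂ) • (z i * s')
  let a' : Option ι → (H →L[ℂ] H) := fun j => j.elim 1 a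
  let b' : Option ι → (H →L[ℂ] H) := fun j => j.elim 1 b
  have hr : ∀ j, r j ∈ B.Z := by
    rintro (_ | i)
    · exact B.Z.smul_mem hs' _
    · exact B.Z.smul_mem (mul_mem (hz i) hs') _
  have hsq : ∀ t : ℝ, 0 ≤ t → ((√t : ℝ) : ℂ) * star ((√t : ℝ) : ℂ) = (t : ℂ) := fun t ht => by
    rw [Complex.star_def, Complex.conj_ofReal, ← Complex.ofReal_mul, Real.mul_self_sqrt ht]
  have hsum : ∑ j, star (r j) * r j = 1 := by
    rw [← hd, Fintype.sum_option, he, mul_add, add_mul, Finset.mul_sum, Finset.sum_mul, add_comm]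
    congr 1
    · refine Finset.sum_congr rfl fun i _ => ?_
      simp only [r, Option.elim, star_smul, star_mul, hst, mul_smul_comm, smul_mul_assoc,
        mul_assoc, smul_smul, hsq _ (hp i)]
    · simp only [r, Option.elim, star_smul, hst, mul_smul_comm, smul_mul_assoc, mul_one,
        smul_smul, hsq _ hν0.le]
  have ha' : ∀ j, a' j ∈ M ∧ a' j ∈ unitary _ := by
    rintro (_ | i)
    · exact ⟨one_mem M, one_mem _⟩
    · exact ha i
  have hb' : ∀ j, b' j ∈ M ∧ b' j ∈ unitary _ := by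
    rintro (_ | i)
    · exact ⟨one_mem M, one_mem _⟩
    · exact hb i
  have hw0 : s B.ξ ∈ B.V := ⟨s, hs, rfl⟩
  have hss' : s' (s B.ξ) = B.ξ := by rw [← mul_apply_eq_comp, hss, one_apply_eq_self]
  have r1 : ∀ i, r (some i) (s B.ξ) = ((√(p i) : ℝ) : ℂ) • w i := fun i => by
    simp only [r, Option.elim, smul_apply, mul_apply_eq_comp, hss', hzw]
  have r0 : r none (s B.ξ) = ((√ν : ℝ) : ℂ) • B.ξ := by
    simp only [r, Option.elim, smul_apply, hss']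
  have hn : ‖s B.ξ‖ ^ 2 = ν + ∑ i, p i * ‖w i‖ ^ 2 := by
    have h1 : ∀ j, qf (star (r j) * r j) (s B.ξ) = ‖r j (s B.ξ)‖ ^ 2 := fun j => by
      rw [← qf_one, ← qf_conj (r j) 1, mul_one]
    have h2 : qf (∑ j, star (r j) * r j) (s B.ξ) = ∑ j, qf (star (r j) * r j) (s B.ξ) := by
      simp only [qf, sum_apply, inner_sum, Complex.re_sum]
    rw [← qf_one, ← hsum, h2, Fintype.sum_option]
    simp only [h1, r0, r1, norm_smul, Complex.norm_real, Real.norm_eq_abs, mul_pow, sq_abs,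
      Real.sq_sqrt hν0.le, Real.sq_sqrt (hp _), B.norm_ξ, mul_one]
  obtain ⟨T, hT, h⟩ := tel hM hβ hr hsum ha' hb' hw0 (half_pos hε)
  refine ⟨T, hT, ?_⟩
  rw [Fintype.sum_option, Fintype.sum_option, hn] at h
  simp only [a', b', Option.elim, sub_self, zero_add, r1, map_smul, kap_qf_smul,
    Real.sq_sqrt (hp _)] at h
  have e1 : ∑ i, p i * (qf T (a i (w i)) - qf T (b i (w i)) -
      qf (β (a i)) (w i) + qf (β (b i)) (w i) + 4 * O * ‖w i‖ ^ 2) =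
      ∑ i, (p i * qf T (a i (w i)) - p i * qf T (b i (w i))) -
        ∑ i, (p i * qf (β (a i)) (w i) - p i * qf (β (b i)) (w i)) +
        4 * O * ∑ i, p i * ‖w i‖ ^ 2 := by
    rw [Finset.mul_sum, ← Finset.sum_sub_distrib, ← Finset.sum_add_distrib]
    exact Finset.sum_congr rfl fun i _ => by ring
  rw [e1]
  nlinarith

/-- `Mn.minimax` with `X = ι` (finite; a mean on `ι` is `f ↦ ∑ p i f i` with
`p i = re (m (Pi.single i 1)) ≥ 0`), `Y = {T // Tst M T (2 δ) (2 c)}`; the uniform average of test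
operators is a test operator. -/
theorem kap_fin (hM : B.Good M) (hβ : B.Cob M β δ O c) {ι : Type*} [Fintype ι]
    {a b : ι → (H →L[ℂ] H)} {w : ι → H} (ha : ∀ i, a i ∈ M ∧ a i ∈ unitary _)
    (hb : ∀ i, b i ∈ M ∧ b i ∈ unitary _) (hw : ∀ i, w i ∈ B.V) {ε : ℝ} (hε : 0 < ε) :
    ∃ T, B.Tst M T (2 * δ) (2 * c) ∧ ∀ i, -ε ≤ qf T (a i (w i)) - qf T (b i (w i)) -
      qf (β (a i)) (w i) + qf (β (b i)) (w i) + 4 * O * ‖w i‖ ^ 2 := by
  rcases isEmpty_or_nonempty ι with hι | hι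
  · obtain ⟨T, hT, -⟩ := tel_base hM hβ (one_mem M) (one_mem M) (one_mem _) (one_mem _)
    exact ⟨T, hT, fun i => hι.elim i⟩
  let Y := {T : H →L[ℂ] H // B.Tst M T (2 * δ) (2 * c)}
  let κ : ι → ℝ := fun i => -qf (β (a i)) (w i) + qf (β (b i)) (w i) + 4 * O * ‖w i‖ ^ 2
  let φ : ι → Y → ℝ := fun i T => qf T.1 (a i (w i)) - qf T.1 (b i (w i)) + κ i
  have hφ : ∀ i T, |φ i T| ≤ ∑ i, (2 * (|2 * δ| * ‖w i‖ ^ 2) + |κ i|) := by
    intro i T
    refine le_trans ?_ (Finset.single_le_sum (f := fun i => 2 * (|2 * δ| * ‖w i‖ ^ 2) + |κ i|)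
      (fun i _ => by positivity) (Finset.mem_univ i))
    have h0 : ‖T.1‖ ≤ |2 * δ| := T.2.norm_le.trans (le_abs_self _)
    have h1 : ∀ u : H →L[ℂ] H, u ∈ unitary _ → |qf T.1 (u (w i))| ≤ |2 * δ| * ‖w i‖ ^ 2 :=
      fun u hu => (abs_qf_le _ _).trans (by
        rw [norm_unitary_apply hu]
        exact mul_le_mul_of_nonneg_right h0 (by positivity))
    have h2 := abs_le.1 (h1 _ (ha i).2)
    have h3 := abs_le.1 (h1 _ (hb i).2)
    have h4 := le_abs_self (κ i)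
    have h5 := neg_abs_le (κ i)
    simp only [φ]
    rw [abs_le]
    constructor <;> linarith [h2.1, h2.2, h3.1, h3.2]
  obtain ⟨Ω, _, _, s, hs⟩ := Mn.minimax φ hφ (a := 0) (fun m ε' hε' => by
    obtain ⟨p, hp, hm⟩ := kap_mn_fin m
    obtain ⟨T, hT, h⟩ := tel_weighted hM hβ hp ha hb hw hε'
    refine ⟨⟨T, hT⟩, ?_⟩
    rw [hm, zero_sub]
    refine h.trans_eq (Finset.sum_congr rfl fun i _ => ?_)
    simp only [φ, κ]
    ring) hε
  have hb0 : Bd fun ω => (s ω).1 := ⟨2 * δ, fun ω => (s ω).2.norm_le⟩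
  have hq : ∀ ζ, qf (wm (Mn.ofEx (id : Ω → Ω)) fun ω => (s ω).1) ζ =
      R124.ex fun ω => qf (s ω).1 ζ := fun ζ => by
    rw [qf, inner_wm _ hb0, Mn.ofEx_apply, R124.re_ex]
    rfl
  refine ⟨wm (Mn.ofEx (id : Ω → Ω)) fun ω => (s ω).1, kap_tst_wm _ fun ω => (s ω).2, fun i => ?_⟩
  have h := hs i
  simp only [φ] at h
  rw [R124.ex_add, R124.ex_sub, R124.ex_const] at h
  rw [hq, hq]
  simp only [κ] at h
  linarith

/-- Weak limit (`exists_wlim`) along an ultrafilter below `atTop` on `Finset I × ℕ`, `I` the type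
of admissible triples `(a, b, w)`. Then take `b = 1`, resp. `a = 1`, and `|qf (β 1) w| ≤ O ‖w‖²`
(`left` with `a = y = 1`). -/
theorem exists_kap (hM : B.Good M) (hβ : B.Cob M β δ O c) :
    ∃ T, B.Tst M T (2 * δ) (2 * c) ∧ ∀ a ∈ M, a ∈ unitary _ → ∀ w ∈ B.V,
      |qf T (a w) - qf T w - qf (β a) w| ≤ 5 * O * ‖w‖ ^ 2 := by
  classical
  let I := {t : (H →L[ℂ] H) × (H →L[ℂ] H) × H //
    (t.1 ∈ M ∧ t.1 ∈ unitary _) ∧ (t.2.1 ∈ M ∧ t.2.1 ∈ unitary _) ∧ t.2.2 ∈ B.V}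
  have h1 : ∀ q : Finset I × ℕ, ∃ T, B.Tst M T (2 * δ) (2 * c) ∧ ∀ i ∈ q.1,
      -(1 / ((q.2 : ℝ) + 1)) ≤ qf T (i.1.1 i.1.2.2) - qf T (i.1.2.1 i.1.2.2) -
        qf (β i.1.1) i.1.2.2 + qf (β i.1.2.1) i.1.2.2 + 4 * O * ‖i.1.2.2‖ ^ 2 := by
    intro q
    obtain ⟨T, hT, h⟩ := kap_fin hM hβ (ι := q.1) (a := fun i => i.1.1.1) (b := fun i => i.1.1.2.1)
      (w := fun i => i.1.1.2.2) (fun i => i.1.2.1) (fun i => i.1.2.2.1) (fun i => i.1.2.2.2)
      (ε := 1 / ((q.2 : ℝ) + 1)) (by positivity)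
    exact ⟨T, hT, fun i hi => h ⟨i, hi⟩⟩
  choose F hF hF' using h1
  let U : Ultrafilter (Finset I × ℕ) := Ultrafilter.of Filter.atTop
  have hU : (U : Filter (Finset I × ℕ)) ≤ Filter.atTop := Ultrafilter.of_le _
  obtain ⟨m, hm⟩ := exists_wlim (H := H) U
  have hb0 : Bd F := ⟨2 * δ, fun q => (hF q).norm_le⟩
  have hq : ∀ ζ, Filter.Tendsto (fun q => qf (F q) ζ) U (nhds (qf (wm m F) ζ)) := fun ζ =>
    (Complex.continuous_re.tendsto _).comp (hm F hb0 ζ ζ)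
  have key : ∀ i : I, 0 ≤ qf (wm m F) (i.1.1 i.1.2.2) - qf (wm m F) (i.1.2.1 i.1.2.2) -
      qf (β i.1.1) i.1.2.2 + qf (β i.1.2.1) i.1.2.2 + 4 * O * ‖i.1.2.2‖ ^ 2 := by
    intro i
    have t1 : Filter.Tendsto (fun q : Finset I × ℕ => -(1 / ((q.2 : ℝ) + 1))) U (nhds (-0)) := by
      refine Filter.Tendsto.neg ?_
      refine (tendsto_one_div_add_atTop_nhds_zero_nat.comp ?_).mono_left hU
      rw [← Filter.prod_atTop_atTop_eq]
      exact Filter.tendsto_snd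
    rw [neg_zero] at t1
    refine le_of_tendsto_of_tendsto t1
      ((((hq _).sub (hq _)).sub_const _).add_const _ |>.add_const _) ?_
    filter_upwards [hU (Filter.mem_atTop (({i} : Finset I), 0))] with q hq'
    exact hF' q i (Finset.singleton_subset_iff.1 hq'.1)
  refine ⟨wm m F, kap_tst_wm m hF, fun a ha hu w hw => ?_⟩
  have k1 := key ⟨(a, 1, w), ⟨ha, hu⟩, ⟨one_mem M, one_mem _⟩, hw⟩
  have k2 := key ⟨(1, a, w), ⟨one_mem M, one_mem _⟩, ⟨ha, hu⟩, hw⟩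
  have k3 := abs_le.1 (kap_beta_one hβ hw)
  simp only [one_apply_eq_self] at k1 k2
  rw [abs_le]
  constructor <;> linarith [k3.1, k3.2]

end Crest.Agent.R078T
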