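import Crest.Agent.R078T.Spec

/-! Row 78, tracial stage: lifts that are good in three norms. -/

set_option autoImplicit false

open scoped InnerProductSpace ComplexConjugate

namespace Crest.Agent.R078T

open Crest.Agent.R121 (Mn Bd)

variable {H : Type*} [NormedAddCommGroup H] [InnerProductSpace ℂ H] [CompleteSpace H]
variable {B : Base H} {M N : VonNeumannAlgebra H}

lemma Lift0_om_nonneg {ω : ℝ} (hω : B.Om M N ω) : 0 ≤ ω := by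
  have h := hω 1 (one_mem M) 1 (one_mem N) B.ξ B.ξ_mem_V
  have h1 : (1 : ℝ) ≤ ‖(1 : H →L[ℂ] H)‖ := by
    have := (1 : H →L[ℂ] H).le_opNorm B.ξ
    rwa [one_apply_eq_self, B.norm_ξ, mul_one] at this
  have h2 : 0 ≤ ω * ‖(1 : H →L[ℂ] H)‖ * ‖(1 : H →L[ℂ] H)‖ := by
    have := (norm_nonneg _).trans h
    rwa [B.norm_ξ, mul_one] at this
  by_contra hneg
  have h3 : ω * ‖(1 : H →L[ℂ] H)‖ < 0 := mul_neg_of_neg_of_pos (not_le.1 hneg) (by linarith)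
  have h4 := mul_neg_of_neg_of_pos h3 (show (0 : ℝ) < ‖(1 : H →L[ℂ] H)‖ by linarith)
  linarith

lemma Lift0_sqrt_mul {d x y A C : ℝ} (hd : 0 ≤ d) (hy : 0 ≤ y) (hA : d * x ^ 2 ≤ A)
    (hC : d * y ^ 2 ≤ C) : d * y * x ≤ √A * √C := by
  have h1 : √d * x ≤ √A := Real.le_sqrt_of_sq_le (by rw [mul_pow, Real.sq_sqrt hd]; exact hA)
  have h2 : √d * y ≤ √C := Real.le_sqrt_of_sq_le (by rw [mul_pow, Real.sq_sqrt hd]; exact hC)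
  have h3 := mul_le_mul h1 h2 (by positivity) (Real.sqrt_nonneg _)
  have h4 : √d * √d = d := Real.mul_self_sqrt hd
  calc d * y * x = √d * x * (√d * y) := by linear_combination (-(x * y)) * h4
    _ ≤ _ := h3

/-- One approximation step. Let `a₀ ∈ N` with `‖t‖ ≤ d := D ‖a‖`, `t = a - a₀` (if `a = 0` take
`a' = 0`); `t` commutes with `Z` and `cm t n = cm a n` for `n ∈ N`. Take `n ∈ N` with
`‖t ξ - n ξ‖ < ν` and `q, p` from `exists_cut` at level `2 d`; `a' = a₀ + n (1 - q)`. For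
`v = z ξ`: `(a - a') v = z (t ξ - n ξ) + n q v` and
`n q v = R q (n v) = t (q v) - cm a q v + R q z (n ξ - t ξ)`. Hence
`‖n q v‖ ≤ d ‖q v‖ + ω ‖a‖ ‖v‖ + ν ‖z‖` with `d ‖q v‖ ≤ ‖n q v‖ / 2`. Testing against `p q v`:
`2 d ‖q v‖² ≤ d ‖q v‖² + ε ‖a‖ ‖v‖² + ν ‖z‖ ‖v‖`. For `m ∈ N`, `w = z' ξ`:
`⟪m w, n q v⟫ = ⟪R q (m w), R q (n v)⟫ = ⟪m q w, n q v⟫` (`R q` is a projection), which is at most
`‖m‖ (d ‖q w‖ ‖q v‖ + ε ‖a‖ ‖v‖ ‖w‖ + ν ‖z‖ ‖w‖)`. -/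
theorem lift_approx (hM : B.Good M) (hN : B.Good N) {D ω ε : ℝ} (hD : 0 < D) (hc : Close M N D)
    (hω : B.Om M N ω) (hε : B.Ep M N ε) (hε0 : 0 ≤ ε) {a : H →L[ℂ] H} (ha : a ∈ M) {ν : ℝ}
    (hν : 0 < ν) :
    ∃ a' ∈ N, ‖a - a'‖ ≤ 3 * D * ‖a‖ ∧
      (∀ z ∈ B.Z, ‖(a - a') (z B.ξ)‖ ≤ 2 * ω * ‖a‖ * ‖z B.ξ‖ + 3 * ν * ‖z‖) ∧
      ∀ m ∈ N, ∀ z ∈ B.Z, ∀ z' ∈ B.Z, ‖⟪m (z' B.ξ), (a - a') (z B.ξ)⟫_ℂ‖ ≤ ‖m‖ *
        (√(ε * ‖a‖ * ‖z B.ξ‖ ^ 2 + ν * ‖z‖ * ‖z B.ξ‖) *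
          √(ε * ‖a‖ * ‖z' B.ξ‖ ^ 2 + ν * ‖z'‖ * ‖z' B.ξ‖) +
          ε * ‖a‖ * ‖z B.ξ‖ * ‖z' B.ξ‖ + 2 * ν * ‖z‖ * ‖z' B.ξ‖) := by
  have hω0 := Lift0_om_nonneg hω
  rcases eq_or_ne a 0 with rfl | ha0
  · refine ⟨0, zero_mem N, by simp, fun z _ => ?_, fun m _ z _ z' _ => ?_⟩
    · simp only [sub_self, zero_apply, norm_zero, mul_zero, zero_mul, zero_add]
      positivity
    · simp only [sub_self, zero_apply, norm_zero, mul_zero, zero_mul, zero_add,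
        inner_zero_right]
      positivity
  have hna : 0 < ‖a‖ := norm_pos_iff.2 ha0
  obtain ⟨a₀, ha₀, hd⟩ := hc a ha
  set d := D * ‖a‖ with hdd
  have hd0 : 0 < d := mul_pos hD hna
  set t := a - a₀ with ht
  have tcz : B.CZ t := (hM.cz ha).sub (hN.cz ha₀)
  obtain ⟨n, hn, hnν⟩ := hN.exists_near (t B.ξ) hν
  obtain ⟨q, hq, p, hp, hqp, -, h1, h2, h3, h4⟩ := exists_cut hn (t := 2 * d) (by positivity)
  have hq1 : ‖q‖ ≤ 1 := hqp.norm_le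
  have hRq1 : ‖B.R q‖ ≤ 1 := by rw [B.norm_R]; exact hq1
  have hqv : ∀ ζ, ‖q ζ‖ ≤ ‖ζ‖ := fun ζ => (q.le_opNorm ζ).trans (by
    have := mul_le_mul_of_nonneg_right hq1 (norm_nonneg ζ); linarith)
  have hRv : ∀ ζ, ‖B.R q ζ‖ ≤ ‖ζ‖ := fun ζ => ((B.R q).le_opNorm ζ).trans (by
    have := mul_le_mul_of_nonneg_right hRq1 (norm_nonneg ζ); linarith)
  have htv : ∀ ζ, ‖t ζ‖ ≤ d * ‖ζ‖ := fun ζ => (t.le_opNorm ζ).trans (by gcongr)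
  -- the error vector
  have herr : ∀ z ∈ B.Z, ‖t (z B.ξ) - n (z B.ξ)‖ ≤ ν * ‖z‖ := fun z hz => by
    rw [tcz.apply hz, (hN.cz hn).apply hz, ← map_sub]
    refine (z.le_opNorm _).trans ?_
    rw [mul_comm]
    gcongr
  have hdec : ∀ v, (a - (a₀ + n * (1 - q))) v = (t v - n v) + n (q v) := fun v => by
    simp only [ht, sub_apply, add_apply,
      mul_apply_eq_comp, one_apply_eq_self, map_sub]
    abel
  have hnq : ∀ v ∈ B.V, n (q v) = t (q v) - B.cm a q v - B.R q (t v - n v) := fun v hv => by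
    rw [hN.apply_apply_V hn hq hv, Base.cm_apply, hN.R_V hq hv]
    simp only [ht, sub_apply, map_sub]
    rw [hN.apply_apply_V ha₀ hq hv]
    abel
  -- the tested estimate
  have hin : ∀ m ∈ N, ∀ z ∈ B.Z, ∀ w ∈ B.V, ‖⟪m (q w), n (q (z B.ξ))⟫_ℂ‖ ≤
      ‖m‖ * (d * ‖q w‖ * ‖q (z B.ξ)‖ + ε * ‖a‖ * ‖z B.ξ‖ * ‖w‖ + ν * ‖z‖ * ‖w‖) := by
    intro m hm z hz w hw
    have hv : z B.ξ ∈ B.V := ⟨z, hz, rfl⟩
    rw [hnq _ hv, inner_sub_right, inner_sub_right]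
    have hmw : ‖m (q w)‖ ≤ ‖m‖ * ‖q w‖ := m.le_opNorm _
    have e1 : ‖⟪m (q w), t (q (z B.ξ))⟫_ℂ‖ ≤ ‖m‖ * ‖q w‖ * (d * ‖q (z B.ξ)‖) :=
      (norm_inner_le_norm _ _).trans (mul_le_mul hmw (htv _) (norm_nonneg _) (by positivity))
    have e2 : ‖⟪m (q w), B.cm a q (z B.ξ)⟫_ℂ‖ ≤ ε * ‖a‖ * 1 * (‖m‖ * 1) * ‖z B.ξ‖ * ‖w‖ := by
      refine (hε a ha q hq (m * q) (mul_mem hm hq) _ hv w hw).trans ?_
      have : ‖m * q‖ ≤ ‖m‖ * 1 := (norm_mul_le _ _).trans (by gcongr)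
      gcongr
    have e3 : ‖⟪m (q w), B.R q (t (z B.ξ) - n (z B.ξ))⟫_ℂ‖ ≤ ‖m‖ * ‖w‖ * (ν * ‖z‖) :=
      (norm_inner_le_norm _ _).trans (mul_le_mul (hmw.trans (by gcongr; exact hqv w))
        ((hRv _).trans (herr z hz)) (norm_nonneg _) (by positivity))
    refine (norm_sub_le _ _).trans ((add_le_add ((norm_sub_le _ _).trans (add_le_add e1 e2))
      e3).trans_eq (by ring))
  have hE : ∀ z ∈ B.Z, d * ‖q (z B.ξ)‖ ^ 2 ≤ ε * ‖a‖ * ‖z B.ξ‖ ^ 2 + ν * ‖z‖ * ‖z B.ξ‖ := by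
    intro z hz
    have e1 := (h4 (z B.ξ)).trans ((Complex.re_le_norm _).trans (hin p hp z hz _ ⟨z, hz, rfl⟩))
    have e2 := mul_le_mul_of_nonneg_right h3 (show 0 ≤ d * ‖q (z B.ξ)‖ * ‖q (z B.ξ)‖ +
      ε * ‖a‖ * ‖z B.ξ‖ * ‖z B.ξ‖ + ν * ‖z‖ * ‖z B.ξ‖ by positivity)
    nlinarith
  refine ⟨a₀ + n * (1 - q), add_mem ha₀ (mul_mem hn (sub_mem (one_mem N) hq)), ?_, ?_, ?_⟩
  · rw [← sub_sub]
    refine (norm_sub_le _ _).trans ((add_le_add hd h1).trans_eq ?_)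
    rw [hdd]; ring
  · intro z hz
    have hv : z B.ξ ∈ B.V := ⟨z, hz, rfl⟩
    rw [hdec]
    have e1 : ‖n (q (z B.ξ))‖ ≤ d * ‖q (z B.ξ)‖ + ω * ‖a‖ * 1 * ‖z B.ξ‖ + ν * ‖z‖ := by
      conv_lhs => rw [hnq _ hv]
      refine (norm_sub_le _ _).trans (add_le_add ((norm_sub_le _ _).trans (add_le_add (htv _)
        ((hω a ha q hq _ hv).trans (by gcongr)))) ((hRv _).trans (herr z hz)))
    have e2 := h2 (z B.ξ)
    have e3 := (norm_add_le _ (n (q (z B.ξ)))).trans (add_le_add (herr z hz) le_rfl)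
    linarith
  · intro m hm z hz z' hz'
    have hv : z B.ξ ∈ B.V := ⟨z, hz, rfl⟩
    have hw : z' B.ξ ∈ B.V := ⟨z', hz', rfl⟩
    rw [hdec, inner_add_right]
    have e1 : ‖⟪m (z' B.ξ), t (z B.ξ) - n (z B.ξ)⟫_ℂ‖ ≤ ‖m‖ * ‖z' B.ξ‖ * (ν * ‖z‖) :=
      (norm_inner_le_norm _ _).trans (mul_le_mul (m.le_opNorm _) (herr z hz) (norm_nonneg _)
        (by positivity))
    have e2 : ⟪m (z' B.ξ), n (q (z B.ξ))⟫_ℂ = ⟪m (q (z' B.ξ)), n (q (z B.ξ))⟫_ℂ := by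
      rw [hN.apply_apply_V hm hq hw, ← inner_star_right (B.R q), ← B.R_star, hqp.isSelfAdjoint.star_eq,
        hN.apply_apply_V hn hq hv, ← mul_apply_eq_comp (B.R q) (B.R q), ← B.R_mul,
        hqp.isIdempotentElem.eq]
    have e3 := hin m hm z hz _ hw
    rw [← e2] at e3
    have e4 := mul_le_mul_of_nonneg_left (Lift0_sqrt_mul hd0.le (norm_nonneg _)
      (hE z hz) (hE z' hz')) (norm_nonneg m)
    have e5 := (norm_add_le _ _).trans (add_le_add e1 e3)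
    nlinarith

/-- Take `a' k` from `lift_approx` with `ν = 1 / (k + 1)` and the weak limit `wm m a'` along
`hyperfilter ℕ` (`exists_wlim`, `wm_mem`); all three estimates are estimates of inner products
`⟪η, (a - a' k) ζ⟫` and pass to the limit (`norm_le_of_inner`; test with `η = (a - a') v`). -/
theorem exists_lift0 (hM : B.Good M) (hN : B.Good N) {D ω ε : ℝ} (hD : 0 < D) (hc : Close M N D)
    (hω : B.Om M N ω) (hε : B.Ep M N ε) (hε0 : 0 ≤ ε) {a : H →L[ℂ] H} (ha : a ∈ M) :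
    ∃ a' ∈ N, ‖a - a'‖ ≤ 3 * D * ‖a‖ ∧ B.SN (a - a') (2 * ω * ‖a‖) ∧
      B.WN N (a - a') (2 * ε * ‖a‖) := by
  have hω0 := Lift0_om_nonneg hω
  choose a' ha' h1 h2 h3 using fun k : ℕ =>
    lift_approx hM hN hD hc hω hε hε0 ha (ν := 1 / ((k : ℝ) + 1)) Nat.one_div_pos_of_nat
  obtain ⟨μ, hμ⟩ := exists_wlim (H := H) (Filter.hyperfilter ℕ)
  have hbd : Bd a' := ⟨‖a‖ + 3 * D * ‖a‖, fun k => by
    have := norm_sub_le a (a - a' k)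
    rw [sub_sub_cancel] at this
    linarith [h1 k]⟩
  have hlim : ∀ η ζ : H, Filter.Tendsto (fun k => ‖⟪η, (a - a' k) ζ⟫_ℂ‖) (Filter.hyperfilter ℕ)
      (nhds ‖⟪η, (a - wm μ a') ζ⟫_ℂ‖) := fun η ζ => by
    simp only [sub_apply, inner_sub_right]
    exact (tendsto_const_nhds.sub (hμ a' hbd η ζ)).norm
  have hν : Filter.Tendsto (fun k : ℕ => 1 / ((k : ℝ) + 1)) (Filter.hyperfilter ℕ) (nhds 0) :=
    tendsto_one_div_add_atTop_nhds_zero_nat.mono_left Nat.hyperfilter_le_atTop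
  refine ⟨wm μ a', wm_mem μ hbd ha', ?_, ?_, ?_⟩
  · refine norm_le_of_inner (by positivity) fun η ζ => le_of_tendsto' (hlim η ζ) fun k => ?_
    exact (norm_inner_op_le _ _ _).trans (by gcongr; exact h1 k)
  · rintro _ ⟨z, hz, rfl⟩
    set η := (a - wm μ a') (z B.ξ) with hη
    have e1 : Filter.Tendsto (fun k : ℕ => ‖η‖ * (2 * ω * ‖a‖ * ‖z B.ξ‖ +
        3 * (1 / ((k : ℝ) + 1)) * ‖z‖)) (Filter.hyperfilter ℕ)
        (nhds (‖η‖ * (2 * ω * ‖a‖ * ‖z B.ξ‖ + 3 * 0 * ‖z‖))) :=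
      (tendsto_const_nhds.add ((hν.const_mul 3).mul_const _)).const_mul _
    have e2 := le_of_tendsto_of_tendsto' (hlim η (z B.ξ)) e1 fun k =>
      (norm_inner_le_norm _ _).trans (by gcongr; exact h2 k z hz)
    rw [← hη, inner_self_eq_norm_sq_to_K, norm_pow, RCLike.norm_ofReal, abs_norm, sq, mul_zero,
      zero_mul, add_zero] at e2
    rcases (norm_nonneg η).eq_or_lt with h0 | h0
    · rw [← h0]; positivity
    · exact le_of_mul_le_mul_left e2 h0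
  · rintro m hm _ ⟨z, hz, rfl⟩ _ ⟨z', hz', rfl⟩
    have e1 : Filter.Tendsto (fun k : ℕ => ‖m‖ *
        (√(ε * ‖a‖ * ‖z B.ξ‖ ^ 2 + 1 / ((k : ℝ) + 1) * ‖z‖ * ‖z B.ξ‖) *
          √(ε * ‖a‖ * ‖z' B.ξ‖ ^ 2 + 1 / ((k : ℝ) + 1) * ‖z'‖ * ‖z' B.ξ‖) +
          ε * ‖a‖ * ‖z B.ξ‖ * ‖z' B.ξ‖ + 2 * (1 / ((k : ℝ) + 1)) * ‖z‖ * ‖z' B.ξ‖))
        (Filter.hyperfilter ℕ) (nhds (‖m‖ *
        (√(ε * ‖a‖ * ‖z B.ξ‖ ^ 2 + 0 * ‖z‖ * ‖z B.ξ‖) *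
          √(ε * ‖a‖ * ‖z' B.ξ‖ ^ 2 + 0 * ‖z'‖ * ‖z' B.ξ‖) +
          ε * ‖a‖ * ‖z B.ξ‖ * ‖z' B.ξ‖ + 2 * 0 * ‖z‖ * ‖z' B.ξ‖))) :=
      ((((tendsto_const_nhds.add ((hν.mul_const _).mul_const _)).sqrt.mul
        (tendsto_const_nhds.add ((hν.mul_const _).mul_const _)).sqrt).add
        tendsto_const_nhds).add (((hν.const_mul 2).mul_const _).mul_const _)).const_mul _
    have e2 := le_of_tendsto_of_tendsto' (hlim (m (z' B.ξ)) (z B.ξ)) e1 fun k =>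
      h3 k m hm z hz z' hz'
    have hc0 : 0 ≤ ε * ‖a‖ := by positivity
    have s1 : ∀ x : ℝ, 0 ≤ x → √(ε * ‖a‖ * x ^ 2) = √(ε * ‖a‖) * x := fun x hx => by
      rw [Real.sqrt_mul hc0, Real.sqrt_sq hx]
    simp only [zero_mul, mul_zero, add_zero, s1 _ (norm_nonneg _)] at e2
    refine e2.trans_eq ?_
    linear_combination (‖m‖ * ‖z B.ξ‖ * ‖z' B.ξ‖) * Real.mul_self_sqrt hc0

end Crest.Agent.R078T
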