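import Crest.Agent.R078T.Lifts

/-! Row 78, tracial stage: calculus of lifts. -/

set_option autoImplicit false

open scoped InnerProductSpace ComplexConjugate

namespace Crest.Agent.R078T

open Crest.Agent.R121 (Mn Bd)

variable {H : Type*} [NormedAddCommGroup H] [InnerProductSpace ℂ H] [CompleteSpace H]
variable {B : Base H} {M N : VonNeumannAlgebra H}
variable {D ω e : ℝ}

theorem LiftAlg_sn_neg {S T : H →L[ℂ] H} {c : ℝ} (h : B.SN (S - T) c) : B.SN (T - S) c :=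
  fun v hv => by
    rw [← neg_sub, neg_apply, norm_neg]
    exact h v hv

theorem LiftAlg_wn_neg {S T : H →L[ℂ] H} {c : ℝ} (h : B.WN N (S - T) c) : B.WN N (T - S) c :=
  fun n hn v hv w hw => by
    rw [← neg_sub, neg_apply, inner_neg_right, norm_neg]
    exact h n hn v hv w hw

theorem LiftAlg_key (hN : B.Good N) (a : H →L[ℂ] H) {a' n : H →L[ℂ] H} (ha' : a' ∈ N)
    (hn : n ∈ N) {w : H} (hw : w ∈ B.V) :
    (a - a') (n w) = B.R n ((a - a') w) + B.cm a n w := by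
  rw [Base.cm_apply, hN.R_V hn hw, sub_apply, sub_apply,
    map_sub, hN.apply_apply_V ha' hn hw]
  abel

theorem LiftAlg_R (hN : B.Good N) {T : H →L[ℂ] H} {c : ℝ} (hc : 0 ≤ c) (hT : B.WN N T c)
    {n b : H →L[ℂ] H} (hn : n ∈ N) (hb : b ∈ N) {v w : H} (hv : v ∈ B.V) (hw : w ∈ B.V) :
    ‖⟪n w, B.R b (T v)⟫_ℂ‖ ≤ c * (‖n‖ * ‖b‖) * ‖v‖ * ‖w‖ := by
  rw [← inner_star_left, ← B.R_star, ← hN.apply_apply_V hn (star_mem hb) hw, ← mul_apply_eq_comp]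
  refine (hT _ (mul_mem hn (star_mem hb)) v hv w hw).trans ?_
  gcongr
  exact (norm_mul_le _ _).trans_eq (by rw [norm_star])

namespace Base.Lift

variable {a a' b b' : H →L[ℂ] H} {δ₁ ω₁ e₁ δ₂ ω₂ e₂ : ℝ}

theorem mono (h : B.Lift M N a a' δ₁ ω₁ e₁) (h1 : δ₁ ≤ δ₂) (h2 : ω₁ ≤ ω₂) (h3 : e₁ ≤ e₂) :
    B.Lift M N a a' δ₂ ω₂ e₂ := by
  exact ⟨h.mem, h.mem', h.norm.trans h1, h.sn.mono h2, h.wM.mono h3, h.wN.mono h3⟩

theorem symm (h : B.Lift M N a a' δ₁ ω₁ e₁) : B.Lift N M a' a δ₁ ω₁ e₁ := by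
  exact ⟨h.mem', h.mem, by rw [norm_sub_rev]; exact h.norm, LiftAlg_sn_neg h.sn,
    LiftAlg_wn_neg h.wN, LiftAlg_wn_neg h.wM⟩

theorem refl (ha : a ∈ M) (ha' : a ∈ N) : B.Lift M N a a 0 0 0 := by
  exact ⟨ha, ha', by simp, fun v _ => by simp, fun n _ v _ w _ => by simp,
    fun n _ v _ w _ => by simp⟩

theorem ω_nn (h : B.Lift M N a a' δ₁ ω₁ e₁) : 0 ≤ ω₁ := by
  have h1 := (norm_nonneg _).trans (h.sn _ B.ξ_mem_V)
  rwa [B.norm_ξ, mul_one] at h1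

theorem e_nn (h : B.Lift M N a a' δ₁ ω₁ e₁) : 0 ≤ e₁ := by
  have h1 := (norm_nonneg _).trans (h.wM 1 (one_mem M) _ B.ξ_mem_V _ B.ξ_mem_V)
  rw [B.norm_ξ, mul_one, mul_one] at h1
  have h2 := (1 : H →L[ℂ] H).le_opNorm B.ξ
  rw [one_apply_eq_self, B.norm_ξ, mul_one] at h2
  exact nonneg_of_mul_nonneg_left h1 (one_pos.trans_le h2)

/-- `(a⋆ - a'⋆) v = J ((a - a') (J v))` by `J_V` for both algebras. -/
theorem star (hM : B.Good M) (hN : B.Good N) (h : B.Lift M N a a' δ₁ ω₁ e₁) :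
    B.Lift M N (star a) (star a') δ₁ ω₁ e₁ := by
  have key : ∀ v ∈ B.V, (Star.star a - Star.star a') v = B.J ((a - a') (B.J v)) := by
    intro v hv
    rw [sub_apply, sub_apply, map_sub,
      hM.J_V h.mem (hM.J_mem_V hv), hN.J_V h.mem' (hM.J_mem_V hv), B.J_J]
  have hW : ∀ {K : VonNeumannAlgebra H}, B.Good K → B.WN K (a - a') e₁ →
      B.WN K (Star.star a - Star.star a') e₁ := by
    intro K hK hT n hn v hv w hw
    rw [key v hv, norm_inner_symm, B.inner_J_left, hK.J_V hn hw]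
    have h1 := hT _ (star_mem hn) _ (hK.J_mem_V hv) _ (hK.J_mem_V hw)
    rwa [norm_star, B.J.norm_map, B.J.norm_map] at h1
  refine ⟨star_mem h.mem, star_mem h.mem', ?_, fun v hv => ?_, hW hM h.wM, hW hN h.wN⟩
  · rw [← star_sub, norm_star]
    exact h.norm
  · rw [key v hv, B.J.norm_map]
    have h1 := h.sn _ (hM.J_mem_V hv)
    rwa [B.J.norm_map] at h1

theorem u_mul (hM : B.Good M) (hN : B.Good N) (h : B.Lift M N a a' δ₁ ω₁ e₁) (γ : B.G) :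
    B.Lift M N (B.u γ * a) (B.u γ * a') δ₁ ω₁ e₁ := by
  have hW : ∀ {K : VonNeumannAlgebra H}, B.Good K → B.WN K (a - a') e₁ →
      B.WN K (B.u γ * a - B.u γ * a') e₁ := by
    intro K hK hT n hn v hv w hw
    rw [← mul_sub, mul_apply_eq_comp, ← inner_star_left, ← mul_apply_eq_comp (Star.star (B.u γ))]
    have h1 := hT _ (mul_mem (star_mem (hK.u_mem γ)) hn) v hv w hw
    rwa [CStarRing.norm_mem_unitary_mul _ (Unitary.star_mem (B.u_unitary γ))] at h1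
  refine ⟨mul_mem (hM.u_mem γ) h.mem, mul_mem (hN.u_mem γ) h.mem', ?_, fun v hv => ?_, hW hM h.wM,
    hW hN h.wN⟩
  · rw [← mul_sub, CStarRing.norm_mem_unitary_mul _ (B.u_unitary γ)]
    exact h.norm
  · rw [← mul_sub, mul_apply_eq_comp, norm_unitary_apply (B.u_unitary γ)]
    exact h.sn v hv

/-- `(a - a') (g v) = R g ((a - a') v)`, and `⟪n w, R g η⟫ = ⟪n g⋆ w, η⟫`. -/
theorem mul_u (hM : B.Good M) (hN : B.Good N) (h : B.Lift M N a a' δ₁ ω₁ e₁) (γ : B.G) :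
    B.Lift M N (a * B.u γ) (a' * B.u γ) δ₁ ω₁ e₁ := by
  have h1 := ((h.star hM hN).u_mul hM hN γ⁻¹).star hM hN
  rwa [star_mul, star_mul, star_star, star_star, B.u_inv, star_star] at h1

/-- `(a - a') (n w) = R n ((a - a') w) + cm a n w`. -/
theorem norm_apply_N (hc : B.Ctx M N D ω e) (h : B.Lift M N a a' δ₁ ω₁ e₁) {n : H →L[ℂ] H}
    (hn : n ∈ N) {w : H} (hw : w ∈ B.V) : ‖(a - a') (n w)‖ ≤ (ω₁ + ω * ‖a‖) * ‖n‖ * ‖w‖ := by
  rw [LiftAlg_key hc.gN a h.mem' hn hw]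
  have h1 := (B.R n).le_opNorm ((a - a') w)
  rw [B.norm_R] at h1
  have h2 := mul_le_mul_of_nonneg_left (h.sn w hw) (norm_nonneg n)
  have h3 := hc.om a h.mem n hn w hw
  refine (norm_add_le _ _).trans ?_
  linarith

theorem norm_apply_M (hc : B.Ctx M N D ω e) (h : B.Lift M N a a' δ₁ ω₁ e₁) {x : H →L[ℂ] H}
    (hx : x ∈ M) {w : H} (hw : w ∈ B.V) : ‖(a - a') (x w)‖ ≤ (ω₁ + ω * ‖a'‖) * ‖x‖ * ‖w‖ := by
  rw [← neg_sub, neg_apply, norm_neg]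
  exact h.symm.norm_apply_N hc.symm hx hw

theorem LiftAlg_mul (hc : B.Ctx M N D ω e) (h : B.Lift M N a a' δ₁ ω₁ e₁)
    (h' : B.Lift M N b b' δ₂ ω₂ e₂) (ha : ‖a‖ ≤ 1) (ha' : ‖a'‖ ≤ 1) (hb' : ‖b'‖ ≤ 1) :
    B.WN N (a * b - a' * b') (e₁ + e₂ + e + (ω₁ + ω) * ω₂) := by
  intro n hn v hv w hw
  have e1 : (a * b - a' * b') v = a ((b - b') v) + (a - a') (b' v) := by
    simp only [sub_apply, mul_apply_eq_comp, map_sub]
    abel
  have e2 : Star.star a (n w) = (Star.star a' * n) w + (Star.star a - Star.star a') (n w) := by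
    simp only [sub_apply, mul_apply_eq_comp]
    abel
  have hω := hc.ω_nn
  have he := hc.e_nn
  have hω1 := h.ω_nn
  have hω2 := h'.ω_nn
  have he1 := h.e_nn
  have he2 := h'.e_nn
  rw [e1, inner_add_right, ← inner_star_left, e2, inner_add_left,
    LiftAlg_key hc.gN a h.mem' h'.mem' hv, inner_add_right]
  have h1 : ‖⟪(Star.star a' * n) w, (b - b') v⟫_ℂ‖ ≤ e₂ * ‖n‖ * ‖v‖ * ‖w‖ := by
    refine (h'.wN _ (mul_mem (star_mem h.mem') hn) v hv w hw).trans ?_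
    gcongr
    refine (norm_mul_le _ _).trans ?_
    rw [norm_star]
    exact mul_le_of_le_one_left (norm_nonneg _) ha'
  have h2 : ‖⟪(Star.star a - Star.star a') (n w), (b - b') v⟫_ℂ‖ ≤
      (ω₁ + ω) * ω₂ * ‖n‖ * ‖v‖ * ‖w‖ := by
    have h3 := (h.star hc.gM hc.gN).norm_apply_N hc hn hw
    rw [norm_star] at h3
    calc _ ≤ (ω₁ + ω * ‖a‖) * ‖n‖ * ‖w‖ * (ω₂ * ‖v‖) :=
          (norm_inner_le_norm _ _).trans (mul_le_mul h3 (h'.sn v hv) (norm_nonneg _) (by positivity))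
      _ ≤ (ω₁ + ω * 1) * ‖n‖ * ‖w‖ * (ω₂ * ‖v‖) := by gcongr
      _ = _ := by ring
  have h3 : ‖⟪n w, B.R b' ((a - a') v)⟫_ℂ‖ ≤ e₁ * ‖n‖ * ‖v‖ * ‖w‖ := by
    refine (LiftAlg_R hc.gN he1 h.wN hn h'.mem' hv hw).trans ?_
    gcongr
    exact mul_le_of_le_one_right (norm_nonneg _) hb'
  have h4 : ‖⟪n w, B.cm a b' v⟫_ℂ‖ ≤ e * ‖n‖ * ‖v‖ * ‖w‖ := by
    refine (hc.ep a h.mem b' h'.mem' n hn v hv w hw).trans ?_
    gcongr
    calc e * ‖a‖ * ‖b'‖ ≤ e * 1 * 1 := by gcongr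
      _ = e := by ring
  refine (norm_add_le _ _).trans ((add_le_add (norm_add_le _ _) (norm_add_le _ _)).trans ?_)
  linarith

/-- `a b - a' b' = a (b - b') + (a - a') b'`. Tests `n ∈ N`:
`⟪n w, a (b - b') v⟫ = ⟪a'⋆ n w, (b - b') v⟫ + ⟪(a⋆ - a'⋆) n w, (b - b') v⟫`, and
`(a - a') b' v = R b' ((a - a') v) + cm a b' v`. Tests in `M`: apply this to `symm`. -/
theorem mul (hc : B.Ctx M N D ω e) (h : B.Lift M N a a' δ₁ ω₁ e₁) (h' : B.Lift M N b b' δ₂ ω₂ e₂)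
    (ha : ‖a‖ ≤ 1) (ha' : ‖a'‖ ≤ 1) (hb : ‖b‖ ≤ 1) (hb' : ‖b'‖ ≤ 1) :
    B.Lift M N (a * b) (a' * b') (δ₁ + δ₂) (ω₁ + ω₂ + ω) (e₁ + e₂ + e + (ω₁ + ω) * ω₂) := by
  have hω := hc.ω_nn
  have hω1 := h.ω_nn
  have e0 : a * b - a' * b' = a * (b - b') + (a - a') * b' := by
    rw [mul_sub, sub_mul]
    abel
  refine ⟨mul_mem h.mem h'.mem, mul_mem h.mem' h'.mem', ?_, fun v hv => ?_,
    LiftAlg_wn_neg (LiftAlg_mul hc.symm h.symm h'.symm ha' ha hb), LiftAlg_mul hc h h' ha ha' hb'⟩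
  · rw [e0]
    have h1 := (norm_mul_le a (b - b')).trans (mul_le_of_le_one_left (norm_nonneg _) ha)
    have h2 := (norm_mul_le (a - a') b').trans (mul_le_of_le_one_right (norm_nonneg _) hb')
    linarith [norm_add_le (a * (b - b')) ((a - a') * b'), h.norm, h'.norm]
  · rw [e0, add_apply, mul_apply_eq_comp, mul_apply_eq_comp]
    have h1 := (a.le_opNorm ((b - b') v)).trans (mul_le_of_le_one_left (norm_nonneg _) ha)
    have h2 : ‖(a - a') (b' v)‖ ≤ (ω₁ + ω * 1) * 1 * ‖v‖ :=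
      (h.norm_apply_N hc h'.mem' hv).trans (by gcongr)
    linarith [norm_add_le (a ((b - b') v)) ((a - a') (b' v)), h'.sn v hv]

/-- `⟪b v, (a⋆ a' - 1) x v⟫ = ⟪a b v, (a' - a) (x v)⟫` and
`(a' - a) (x v) = R x ((a' - a) v) + cm a' x v`. -/
theorem ws (hc : B.Ctx M N D ω e) (h : B.Lift M N a a' δ₁ ω₁ e₁) (ha : a ∈ unitary _)
    (ha' : ‖a'‖ ≤ 1) : B.WS M (Star.star a * a' - 1) (e₁ + e) := by
  intro x hx y hy v hv
  have e1 : (Star.star a * a' - 1) (x v) = Star.star a ((a' - a) (x v)) := by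
    rw [sub_apply, sub_apply, map_sub, star_apply_apply ha,
      mul_apply_eq_comp, one_apply_eq_self]
  have he := hc.e_nn
  rw [e1, inner_star_right, ← mul_apply_eq_comp a y, LiftAlg_key hc.gM a' h.mem hx hv,
    inner_add_right]
  have h1 := LiftAlg_R hc.gM h.e_nn h.symm.wN (mul_mem h.mem hy) hx hv hv
  have h2 := hc.ep' a' h.mem' x hx _ (mul_mem h.mem hy) v hv v hv
  rw [CStarRing.norm_mem_unitary_mul _ ha] at h1 h2
  have h3 : e * ‖a'‖ * ‖x‖ * ‖y‖ * ‖v‖ * ‖v‖ ≤ e * 1 * ‖x‖ * ‖y‖ * ‖v‖ * ‖v‖ := by gcongr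
  refine (norm_add_le _ _).trans ?_
  linarith

/-- `(R a)⋆ R a' - 1 = R ((a a'⋆ - 1)⋆)`; use `ws` for the pair of adjoints. -/
theorem ws_R (hc : B.Ctx M N D ω e) (h : B.Lift M N a a' δ₁ ω₁ e₁) (ha : a ∈ unitary _)
    (ha' : ‖a'‖ ≤ 1) : B.WS M (Star.star (B.R a) * B.R a' - 1) (e₁ + e) := by
  have h1 := (((h.star hc.gM hc.gN).ws hc (Unitary.star_mem ha)
    (by rwa [norm_star])).star).R hc.gM
  rwa [star_sub, star_one, star_mul, star_star, B.R_sub, B.R_one, B.R_mul, star_star,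
    B.R_star] at h1

end Base.Lift

end Crest.Agent.R078T
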