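import Crest.Agent.R078T.Lift0

/-! Row 78, tracial stage: symmetries of the defects; calculus of lifts. -/

set_option autoImplicit false

open scoped InnerProductSpace ComplexConjugate

namespace Crest.Agent.R078T

open Crest.Agent.R121 (Mn Bd)

variable {H : Type*} [NormedAddCommGroup H] [InnerProductSpace ℂ H] [CompleteSpace H]
variable {B : Base H} {M N : VonNeumannAlgebra H}

theorem Close.mono {D D' : ℝ} (h : Close M N D) (hD : D ≤ D') : Close M N D' := by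
  intro x hx
  obtain ⟨y, hy, h1⟩ := h x hx
  exact ⟨y, hy, h1.trans (by gcongr)⟩

/-- Test with `x = 1` (`‖1‖ = 1` because `‖ξ‖ = 1`). -/
theorem Close.nonneg (B : Base H) {D : ℝ} (h : Close M N D) : 0 ≤ D := by
  obtain ⟨y, -, h1⟩ := h 1 (one_mem M)
  have h2 := (1 : H →L[ℂ] H).le_opNorm B.ξ
  rw [one_apply_eq_self, B.norm_ξ, mul_one] at h2
  exact nonneg_of_mul_nonneg_left ((norm_nonneg _).trans h1) (by linarith)

theorem Base.Om.mono {ω ω' : ℝ} (h : B.Om M N ω) (hω : ω ≤ ω') : B.Om M N ω' := by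
  intro x hx n hn
  exact (h x hx n hn).mono (by gcongr)

theorem Base.Ep.mono {ε ε' : ℝ} (h : B.Ep M N ε) (hε : ε ≤ ε') : B.Ep M N ε' := by
  intro x hx n hn
  exact (h x hx n hn).mono (by gcongr)

/-- `cm x n = cm (x - y) n` for `y ∈ N`. -/
theorem norm_cm_le (hN : B.Good N) {D : ℝ} (hc : Close M N D) {x n : H →L[ℂ] H} (hx : x ∈ M)
    (hn : n ∈ N) : ‖B.cm x n‖ ≤ 2 * D * ‖x‖ * ‖n‖ := by
  obtain ⟨y, hy, h1⟩ := hc x hx
  have h2 : B.cm x n = (x - y) * B.R n - B.R n * (x - y) := by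
    rw [Base.cm, sub_mul, mul_sub, hN.R_comm hn hy]
    abel
  have h3 := norm_mul_le (x - y) (B.R n)
  have h4 := norm_mul_le (B.R n) (x - y)
  have h5 := mul_le_mul_of_nonneg_right h1 (norm_nonneg n)
  rw [B.norm_R] at h3 h4
  rw [h2]
  refine (norm_sub_le _ _).trans ?_
  linarith

theorem om_of_close (hN : B.Good N) {D : ℝ} (hc : Close M N D) : B.Om M N (2 * D) := by
  intro x hx n hn v _
  exact ((B.cm x n).le_opNorm v).trans
    (mul_le_mul_of_nonneg_right (norm_cm_le hN hc hx hn) (norm_nonneg v))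

theorem ep_of_close (hN : B.Good N) {D : ℝ} (hc : Close M N D) : B.Ep M N (2 * D) := by
  intro x hx n hn m _ v _ w _
  have h1 := norm_cm_le hN hc hx hn
  have h0 := (norm_nonneg _).trans h1
  have h2 := m.le_opNorm w
  refine (norm_inner_op_le _ _ _).trans ?_
  calc ‖B.cm x n‖ * ‖m w‖ * ‖v‖ ≤ 2 * D * ‖x‖ * ‖n‖ * (‖m‖ * ‖w‖) * ‖v‖ := by gcongr
    _ = _ := by ring

theorem J_cm (x n : H →L[ℂ] H) (v : H) :
    B.J (B.cm x n v) = -B.cm (star n) (star x) (B.J v) := by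
  rw [Base.cm_apply, Base.cm_apply, map_sub, neg_sub, B.J_op x, B.J_R n, B.J_R n, B.J_op x]

/-- `J_cm`, `J_mem_V`. -/
theorem om_symm (hM : B.Good M) {ω : ℝ} (h : B.Om M N ω) : B.Om N M ω := by
  intro n hn x hx v hv
  have h1 := h _ (star_mem hx) _ (star_mem hn) _ (hM.J_mem_V hv)
  rw [norm_star, norm_star, B.J.norm_map] at h1
  rw [← B.J.norm_map, J_cm, norm_neg]
  exact h1.trans_eq (by ring)

/-- `⟪m w, cm n x v⟫ = ⟪J (cm n x v), J (m w)⟫`, `J_cm`, `J_V`. -/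
theorem ep_iff (hN : B.Good N) {ε : ℝ} :
    B.Ep M N ε ↔ ∀ n ∈ N, ∀ x ∈ M, B.WN N (B.cm n x) (ε * ‖n‖ * ‖x‖) := by
  have key : ∀ (x n : H →L[ℂ] H) (c : ℝ), B.WN N (B.cm (star n) (star x)) c →
      B.WN N (B.cm x n) c := fun x n c h m hm v hv w hw => by
    have h1 := h _ (star_mem hm) _ (hN.J_mem_V hv) _ (hN.J_mem_V hw)
    rw [norm_star, B.J.norm_map, B.J.norm_map] at h1
    rwa [← B.inner_J, J_cm, hN.J_V hm hw, inner_neg_left, norm_neg, norm_inner_symm]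
  constructor
  · intro h n hn x hx
    refine key _ _ _ ((h _ (star_mem hx) _ (star_mem hn)).mono (le_of_eq ?_))
    rw [norm_star, norm_star, mul_right_comm]
  · intro h x hx n hn
    refine key _ _ _ ((h _ (star_mem hn) _ (star_mem hx)).mono (le_of_eq ?_))
    rw [norm_star, norm_star, mul_right_comm]

/-- Replace the test element `y ∈ M` by its lift from `exists_lift0`. -/
theorem wn_swap (hM : B.Good M) (hN : B.Good N) {D ω ε : ℝ} (hD : 0 < D) (hD1 : D ≤ 1 / 100)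
    (hc : Close M N D) (hω : B.Om M N ω) (hε : B.Ep M N ε) (hω0 : 0 ≤ ω) (hε0 : 0 ≤ ε)
    {T : H →L[ℂ] H} {c c' : ℝ} (hc0 : 0 ≤ c) (h1 : B.WN N T c) (h2 : B.SN T c') :
    B.WN M T (103 / 100 * c + 2 * ω * c') := by
  intro y hy v hv w hw
  obtain ⟨y', hy', h3, h4, -⟩ := exists_lift0 hM hN hD hc hω hε hε0 hy
  have h5 : ‖y'‖ ≤ 103 / 100 * ‖y‖ := by
    have h6 := norm_sub_le y (y - y')
    have h7 := mul_le_mul_of_nonneg_right hD1 (norm_nonneg y)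
    rw [sub_sub_cancel] at h6
    linarith
  have e : ⟪y w, T v⟫_ℂ = ⟪y' w, T v⟫_ℂ + ⟪(y - y') w, T v⟫_ℂ := by
    rw [← inner_add_left, ContinuousLinearMap.sub_apply, add_sub_cancel]
  have h6 : ‖⟪y' w, T v⟫_ℂ‖ ≤ c * (103 / 100 * ‖y‖) * ‖v‖ * ‖w‖ :=
    (h1 y' hy' v hv w hw).trans (by gcongr)
  have h7 : ‖⟪(y - y') w, T v⟫_ℂ‖ ≤ 2 * ω * ‖y‖ * ‖w‖ * (c' * ‖v‖) :=
    (norm_inner_le_norm _ _).trans
      (mul_le_mul (h4 w hw) (h2 v hv) (norm_nonneg _) (by positivity))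
  rw [e]
  refine (norm_add_le _ _).trans ((add_le_add h6 h7).trans_eq ?_)
  ring

/-- `ep_iff`, `wn_swap`. -/
theorem ctx_of (hM : B.Good M) (hN : B.Good N) {D ω ε : ℝ} (hD : 0 < D) (hD1 : D ≤ 1 / 100)
    (hc : Close M N D) (hc' : Close N M D) (hω : B.Om M N ω) (hε : B.Ep M N ε) (hω0 : 0 ≤ ω)
    (hε0 : 0 ≤ ε) : B.Ctx M N D ω (2 * ε + 2 * ω ^ 2) := by
  have hω' := om_symm hM hω
  have h2 := sq_nonneg ω
  refine ⟨hM, hN, hc, hc', hω, hω', hε.mono (by linarith), fun n hn x hx => ?_, by linarith, hD,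
    hD1, hω0⟩
  have h3 : 0 ≤ ε * ‖n‖ * ‖x‖ := by positivity
  refine (wn_swap hM hN hD hD1 hc hω hε hω0 hε0 h3 ((ep_iff hN).1 hε n hn x hx)
    (hω' n hn x hx)).mono ?_
  linarith

variable {D ω e : ℝ}

theorem Base.Ctx.lift (h : B.Ctx M N D ω e) {a : H →L[ℂ] H} (ha : a ∈ M) :
    ∃ a', B.Lift M N a a' (3 * D * ‖a‖) (2 * ω * ‖a‖) (7 * e * ‖a‖) := by
  have he := h.e_nn
  obtain ⟨a', ha', h1, h2, h3⟩ := exists_lift0 h.gM h.gN h.D_pos h.cMN h.om h.ep he ha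
  have h4 : 0 ≤ e * ‖a‖ := by positivity
  have h5 := mul_le_mul_of_nonneg_right h.sq (norm_nonneg a)
  refine ⟨a', ha, ha', h1, h2, (wn_swap h.gM h.gN h.D_pos h.D_le h.cMN h.om h.ep h.ω_nn he
    (by linarith) h3 h2).mono (by linarith), h3.mono (by linarith)⟩

theorem Base.WS.star {T : H →L[ℂ] H} {c : ℝ} (h : B.WS M T c) : B.WS M (star T) c := by
  intro a ha b hb v hv
  rw [inner_star_right, norm_inner_symm]
  exact (h b hb a ha v hv).trans_eq (by ring)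

/-- `inner_R`, `J_V`. -/
theorem Base.WS.R (hM : B.Good M) {T : H →L[ℂ] H} {c : ℝ} (h : B.WS M T c) :
    B.WS M (B.R T) c := by
  intro a ha b hb v hv
  have h1 := h _ (star_mem hb) _ (star_mem ha) _ (hM.J_mem_V hv)
  rw [norm_star, norm_star, B.J.norm_map] at h1
  rw [B.inner_R, hM.J_V ha hv, hM.J_V hb hv]
  exact h1.trans_eq (by ring)

end Crest.Agent.R078T
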