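import Crest.Agent.R078T.Acc

/-! Row 78, tracial stage: the `L²` defect is controlled by the weak defect. -/

set_option autoImplicit false

open scoped InnerProductSpace ComplexConjugate

namespace Crest.Agent.R078T

open Crest.Agent.R121 (Mn Bd)

variable {H : Type*} [NormedAddCommGroup H] [InnerProductSpace ℂ H] [CompleteSpace H]
variable {B : Base H} {M N : VonNeumannAlgebra H}

lemma OmLe_quad {c s t : ℝ} (hs : 0 ≤ s) (ht : 0 ≤ t)
    (h : c ^ 2 ≤ 30 * s ^ 2 * t ^ 2 + 6 * 10 ^ 4 * s * t * c) : c ≤ 60001 * s * t := by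
  by_contra hlt
  push Not at hlt
  have hst : 0 ≤ s * t := mul_nonneg hs ht
  have h1 : s * t < c - 6 * 10 ^ 4 * (s * t) := by nlinarith
  have hc : 0 < c := lt_of_le_of_lt (by nlinarith) hlt
  have h2 : c * (s * t) < c * (c - 6 * 10 ^ 4 * (s * t)) := mul_lt_mul_of_pos_left h1 hc
  have h3 : 60001 * (s * t) * (s * t) ≤ c * (s * t) :=
    mul_le_mul_of_nonneg_right (by nlinarith) hst
  nlinarith [mul_nonneg hst hst]

lemma OmLe_unitary {D ω e : ℝ} (hc : B.Ctx M N D ω e) {x n : H →L[ℂ] H} (hx : x ∈ M)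
    (hxu : x ∈ unitary _) (hn : n ∈ N) (hnu : n ∈ unitary _) {v : H} (hv : v ∈ B.V) :
    ‖B.cm x n v‖ ≤ 60001 * √(D * e) * ‖v‖ := by
  obtain ⟨l, hl⟩ := hc.acc
  obtain ⟨l', hl'⟩ := hc.symm.acc
  obtain ⟨hn'u, hLn⟩ := hl' n hn hnu
  obtain ⟨hx'u, hLx⟩ := hl x hx hxu
  have hp : x * l' n ∈ M := mul_mem hx hLn.mem'
  have hpu : x * l' n ∈ unitary (H →L[ℂ] H) := mul_mem hxu hn'u
  obtain ⟨hp'u, hLp⟩ := hl _ hp hpu
  have he := hc.e_nn
  have hD := hc.D_pos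
  set s := √(D * e) with hs
  have hs0 : 0 ≤ s := Real.sqrt_nonneg _
  have hs2 : s ^ 2 = D * e := Real.sq_sqrt (mul_nonneg hD.le he)
  set y := l (x * l' n) - l x * n with hy
  have hyN : y ∈ N := sub_mem hLp.mem' (mul_mem hLx.mem' hn)
  have hyn : ‖y‖ ≤ 30 * D := by
    have e1 : y = -(x * l' n - l (x * l' n)) - x * (n - l' n) + (x - l x) * n := by
      rw [hy]; noncomm_ring
    have h1 : ‖x * (n - l' n)‖ ≤ 10 * D :=
      (norm_mul_le _ _).trans ((mul_le_mul (norm_unitary_le hxu) hLn.norm (norm_nonneg _)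
        zero_le_one).trans_eq (one_mul _))
    have h2 : ‖(x - l x) * n‖ ≤ 10 * D :=
      (norm_mul_le _ _).trans ((mul_le_mul hLx.norm (norm_unitary_le hnu) (norm_nonneg _)
        (by positivity)).trans_eq (mul_one _))
    have h3 : ‖-(x * l' n - l (x * l' n))‖ ≤ 10 * D := by rw [norm_neg]; exact hLp.norm
    rw [e1]
    calc _ ≤ ‖-(x * l' n - l (x * l' n)) - x * (n - l' n)‖ + ‖(x - l x) * n‖ := norm_add_le _ _
      _ ≤ ‖-(x * l' n - l (x * l' n))‖ + ‖x * (n - l' n)‖ + ‖(x - l x) * n‖ := by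
        gcongr; exact norm_sub_le _ _
      _ ≤ 30 * D := by linarith
  set r := x ((n - l' n) v) + (x * l' n - l (x * l' n)) v - B.R n ((x - l x) v) with hr
  have hsplit : B.cm x n v = y v + r := by
    rw [B.cm_apply, hc.gN.R_V hn hv, hr, hy]
    have e2 := hc.gN.apply_apply_V hLx.mem' hn hv
    simp only [ContinuousLinearMap.sub_apply, ContinuousLinearMap.mul_apply, map_sub, e2]
    abel
  have hrn : ‖r‖ ≤ 6 * 10 ^ 4 * s * ‖v‖ := by
    have h1 : ‖x ((n - l' n) v)‖ ≤ 2 * 10 ^ 4 * s * ‖v‖ := by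
      rw [norm_unitary_apply hxu]; exact hLn.sn v hv
    have h2 : ‖(x * l' n - l (x * l' n)) v‖ ≤ 2 * 10 ^ 4 * s * ‖v‖ := hLp.sn v hv
    have h3 : ‖B.R n ((x - l x) v)‖ ≤ 2 * 10 ^ 4 * s * ‖v‖ := by
      rw [norm_unitary_apply (B.R_unitary hnu)]; exact hLx.sn v hv
    calc ‖r‖ ≤ ‖x ((n - l' n) v) + (x * l' n - l (x * l' n)) v‖ + ‖B.R n ((x - l x) v)‖ :=
          norm_sub_le _ _
      _ ≤ ‖x ((n - l' n) v)‖ + ‖(x * l' n - l (x * l' n)) v‖ + ‖B.R n ((x - l x) v)‖ := by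
          gcongr; exact norm_add_le _ _
      _ ≤ _ := by linarith
  set c := B.cm x n v with hcdef
  have h4 : ‖⟪y v, c⟫_ℂ‖ ≤ 30 * s ^ 2 * ‖v‖ ^ 2 := by
    have h5 := hc.ep x hx n hn y hyN v hv v hv
    have h6 : e * ‖x‖ * ‖n‖ ≤ e := by
      calc e * ‖x‖ * ‖n‖ ≤ e * 1 * 1 := by
            gcongr
            · exact norm_unitary_le hxu
            · exact norm_unitary_le hnu
        _ = e := by ring
    calc ‖⟪y v, c⟫_ℂ‖ ≤ e * ‖x‖ * ‖n‖ * ‖y‖ * ‖v‖ * ‖v‖ := h5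
      _ ≤ e * (30 * D) * ‖v‖ * ‖v‖ := by gcongr
      _ = 30 * s ^ 2 * ‖v‖ ^ 2 := by rw [hs2]; ring
  have h7 : ‖⟪r, c⟫_ℂ‖ ≤ 6 * 10 ^ 4 * s * ‖v‖ * ‖c‖ :=
    (norm_inner_le_norm _ _).trans (mul_le_mul_of_nonneg_right hrn (norm_nonneg _))
  have h8 : ‖c‖ ^ 2 ≤ 30 * s ^ 2 * ‖v‖ ^ 2 + 6 * 10 ^ 4 * s * ‖v‖ * ‖c‖ := by
    have e3 : ‖c‖ ^ 2 = ‖⟪c, c⟫_ℂ‖ := by
      rw [inner_self_eq_norm_sq_to_K]; simp
    have e4 : ⟪c, c⟫_ℂ = ⟪y v, c⟫_ℂ + ⟪r, c⟫_ℂ := by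
      rw [← inner_add_left, ← hsplit]
    rw [e3, e4]
    exact (norm_add_le _ _).trans (add_le_add h4 h7)
  exact OmLe_quad hs0 (norm_nonneg _) h8

lemma OmLe_R_sum (c : Fin 4 → ℂ) (u : Fin 4 → (H →L[ℂ] H)) :
    B.R (∑ i, c i • u i) = ∑ i, c i • B.R (u i) := by
  simp only [Fin.sum_univ_four, B.R_add, B.R_smul]

lemma OmLe_cm_sum (c d : Fin 4 → ℂ) (u w : Fin 4 → (H →L[ℂ] H)) (v : H) :
    B.cm (∑ i, c i • u i) (∑ j, d j • w j) v = ∑ i, ∑ j, (c i * d j) • B.cm (u i) (w j) v := by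
  simp only [B.cm_apply, OmLe_R_sum, ContinuousLinearMap.sum_apply,
    ContinuousLinearMap.smul_apply, map_sum, map_smul, smul_sub, Finset.sum_sub_distrib,
    Finset.smul_sum, smul_smul]
  congr 1
  rw [Finset.sum_comm]
  refine Finset.sum_congr rfl fun i _ => Finset.sum_congr rfl fun j _ => ?_
  rw [mul_comm]

/-- Let `l`, `l'` come from `acc` for `(M, N)` and `(N, M)`, `μ = 2 · 10⁴ √(D e)`. For unitaries
`x ∈ M`, `n ∈ N`: `cm x n v = y v + r` with `y = l (x l' n) - l x n ∈ N`, `‖y‖ ≤ 30 D`,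
`r = x (n - l' n) v + (x l' n - l (x l' n)) v - R n ((x - l x) v)`, `‖r‖ ≤ 3 μ ‖v‖`. So
`‖cm x n v‖² ≤ 30 D e ‖v‖² + 3 μ ‖v‖ ‖cm x n v‖` (`ep` with test `y`). General `x`, `n` by
`vn_four_unitary` (factor `4`; `cm` is bilinear). -/
theorem Base.Ctx.om_new {D ω e : ℝ} (hc : B.Ctx M N D ω e) :
    B.Om M N (3 * 10 ^ 5 * √(D * e)) := by
  intro x hx n hn v hv
  obtain ⟨u, c, hu, huu, hxe, hcn⟩ := vn_four_unitary hx
  obtain ⟨w, d, hw, hwu, hne, hdn⟩ := vn_four_unitary hn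
  have hs0 : 0 ≤ √(D * e) := Real.sqrt_nonneg _
  have key : B.cm x n v = ∑ i, ∑ j, (c i * d j) • B.cm (u i) (w j) v := by
    conv_lhs => rw [hxe, hne]
    exact OmLe_cm_sum c d u w v
  have hb : ∀ i j, ‖(c i * d j) • B.cm (u i) (w j) v‖ ≤
      ‖x‖ / 2 * (‖n‖ / 2) * (60001 * √(D * e) * ‖v‖) := fun i j => by
    rw [norm_smul, norm_mul]
    have h1 := OmLe_unitary hc (hu i) (huu i) (hw j) (hwu j) hv
    have h2 := hcn i
    have h3 := hdn j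
    gcongr
  rw [key]
  calc ‖∑ i, ∑ j, (c i * d j) • B.cm (u i) (w j) v‖
      ≤ ∑ i : Fin 4, ∑ j : Fin 4, ‖x‖ / 2 * (‖n‖ / 2) * (60001 * √(D * e) * ‖v‖) :=
        (norm_sum_le _ _).trans (Finset.sum_le_sum fun i _ =>
          (norm_sum_le _ _).trans (Finset.sum_le_sum fun j _ => hb i j))
    _ = 240004 * (√(D * e) * ‖x‖ * ‖n‖ * ‖v‖) := by
        simp only [Finset.sum_const, Finset.card_univ, Fintype.card_fin, nsmul_eq_mul]
        push_cast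
        ring
    _ ≤ 3 * 10 ^ 5 * (√(D * e) * ‖x‖ * ‖n‖ * ‖v‖) := by gcongr; norm_num
    _ = _ := by ring

/-- `absorb` for `P c := 0 ≤ c ∧ Om M N c`, `c₀ = 2 D`, `r = 1 / 2` (`ctx_of`, `om_new`,
`√(D (2 ε + 2 c²)) ≤ √2 (√(D ε) + √D c)`). -/
theorem om_le (hM : B.Good M) (hN : B.Good N) {D ε : ℝ} (hD : 0 < D) (hD1 : D ≤ 1 / 10 ^ 12)
    (hc : Close M N D) (hc' : Close N M D) (hε : B.Ep M N ε) (hε0 : 0 ≤ ε) :
    B.Om M N (10 ^ 6 * √(D * ε)) := by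
  have hD2 : D ≤ 1 / 100 := hD1.trans (by norm_num)
  have hs0 : 0 ≤ √(D * ε) := Real.sqrt_nonneg _
  have key := absorb (P := fun c => 0 ≤ c ∧ B.Om M N c) (a := 5 * 10 ^ 5 * √(D * ε))
    (r := 1 / 2) (c₀ := 2 * D) (by norm_num) (by norm_num)
    (fun c c' h hP => ⟨hP.1.trans h, hP.2.mono h⟩)
    (fun c h => by
      refine ⟨le_of_forall_pos_le_add fun t ht => (h t ht).1, fun x hx n hn v hv => ?_⟩
      refine le_of_forall_pos_le_add fun t ht => ?_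
      set K := ‖x‖ * ‖n‖ * ‖v‖ with hK
      have hK0 : 0 ≤ K := by positivity
      have h1 := (h (t / (K + 1)) (by positivity)).2 x hx n hn v hv
      have h2 : t / (K + 1) * K ≤ t := by
        rw [div_mul_eq_mul_div, div_le_iff₀ (by positivity)]
        nlinarith
      calc ‖B.cm x n v‖ ≤ (c + t / (K + 1)) * ‖x‖ * ‖n‖ * ‖v‖ := h1
        _ = c * ‖x‖ * ‖n‖ * ‖v‖ + t / (K + 1) * K := by rw [hK]; ring
        _ ≤ _ := by linarith)
    ⟨by positivity, om_of_close hN hc⟩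
    (fun c _ hP => by
      have hc0 := hP.1
      refine ⟨by positivity, ?_⟩
      refine (ctx_of hM hN hD hD2 hc hc' hP.2 hε hc0 hε0).om_new.mono ?_
      set s := √(D * ε) with hs
      have hs2 : s ^ 2 = D * ε := Real.sq_sqrt (mul_nonneg hD.le hε0)
      have h1 : √(D * (2 * ε + 2 * c ^ 2)) ≤ 5 / 3 * s + c / (6 * 10 ^ 5) := by
        refine Real.sqrt_le_iff.2 ⟨by positivity, ?_⟩
        have h2 : D * c ^ 2 ≤ 1 / 10 ^ 12 * c ^ 2 := by gcongr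
        have h3 : 0 ≤ s * c := mul_nonneg hs0 hc0
        nlinarith [sq_nonneg s, sq_nonneg c]
      linarith)
  refine key.2.mono (le_of_eq ?_)
  ring

end Crest.Agent.R078T
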