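import Crest.Agent.R078T.Spec
import Crest.Agent.R078T.Cay

/-! Row 78, tracial stage: polarisation with one qubit. -/

set_option autoImplicit false

open scoped InnerProductSpace ComplexConjugate

namespace Crest.Agent.R078T

open Crest.Agent.R121 (Mn Bd)

variable {H : Type*} [NormedAddCommGroup H] [InnerProductSpace ℂ H] [CompleteSpace H]
variable {B : Base H} {M N : VonNeumannAlgebra H}

lemma pol_cm_add_left (x x' n : H →L[ℂ] H) : B.cm (x + x') n = B.cm x n + B.cm x' n := by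
  simp only [Base.cm, add_mul, mul_add]
  abel

lemma pol_cm_add_right (x n n' : H →L[ℂ] H) : B.cm x (n + n') = B.cm x n + B.cm x n' := by
  simp only [Base.cm, Base.R_add, add_mul, mul_add]
  abel

lemma pol_cm_smul_left (c : ℂ) (x n : H →L[ℂ] H) : B.cm (c • x) n = c • B.cm x n := by
  simp only [Base.cm, smul_mul_assoc, mul_smul_comm, smul_sub]

lemma pol_cm_smul_right (c : ℂ) (x n : H →L[ℂ] H) : B.cm x (c • n) = c • B.cm x n := by
  simp only [Base.cm, Base.R_smul, smul_mul_assoc, mul_smul_comm, smul_sub]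

lemma pol_cm_zero (hM : B.Good M) {p y : H →L[ℂ] H} (hp : p ∈ M) (hy : y ∈ M) : B.cm p y = 0 := by
  rw [Base.cm, hM.R_comm hy hp, sub_self]

lemma pol_left (hM : B.Good M) {p y : H →L[ℂ] H} (hp : p ∈ M) (hy : y ∈ M) (n : H →L[ℂ] H)
    (ζ w : H) : ⟪ζ, B.cm (p * n) y w⟫_ℂ = ⟪star p ζ, B.cm n y w⟫_ℂ := by
  have : B.cm (p * n) y = p * B.cm n y := by
    rw [Base.cm, Base.cm, mul_sub, ← mul_assoc (B.R y), hM.R_comm hy hp]
    simp only [mul_assoc]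
  rw [this, inner_star_left]
  rfl

lemma pol_mid (hM : B.Good M) (hN : B.Good N) {q n y : H →L[ℂ] H} (hqM : q ∈ M) (hqN : q ∈ N)
    (hn : n ∈ N) (hy : y ∈ M) {w : H} (hw : w ∈ B.V) : B.cm (n * q) y w = B.cm n (q * y) w := by
  simp only [Base.cm_apply, Base.R_mul, mul_apply_eq_comp]
  rw [hN.R_comm_apply hqN hn, hM.R_V hqM hw, hM.R_comm_apply hy hqM]

lemma pol_right (hN : B.Good N) {p m n : H →L[ℂ] H} (hp : p ∈ N) (hm : m ∈ N) (hn : n ∈ N)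
    (y : H →L[ℂ] H) {w : H} (hw : w ∈ B.V) :
    ⟪m w, B.cm n (y * p) w⟫_ℂ = ⟪(m * star p) w, B.cm n y w⟫_ℂ := by
  have : B.cm n (y * p) = B.R p * B.cm n y := by
    rw [Base.cm, Base.cm, Base.R_mul, mul_sub, ← mul_assoc n, ← hN.R_comm hp hn]
    simp only [mul_assoc]
  rw [this, mul_apply_eq_comp, ← inner_star_left, ← Base.R_star,
    hN.R_comm_apply (star_mem hp) hm, hN.R_V (star_mem hp) hw]
  rfl

lemma pol_norm_mul {x y : H →L[ℂ] H} {α β : ℝ} (hx : ‖x‖ ≤ α) (hy : ‖y‖ ≤ β) : ‖x * y‖ ≤ α * β :=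
  (norm_mul_le _ _).trans (mul_le_mul hx hy (norm_nonneg _) ((norm_nonneg _).trans hx))

lemma pol_norm_mul_one {x y : H →L[ℂ] H} (hx : ‖x‖ ≤ 1) (hy : ‖y‖ ≤ 1) : ‖x * y‖ ≤ 1 := by
  simpa using pol_norm_mul hx hy

lemma pol_cay {N : VonNeumannAlgebra H} {n : H →L[ℂ] H} (hn : n ∈ N) (hn1 : ‖n‖ ≤ 1) {t : ℝ}
    (ht : 0 < t) : ∃ u ∈ N, u ∈ unitary (H →L[ℂ] H) ∧ ‖u - 1‖ ≤ 2 * t ∧
      ‖u - 1 - (t : ℂ) • (n - star n)‖ ≤ 2 * t ^ 2 := by
  set h : H →L[ℂ] H := (-(Complex.I * t / 2) : ℂ) • (n - star n) with hh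
  have hsa : IsSelfAdjoint h := by
    rw [IsSelfAdjoint, hh, star_smul, star_sub, star_star, ← neg_sub n, smul_neg, ← neg_smul]
    congr 1
    simp
    ring
  have hnorm : ‖h‖ ≤ t := by
    have h1 : ‖n - star n‖ ≤ 2 := (norm_sub_le _ _).trans (by rw [norm_star]; linarith)
    have h2 : ‖(-(Complex.I * t / 2) : ℂ)‖ = t / 2 := by simp [abs_of_pos ht]
    rw [hh, norm_smul, h2]
    nlinarith
  refine ⟨cay h, cay_mem hsa (vn_smul_mem _ (sub_mem hn (star_mem hn))), cay_unitary hsa,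
    (norm_cay_sub_one hsa).trans (by linarith), ?_⟩
  have h3 : (t : ℂ) • (n - star n) = (2 * Complex.I) • h := by
    rw [hh, smul_smul]
    congr 1
    linear_combination (t : ℂ) * Complex.I_mul_I
  rw [h3]
  exact (norm_cay_second hsa).trans (by gcongr)

lemma pol_unitary {e a : H →L[ℂ] H} (he : IsStarProjection e) (ua : a ∈ unitary _)
    (hea : e * a = a * e) {ζ : ℂ} (hζ : ζ * conj ζ = 1) :
    e + ζ • ((1 - e) * a) ∈ unitary (H →L[ℂ] H) := by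
  have h1 : e * e = e := he.isIdempotentElem.eq
  have h2 : star e = e := he.isSelfAdjoint.star_eq
  have h3 : star a * a = 1 := Unitary.star_mul_self_of_mem ua
  have h4 : a * star a = 1 := Unitary.mul_star_self_of_mem ua
  have h5 : star a * e = e * star a := by
    have := congrArg star hea
    rwa [star_mul, star_mul, h2] at this
  have hf : (1 - e) * (1 - e) = 1 - e := he.one_sub.isIdempotentElem.eq
  have hef : e * (1 - e) = 0 := by rw [mul_sub, mul_one, h1, sub_self]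
  have hfe : (1 - e) * e = 0 := by rw [sub_mul, one_mul, h1, sub_self]
  have hs : star (e + ζ • ((1 - e) * a)) = e + conj ζ • (star a * (1 - e)) := by
    rw [star_add, star_smul, star_mul, star_sub, star_one, h2]
    rfl
  refine Unitary.mem_iff.2 ⟨?_, ?_⟩
  · have k1 : star a * (1 - e) * ((1 - e) * a) = 1 - e := by
      rw [mul_assoc, ← mul_assoc (1 - e), hf, sub_mul, one_mul, mul_sub, h3, hea, ← mul_assoc, h3,
        one_mul]
    rw [hs, add_mul, mul_add, mul_add, h1, mul_smul_comm, ← mul_assoc, hef, zero_mul, smul_zero,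
      smul_mul_assoc, mul_assoc, hfe, mul_zero, smul_zero, smul_mul_assoc, mul_smul_comm, k1,
      smul_smul, mul_comm (conj ζ), hζ, one_smul]
    abel
  · have k1 : (1 - e) * a * (star a * (1 - e)) = 1 - e := by
      rw [mul_assoc, ← mul_assoc a, h4, one_mul, hf]
    have k2 : e * (star a * (1 - e)) = 0 := by rw [← mul_assoc, ← h5, mul_assoc, hef, mul_zero]
    have k3 : (1 - e) * a * e = 0 := by rw [mul_assoc, ← hea, ← mul_assoc, hfe, zero_mul]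
    rw [hs, add_mul, mul_add, mul_add, h1, mul_smul_comm, k2, smul_zero, smul_mul_assoc, k3,
      smul_zero, smul_mul_assoc, mul_smul_comm, k1, smul_smul, hζ, one_smul]
    abel

lemma pol_scale {x : H →L[ℂ] H} (hx : x ∈ N) : ∃ x' ∈ N, ‖x'‖ ≤ 1 ∧ x = (‖x‖ : ℂ) • x' := by
  by_cases h : x = 0
  · exact ⟨0, zero_mem _, by simp, by simp [h]⟩
  have h0 : ‖x‖ ≠ 0 := norm_ne_zero_iff.2 h
  refine ⟨(‖x‖ : ℂ)⁻¹ • x, vn_smul_mem _ hx, ?_, ?_⟩
  · rw [norm_smul, norm_inv, Complex.norm_real, norm_norm, inv_mul_cancel₀ h0]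
  · rw [smul_smul, mul_inv_cancel₀ (by exact_mod_cast h0), one_smul]

/-- The corner case. `f = 1 - e`. Let `u₀ = cay h₁`, `2 i h₁ = t (n - n⋆)`, `v₀ = cay h₂`,
`2 i h₂ = t (y - y⋆)`, `‖h i‖ ≤ t` (normalised norms): `u₀ e = e + t n + ρ₁ e`,
`e v₀ = e + t y + e ρ₂`, `‖ρ i‖ ≤ 2 t²`. For `‖ζ‖ = 1`, `u = u₀ (e + ζ f a)` is unitary in `N`, and
`⟪u v₀ w, cm u v₀ w⟫ = c₀ + conj ζ c₋ + ζ c₊` with `c₋ = ⟪u₀ f a v₀ w, cm (u₀ e) v₀ w⟫`; averaging
`ζ ⟪…⟫` over `ζ = ±1, ±i` gives `‖c₋‖ ≤ c ‖w‖²`. `cm (u₀ e) v₀ w = cm (u₀ e) (e v₀) w`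
(`e w = R e w`, `R e` commutes with `N` and `e` with `R v₀`), `cm e _ = 0` on `M`,
`cm _ e = 0` on `N`. So `c₋ = t² ⟪f a w, cm n y w⟫ + O (10 t³ b ‖w‖²)`
(`u₀ f a v₀ - f a = (u₀ - 1) f a v₀ + f a (v₀ - 1)`). -/
theorem pol_corner (hM : B.Good M) (hN : B.Good N) {b c t : ℝ} (ht : 0 < t) {w : H} (hw : w ∈ B.V)
    (h4 : ∀ n₁ ∈ N, ∀ n₂ ∈ N, ∀ y₁ ∈ M, ∀ y₂ ∈ M,
      ‖⟪n₂ (y₂ w), B.cm n₁ y₁ w⟫_ℂ‖ ≤ b * ‖n₁‖ * ‖y₁‖ * ‖n₂‖ * ‖y₂‖ * ‖w‖ ^ 2)
    (hd : ∀ n ∈ N, ∀ y ∈ M, n ∈ unitary _ → y ∈ unitary _ →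
      ‖⟪n (y w), B.cm n y w⟫_ℂ‖ ≤ c * ‖w‖ ^ 2)
    {e a n y : H →L[ℂ] H} (he : IsStarProjection e) (heM : e ∈ M) (heN : e ∈ N) (ha : a ∈ N)
    (ua : a ∈ unitary _) (hea : e * a = a * e) (hn : n ∈ N) (hy : y ∈ M) (hn1 : ‖n‖ ≤ 1)
    (hy1 : ‖y‖ ≤ 1) (hn2 : (1 - e) * n * e = n) (hy2 : e * y * (1 - e) = y) :
    ‖⟪((1 - e) * a) w, B.cm n y w⟫_ℂ‖ ≤ (c / t ^ 2 + 10 * t * b) * ‖w‖ ^ 2 := by
  have hβ : 0 ≤ b * ‖w‖ ^ 2 := by
    have : Nontrivial H := ⟨⟨B.ξ, 0, fun h => by simpa [h] using B.norm_ξ⟩⟩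
    have h0 := h4 1 (one_mem _) 1 (one_mem _) 1 (one_mem _) 1 (one_mem _)
    simp only [norm_one, mul_one] at h0
    exact (norm_nonneg _).trans h0
  have h4' : ∀ n₁ ∈ N, ∀ n₂ ∈ N, ∀ y₁ ∈ M, ∀ y₂ ∈ M, ∀ α₁ α₂ α₃ α₄ : ℝ, ‖n₁‖ ≤ α₁ → ‖y₁‖ ≤ α₂ →
      ‖n₂‖ ≤ α₃ → ‖y₂‖ ≤ α₄ →
      ‖⟪n₂ (y₂ w), B.cm n₁ y₁ w⟫_ℂ‖ ≤ α₁ * α₂ * α₃ * α₄ * (b * ‖w‖ ^ 2) := by
    intro n₁ h₁ n₂ h₂ y₁ h₃ y₂ h₅ α₁ α₂ α₃ α₄ k₁ k₂ k₃ k₄
    have := (norm_nonneg _).trans k₁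
    have := (norm_nonneg _).trans k₂
    have := (norm_nonneg _).trans k₃
    refine (h4 n₁ h₁ n₂ h₂ y₁ h₃ y₂ h₅).trans ?_
    calc _ = ‖n₁‖ * ‖y₁‖ * ‖n₂‖ * ‖y₂‖ * (b * ‖w‖ ^ 2) := by ring
      _ ≤ _ := by gcongr
  have h1 : e * e = e := he.isIdempotentElem.eq
  have h2 : star e = e := he.isSelfAdjoint.star_eq
  have hef : e * (1 - e) = 0 := by rw [mul_sub, mul_one, h1, sub_self]
  have hfe : (1 - e) * e = 0 := by rw [sub_mul, one_mul, h1, sub_self]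
  have ne1 : ‖e‖ ≤ 1 := he.norm_le
  have nfa : ‖(1 - e) * a‖ ≤ 1 := pol_norm_mul_one he.one_sub.norm_le (norm_unitary_le ua)
  have mfa : (1 - e) * a ∈ N := mul_mem (sub_mem (one_mem _) heN) ha
  obtain ⟨u₀, hu₀, uu, hu1, hu2⟩ := pol_cay hn hn1 ht
  obtain ⟨v₀, hv₀, uv, hv1, hv2⟩ := pol_cay hy hy1 ht
  set ρ₁ := u₀ - 1 - (t : ℂ) • (n - star n) with hρ₁
  set ρ₂ := v₀ - 1 - (t : ℂ) • (y - star y) with hρ₂
  have mρ₁ : ρ₁ ∈ N :=
    sub_mem (sub_mem hu₀ (one_mem _)) (vn_smul_mem _ (sub_mem hn (star_mem hn)))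
  have mρ₂ : ρ₂ ∈ M :=
    sub_mem (sub_mem hv₀ (one_mem _)) (vn_smul_mem _ (sub_mem hy (star_mem hy)))
  have e1 : (u₀ - 1) * e = (t : ℂ) • n + ρ₁ * e := by
    have k1 : n * e = n := by rw [← hn2, mul_assoc _ e e, h1]
    have k2 : star n * e = 0 := by
      rw [← h2, ← star_mul, ← hn2, ← mul_assoc, ← mul_assoc, hef, zero_mul, zero_mul, star_zero]
    rw [hρ₁, sub_mul (u₀ - 1), smul_mul_assoc, sub_mul n, k1, k2, sub_zero]
    abel
  have e2 : e * (v₀ - 1) = (t : ℂ) • y + e * ρ₂ := by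
    have k1 : e * y = y := by rw [← hy2, ← mul_assoc, ← mul_assoc, h1]
    have k2 : e * star y = 0 := by
      rw [← h2, ← star_mul, ← hy2, mul_assoc, hfe, mul_zero, star_zero]
    rw [hρ₂, mul_sub e (v₀ - 1), mul_smul_comm, mul_sub e y, k1, k2, sub_zero]
    abel
  -- the four unitaries
  have hF : ∀ ζ : ℂ, ζ * conj ζ = 1 → ‖⟪(u₀ * e + ζ • (u₀ * ((1 - e) * a))) (v₀ w),
      B.cm (u₀ * e + ζ • (u₀ * ((1 - e) * a))) v₀ w⟫_ℂ‖ ≤ c * ‖w‖ ^ 2 := by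
    intro ζ hζ
    refine hd _ (add_mem (mul_mem hu₀ heN) (vn_smul_mem _ (mul_mem hu₀ mfa))) _ hv₀ ?_ uv
    rw [← mul_smul_comm, ← mul_add]
    exact mul_mem uu (pol_unitary he ua hea hζ)
  have hc : ‖⟪(u₀ * ((1 - e) * a)) (v₀ w), B.cm (u₀ * e) v₀ w⟫_ℂ‖ ≤ c * ‖w‖ ^ 2 := by
    have f1 := hF 1 (by simp)
    have f2 := hF (-1) (by simp)
    have f3 := hF Complex.I (by simp)
    have f4 := hF (-Complex.I) (by simp)
    set F : ℂ → ℂ := fun ζ => ⟪(u₀ * e + ζ • (u₀ * ((1 - e) * a))) (v₀ w),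
      B.cm (u₀ * e + ζ • (u₀ * ((1 - e) * a))) v₀ w⟫_ℂ with hFd
    have k : (4 : ℂ) * ⟪(u₀ * ((1 - e) * a)) (v₀ w), B.cm (u₀ * e) v₀ w⟫_ℂ =
        F 1 - F (-1) + Complex.I * F Complex.I - Complex.I * F (-Complex.I) := by
      simp only [hFd, pol_cm_add_left, pol_cm_smul_left, add_apply,
        smul_apply, inner_add_left, inner_add_right, inner_smul_left,
        inner_smul_right, map_one, map_neg, Complex.conj_I]
      linear_combination (2 * ⟪(u₀ * ((1 - e) * a)) (v₀ w), B.cm (u₀ * e) v₀ w⟫_ℂ -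
        2 * ⟪(u₀ * e) (v₀ w), B.cm (u₀ * ((1 - e) * a)) v₀ w⟫_ℂ) * Complex.I_mul_I
    have k2 : ‖F 1 - F (-1) + Complex.I * F Complex.I - Complex.I * F (-Complex.I)‖ ≤
        ‖F 1‖ + ‖F (-1)‖ + ‖F Complex.I‖ + ‖F (-Complex.I)‖ := by
      refine (norm_sub_le _ _).trans (add_le_add ((norm_add_le _ _).trans
        (add_le_add (norm_sub_le _ _) ?_)) ?_) <;> simp
    rw [← k, norm_mul] at k2
    simp only [Complex.norm_ofNat] at k2
    change ‖F 1‖ ≤ _ at f1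
    change ‖F (-1)‖ ≤ _ at f2
    change ‖F Complex.I‖ ≤ _ at f3
    change ‖F (-Complex.I)‖ ≤ _ at f4
    linarith
  have m1 : (u₀ - 1) * e ∈ N := mul_mem (sub_mem hu₀ (one_mem _)) heN
  have m2 : e * (v₀ - 1) ∈ M := mul_mem heM (sub_mem hv₀ (one_mem _))
  have e3 : B.cm (u₀ * e) v₀ w = ((t : ℂ) ^ 2) • B.cm n y w + (t : ℂ) • B.cm (ρ₁ * e) y w +
      B.cm ((u₀ - 1) * e) (e * ρ₂) w := by
    have k1 : u₀ * e = e + (u₀ - 1) * e := by rw [sub_mul, one_mul]; abel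
    have k2 : e * v₀ = e + e * (v₀ - 1) := by rw [mul_sub, mul_one]; abel
    have k3 : B.cm ((u₀ - 1) * e) e = 0 := by
      rw [Base.cm, hN.R_comm heN m1, sub_self]
    calc B.cm (u₀ * e) v₀ w = B.cm (u₀ * e * e) v₀ w := by rw [mul_assoc, h1]
      _ = B.cm (u₀ * e) (e * v₀) w := pol_mid hM hN heM heN (mul_mem hu₀ heN) hv₀ hw
      _ = B.cm ((u₀ - 1) * e) (e * (v₀ - 1)) w := by
          rw [k1, pol_cm_add_left, pol_cm_zero hM heM (mul_mem heM hv₀), zero_add, k2,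
            pol_cm_add_right, k3, zero_add]
      _ = _ := by
          rw [e2, pol_cm_add_right, pol_cm_smul_right]
          conv_lhs => enter [1, 1]; rw [e1, pol_cm_add_left, pol_cm_smul_left]
          simp only [add_apply, smul_apply, smul_add,
            smul_smul, sq]
  have e4 : (u₀ * ((1 - e) * a)) (v₀ w) = ((1 - e) * a) w +
      ((u₀ - 1) * ((1 - e) * a)) (v₀ w) + ((1 - e) * a) ((v₀ - 1) w) := by
    simp only [sub_mul u₀, one_mul, sub_apply, map_sub,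
      one_apply_eq_self]
    abel
  have nu := norm_unitary_le uu
  have nv := norm_unitary_le uv
  have b1 := h4' _ (mul_mem mρ₁ heN) _ (mul_mem hu₀ mfa) _ hy _ hv₀ _ _ _ _
    (pol_norm_mul hu2 ne1) hy1 (pol_norm_mul_one nu nfa) nv
  have b2 := h4' _ m1 _ (mul_mem hu₀ mfa) _ (mul_mem heM mρ₂) _ hv₀ _ _ _ _
    (pol_norm_mul hu1 ne1) (pol_norm_mul ne1 hv2) (pol_norm_mul_one nu nfa) nv
  have b3 := h4' _ hn _ (mul_mem (sub_mem hu₀ (one_mem _)) mfa) _ hy _ hv₀ _ _ _ _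
    hn1 hy1 (pol_norm_mul hu1 nfa) nv
  have b4 := h4' _ hn _ mfa _ hy _ (sub_mem hv₀ (one_mem _)) _ _ _ _ hn1 hy1 nfa hv1
  have e5 : (t : ℂ) ^ 2 * ⟪((1 - e) * a) w, B.cm n y w⟫_ℂ =
      ⟪(u₀ * ((1 - e) * a)) (v₀ w), B.cm (u₀ * e) v₀ w⟫_ℂ -
        (t : ℂ) * ⟪(u₀ * ((1 - e) * a)) (v₀ w), B.cm (ρ₁ * e) y w⟫_ℂ -
        ⟪(u₀ * ((1 - e) * a)) (v₀ w), B.cm ((u₀ - 1) * e) (e * ρ₂) w⟫_ℂ -
        (t : ℂ) ^ 2 * ⟪((u₀ - 1) * ((1 - e) * a)) (v₀ w), B.cm n y w⟫_ℂ -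
        (t : ℂ) ^ 2 * ⟪((1 - e) * a) ((v₀ - 1) w), B.cm n y w⟫_ℂ := by
    rw [e3, inner_add_right, inner_add_right, inner_smul_right, inner_smul_right]
    conv_rhs => enter [1, 1, 1, 1, 1, 1]; rw [e4, inner_add_left, inner_add_left]
    ring
  have nt : ‖(t : ℂ)‖ = t := by simp [abs_of_pos ht]
  have e6 : t ^ 2 * ‖⟪((1 - e) * a) w, B.cm n y w⟫_ℂ‖ ≤
      c * ‖w‖ ^ 2 + 10 * t ^ 3 * (b * ‖w‖ ^ 2) := by
    have k := congrArg norm e5
    rw [norm_mul, norm_pow, nt] at k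
    rw [k]
    refine (norm_sub_le _ _).trans ((add_le_add ((norm_sub_le _ _).trans (add_le_add
      ((norm_sub_le _ _).trans (add_le_add (norm_sub_le _ _) le_rfl)) le_rfl)) le_rfl).trans ?_)
    simp only [norm_mul, norm_pow, nt]
    have k1 := mul_le_mul_of_nonneg_left b1 ht.le
    have k3 := mul_le_mul_of_nonneg_left b3 (sq_nonneg t)
    have k4 := mul_le_mul_of_nonneg_left b4 (sq_nonneg t)
    nlinarith
  refine le_of_mul_le_mul_left (e6.trans (le_of_eq ?_)) (pow_pos ht 2)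
  field_simp

/-- `e = (1 + Y 0) / 2`, `X = X 0` exchanges `e` and `f = 1 - e`. For `p, q ∈ M ∩ N`,
`T (m, n, y) = ⟪m w, cm n y w⟫` satisfies `T (m, p n q, y) = T (p⋆ m, n, q y)` and
`T (m, n, y p) = T (m p⋆, n, y)`. Insert `1 = e + f = X⋆ f X + f = e + X e X⋆` three times to
write `T (m, n, y)` as a sum of eight terms `T (f m' f, f n' e, e y' f)` with norms not increased;
`f m' f = h + i k` with self-adjoint `h`, `k` commuting with `e`, each half the sum of `f U`, `f U⋆`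
(`exists_unitary_re`). -/
theorem polarise (hM : B.Good M) (hN : B.Good N) {b c t : ℝ} (ht : 0 < t) (hb : 0 ≤ b)
    (hc : 0 ≤ c) {w : H} (hw : w ∈ B.V)
    (h4 : ∀ n₁ ∈ N, ∀ n₂ ∈ N, ∀ y₁ ∈ M, ∀ y₂ ∈ M,
      ‖⟪n₂ (y₂ w), B.cm n₁ y₁ w⟫_ℂ‖ ≤ b * ‖n₁‖ * ‖y₁‖ * ‖n₂‖ * ‖y₂‖ * ‖w‖ ^ 2)
    (hd : ∀ n ∈ N, ∀ y ∈ M, n ∈ unitary _ → y ∈ unitary _ →
      ‖⟪n (y w), B.cm n y w⟫_ℂ‖ ≤ c * ‖w‖ ^ 2) {m n y : H →L[ℂ] H} (hm : m ∈ N) (hn : n ∈ N)
    (hy : y ∈ M) :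
    ‖⟪m w, B.cm n y w⟫_ℂ‖ ≤ (16 * c / t ^ 2 + 160 * t * b) * ‖m‖ * ‖n‖ * ‖y‖ * ‖w‖ ^ 2 := by
  set K := (c / t ^ 2 + 10 * t * b) * ‖w‖ ^ 2 with hK
  set U := B.u (B.X 0) with hU
  set Y := B.u (B.Y 0) with hY
  have uU : U ∈ unitary (H →L[ℂ] H) := B.u_unitary _
  have hYY : Y * Y = 1 := by rw [hY, ← B.u_mul, B.Y_sq, B.u_one]
  have hYs : star Y = Y := by
    rw [hY, ← B.u_inv, inv_eq_of_mul_eq_one_right (B.Y_sq 0)]
  have hUY : U * Y = -(Y * U) := B.XY_anti 0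
  set e : H →L[ℂ] H := (1 / 2 : ℂ) • (1 + Y) with he'
  have he : IsStarProjection e := by
    refine ⟨?_, ?_⟩
    · rw [IsIdempotentElem, he', smul_mul_smul_comm, add_mul, mul_add, mul_add, hYY]
      simp only [one_mul, mul_one]
      module
    · rw [IsSelfAdjoint, he', star_smul, star_add, star_one, hYs]
      simp
  have heM : e ∈ M := vn_smul_mem _ (add_mem (one_mem _) (hM.u_mem _))
  have heN : e ∈ N := vn_smul_mem _ (add_mem (one_mem _) (hN.u_mem _))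
  have hUe : U * e = (1 - e) * U := by
    rw [he', mul_smul_comm, mul_add, hUY, sub_mul, smul_mul_assoc, add_mul]
    simp only [one_mul, mul_one]
    module
  clear_value e
  have hUM : U ∈ M := hM.u_mem _
  have hUN : U ∈ N := hN.u_mem _
  clear_value U
  have hUU : star U * U = 1 := Unitary.star_mul_self_of_mem uU
  have hUU' : U * star U = 1 := Unitary.mul_star_self_of_mem uU
  have nU : ‖U‖ ≤ 1 := norm_unitary_le uU
  have nU' : ‖star U‖ ≤ 1 := by rwa [norm_star]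
  have hee : e * e = e := he.isIdempotentElem.eq
  have hff : (1 - e) * (1 - e) = 1 - e := he.one_sub.isIdempotentElem.eq
  have hfs : star (1 - e) = 1 - e := he.one_sub.isSelfAdjoint.star_eq
  have hef : e * (1 - e) = 0 := by rw [mul_sub, mul_one, hee, sub_self]
  have hfe : (1 - e) * e = 0 := by rw [sub_mul, one_mul, hee, sub_self]
  have ne1 : ‖e‖ ≤ 1 := he.norm_le
  have nf1 : ‖1 - e‖ ≤ 1 := he.one_sub.norm_le
  have hfM : 1 - e ∈ M := sub_mem (one_mem _) heM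
  have hfN : 1 - e ∈ N := sub_mem (one_mem _) heN
  have d1 : (1 : H →L[ℂ] H) = e + U * e * star U := by
    rw [hUe, mul_assoc, hUU', mul_one]; abel
  have d2 : (1 : H →L[ℂ] H) = (1 - e) + star U * (1 - e) * U := by
    rw [mul_assoc, ← hUe, ← mul_assoc, hUU, one_mul]; abel
  -- self-adjoint corner
  have S0 : ∀ h ∈ N, IsSelfAdjoint h → ‖h‖ ≤ 1 → (1 - e) * h = h → ∀ n ∈ N, ∀ y ∈ M, ‖n‖ ≤ 1 →
      ‖y‖ ≤ 1 → (1 - e) * n * e = n → e * y * (1 - e) = y → ‖⟪h w, B.cm n y w⟫_ℂ‖ ≤ K := by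
    intro h hh hsa h1 hf n hn y hy hn1 hy1 hn2 hy2
    obtain ⟨V, uV, hV, hhV⟩ := exists_unitary_re hsa h1
    have hVN : V ∈ N := vn_mem_of_comm fun T hT => hV T (vn_comm hh hT)
    have hf' : h * (1 - e) = h := by
      have := congrArg star hf
      rwa [star_mul, hfs, hsa.star_eq] at this
    have heV : e * V = V * e := hV e (by
      rw [← hf, ← mul_assoc, hef, zero_mul, hf, ← hf', mul_assoc, hfe, mul_zero])
    have heV' : e * star V = star V * e := by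
      have := congrArg star heV
      rw [star_mul, star_mul, he.isSelfAdjoint.star_eq] at this
      exact this.symm
    have k1 := pol_corner hM hN ht hw h4 hd he heM heN hVN uV heV hn hy hn1 hy1 hn2 hy2
    have k2 := pol_corner hM hN ht hw h4 hd he heM heN (star_mem hVN) (Unitary.star_mem uV) heV'
      hn hy hn1 hy1 hn2 hy2
    have k3 : h = (1 / 2 : ℂ) • ((1 - e) * V + (1 - e) * star V) := by
      rw [← mul_add, ← mul_smul_comm, ← hhV, hf]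
    rw [k3, smul_apply, add_apply, inner_smul_left,
      inner_add_left, norm_mul]
    have k4 := norm_add_le ⟪((1 - e) * V) w, B.cm n y w⟫_ℂ ⟪((1 - e) * star V) w, B.cm n y w⟫_ℂ
    have k5 : ‖conj (1 / 2 : ℂ)‖ = 1 / 2 := by simp
    rw [k5]
    linarith
  have S1 : ∀ m ∈ N, ∀ n ∈ N, ∀ y ∈ M, ‖m‖ ≤ 1 → ‖n‖ ≤ 1 → ‖y‖ ≤ 1 →
      ‖⟪m w, B.cm ((1 - e) * n * e) (e * y * (1 - e)) w⟫_ℂ‖ ≤ 2 * K := by
    intro m hm n hn y hy hm1 hn1 hy1
    have mn : (1 - e) * n * e ∈ N := mul_mem (mul_mem hfN hn) heN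
    have my : e * y * (1 - e) ∈ M := mul_mem (mul_mem heM hy) hfM
    have nn : ‖(1 - e) * n * e‖ ≤ 1 := pol_norm_mul_one (pol_norm_mul_one nf1 hn1) ne1
    have ny : ‖e * y * (1 - e)‖ ≤ 1 := pol_norm_mul_one (pol_norm_mul_one ne1 hy1) nf1
    have cn : (1 - e) * ((1 - e) * n * e) * e = (1 - e) * n * e := by
      rw [← mul_assoc, ← mul_assoc, hff, mul_assoc _ e e, hee]
    have cy : e * (e * y * (1 - e)) * (1 - e) = e * y * (1 - e) := by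
      rw [← mul_assoc, ← mul_assoc, hee, mul_assoc _ (1 - e) (1 - e), hff]
    generalize (1 - e) * n * e = n' at mn nn cn ⊢
    generalize e * y * (1 - e) = y' at my ny cy ⊢
    have cn' : (1 - e) * n' = n' := by rw [← cn, ← mul_assoc, ← mul_assoc, hff]
    have cy' : y' * (1 - e) = y' := by rw [← cy, mul_assoc _ (1 - e) (1 - e), hff]
    set g := (1 - e) * (m * (1 - e)) with hg
    have mg : g ∈ N := mul_mem hfN (mul_mem hm hfN)
    have ng : ‖g‖ ≤ 1 := pol_norm_mul_one nf1 (pol_norm_mul_one hm1 nf1)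
    have fg : (1 - e) * g = g := by rw [hg, ← mul_assoc, hff]
    have fg' : (1 - e) * star g = star g := by
      rw [← hfs, ← star_mul, hg, mul_assoc, mul_assoc, hff]
    have k1 : ⟪m w, B.cm n' y' w⟫_ℂ = ⟪g w, B.cm n' y' w⟫_ℂ := by
      conv_lhs => rw [← cy', pol_right hN hfN hm mn y' hw, ← cn', pol_left hM hfM my, hfs]
      rfl
    have ns : ‖g + star g‖ ≤ 2 := (norm_add_le _ _).trans (by rw [norm_star]; linarith)
    have nd : ‖g - star g‖ ≤ 2 := (norm_sub_le _ _).trans (by rw [norm_star]; linarith)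
    have k2 := S0 ((1 / 2 : ℂ) • (g + star g)) (vn_smul_mem _ (add_mem mg (star_mem mg)))
      (by rw [IsSelfAdjoint, star_smul, star_add, star_star, add_comm]; simp)
      (by rw [norm_smul]; simp; linarith) (by rw [mul_smul_comm, mul_add, fg, fg'])
      n' mn y' my nn ny cn cy
    have k3 := S0 ((-(Complex.I / 2) : ℂ) • (g - star g))
      (vn_smul_mem _ (sub_mem mg (star_mem mg)))
      (by
        rw [IsSelfAdjoint, star_smul, star_sub, star_star, ← neg_sub g, smul_neg, ← neg_smul]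
        congr 1
        simp
        ring)
      (by rw [norm_smul]; simp; linarith) (by rw [mul_smul_comm, mul_sub, fg, fg'])
      n' mn y' my nn ny cn cy
    have k4 : g = (1 / 2 : ℂ) • (g + star g) +
        Complex.I • ((-(Complex.I / 2) : ℂ) • (g - star g)) := by
      rw [smul_smul, show Complex.I * -(Complex.I / 2) = 1 / 2 by
        linear_combination (-1 / 2 : ℂ) * Complex.I_mul_I]
      module
    have k5 : g w = ((1 / 2 : ℂ) • (g + star g)) w +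
        Complex.I • ((-(Complex.I / 2) : ℂ) • (g - star g)) w := by
      conv_lhs => rw [k4]
      rfl
    rw [k1, k5, inner_add_left, inner_smul_left]
    refine (norm_add_le _ _).trans ?_
    rw [norm_mul, Complex.norm_conj, Complex.norm_I, one_mul]
    linarith
  have S1' : ∀ m ∈ N, ∀ n ∈ N, ∀ y ∈ M, ‖m‖ ≤ 1 → ‖n‖ ≤ 1 → ‖y‖ ≤ 1 →
      ‖⟪m w, B.cm ((1 - e) * n * e) (y * (1 - e)) w⟫_ℂ‖ ≤ 2 * K := by
    intro m hm n hn y hy hm1 hn1 hy1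
    have k := pol_mid hM hN heM heN (mul_mem (mul_mem hfN hn) heN) (mul_mem hy hfM) hw
    rw [mul_assoc _ e e, hee, ← mul_assoc] at k
    rw [k]
    exact S1 m hm n hn y hy hm1 hn1 hy1
  have S2 : ∀ m ∈ N, ∀ n ∈ N, ∀ y ∈ M, ‖m‖ ≤ 1 → ‖n‖ ≤ 1 → ‖y‖ ≤ 1 →
      ‖⟪m w, B.cm ((1 - e) * n) (y * (1 - e)) w⟫_ℂ‖ ≤ 4 * K := by
    intro m hm n hn y hy hm1 hn1 hy1
    have k1 : (1 - e) * n = (1 - e) * n * e + (1 - e) * (n * U) * e * star U := by
      have := congrArg (fun T => (1 - e) * n * T) d1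
      simpa only [mul_one, mul_add, mul_assoc] using this
    have k2 := S1' m hm n hn y hy hm1 hn1 hy1
    have k3 := S1' m hm _ (mul_mem hn hUN) _ (mul_mem (star_mem hUM) hy) hm1
      (pol_norm_mul_one hn1 nU) (pol_norm_mul_one nU' hy1)
    rw [k1, pol_cm_add_left, add_apply, inner_add_right,
      pol_mid hM hN (star_mem hUM) (star_mem hUN) (mul_mem (mul_mem hfN (mul_mem hn hUN)) heN)
        (mul_mem hy hfM) hw, ← mul_assoc (star U)]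
    exact (norm_add_le _ _).trans (by linarith)
  have S3 : ∀ m ∈ N, ∀ n ∈ N, ∀ y ∈ M, ‖m‖ ≤ 1 → ‖n‖ ≤ 1 → ‖y‖ ≤ 1 →
      ‖⟪m w, B.cm n (y * (1 - e)) w⟫_ℂ‖ ≤ 8 * K := by
    intro m hm n hn y hy hm1 hn1 hy1
    have k1 : n = (1 - e) * n + star U * ((1 - e) * (U * n)) := by
      have := congrArg (fun T => T * n) d2
      simpa only [one_mul, add_mul, mul_assoc] using this
    have k2 := S2 m hm n hn y hy hm1 hn1 hy1
    have k3 := S2 _ (mul_mem hUN hm) _ (mul_mem hUN hn) y hy (pol_norm_mul_one nU hm1)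
      (pol_norm_mul_one nU hn1) hy1
    rw [k1, pol_cm_add_left, add_apply, inner_add_right,
      pol_left hM (star_mem hUM) (mul_mem hy hfM), star_star]
    exact (norm_add_le _ _).trans (by
      change _ + ‖⟪(U * m) w, _⟫_ℂ‖ ≤ _
      linarith)
  have S4 : ∀ m ∈ N, ∀ n ∈ N, ∀ y ∈ M, ‖m‖ ≤ 1 → ‖n‖ ≤ 1 → ‖y‖ ≤ 1 →
      ‖⟪m w, B.cm n y w⟫_ℂ‖ ≤ 16 * K := by
    intro m hm n hn y hy hm1 hn1 hy1
    have k1 : y = y * (1 - e) + y * star U * (1 - e) * U := by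
      have := congrArg (fun T => y * T) d2
      simpa only [mul_one, mul_add, mul_assoc] using this
    have k2 := S3 m hm n hn y hy hm1 hn1 hy1
    have k3 := S3 _ (mul_mem hm (star_mem hUN)) n hn _ (mul_mem hy (star_mem hUM))
      (pol_norm_mul_one hm1 nU') hn1 (pol_norm_mul_one hy1 nU')
    rw [k1, pol_cm_add_right, add_apply, inner_add_right,
      pol_right hN hUN hm hn _ hw]
    exact (norm_add_le _ _).trans (by linarith)
  obtain ⟨m', hm', nm, em⟩ := pol_scale hm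
  obtain ⟨n', hn', nn, en⟩ := pol_scale hn
  obtain ⟨y', hy', ny, ey⟩ := pol_scale hy
  have k := S4 m' hm' n' hn' y' hy' nm nn ny
  have k2 : ‖⟪m w, B.cm n y w⟫_ℂ‖ = ‖m‖ * ‖n‖ * ‖y‖ * ‖⟪m' w, B.cm n' y' w⟫_ℂ‖ := by
    conv_lhs => rw [em, en, ey]
    simp only [pol_cm_smul_left, pol_cm_smul_right, smul_apply,
      inner_smul_left, inner_smul_right, norm_mul, Complex.norm_conj, Complex.norm_real, norm_norm]
    ring
  rw [k2]
  refine (mul_le_mul_of_nonneg_left k (by positivity)).trans (le_of_eq ?_)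
  rw [hK]
  ring

end Crest.Agent.R078T
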