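import Crest.Agent.R078T.OmLe
import Crest.Agent.R078T.DetD
import Crest.Agent.R078T.Cob
import Crest.Agent.R078T.Diag
import Crest.Agent.R078T.Pol

/-! Row 78, tracial stage: the Newton step in the weak norm. -/

set_option autoImplicit false

open scoped InnerProductSpace ComplexConjugate

namespace Crest.Agent.R078T

open Crest.Agent.R121 (Mn Bd)

variable {H : Type*} [NormedAddCommGroup H] [InnerProductSpace ℂ H] [CompleteSpace H]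
variable {B : Base H} {M N : VonNeumannAlgebra H}

/-- `absorb` for `P b := 0 ≤ b ∧ ∀ m n ∈ N, y ∈ M, w ∈ V,
‖⟪m w, cm n y w⟫‖ ≤ b ‖m‖ ‖n‖ ‖y‖ ‖w‖²`, `c₀ = 2 D` (`ep_of_close`, `ep_iff`), `r = 2 / 5`:
replacing `y₂` by its lift (`exists_lift0` with `ep_of_close`) gives the four-linear bound
`2 b + 2 ω²`; `polarise` with `t = 1 / 1000`. Then `two_weight`, `ep_iff`. -/
theorem ep_of_diag (hM : B.Good M) (hN : B.Good N) {D ω c : ℝ} (hD : 0 < D) (hD1 : D ≤ 1 / 100)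
    (hc : Close M N D) (hω : B.Om M N ω) (hω0 : 0 ≤ ω) (hc0 : 0 ≤ c)
    (hd : ∀ w ∈ B.V, ∀ n ∈ N, ∀ y ∈ M, n ∈ unitary _ → y ∈ unitary _ →
      ‖⟪n (y w), B.cm n y w⟫_ℂ‖ ≤ c * ‖w‖ ^ 2) : B.Ep M N (10 ^ 8 * c + 2 * ω ^ 2) := by
  have hω' := om_symm hM hω
  have hE := ep_of_close hN hc
  have key := absorb (P := fun b => 0 ≤ b ∧ ∀ m ∈ N, ∀ n ∈ N, ∀ y ∈ M, ∀ w ∈ B.V,
      ‖⟪m w, B.cm n y w⟫_ℂ‖ ≤ b * ‖m‖ * ‖n‖ * ‖y‖ * ‖w‖ ^ 2)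
    (a := 16 * 10 ^ 6 * c + 8 / 25 * ω ^ 2) (r := 2 / 5) (c₀ := 2 * D) (by norm_num) (by norm_num)
    (fun b b' hb h => ⟨h.1.trans hb, fun m hm n hn y hy w hw =>
      (h.2 m hm n hn y hy w hw).trans (by gcongr)⟩)
    (fun b h => ⟨le_of_forall_pos_le_add fun η hη => (h η hη).1, fun m hm n hn y hy w hw => by
      refine le_of_forall_pos_le_add fun η hη => ?_
      have hK : 0 ≤ ‖m‖ * ‖n‖ * ‖y‖ * ‖w‖ ^ 2 := by positivity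
      have h1 := (h (η / (‖m‖ * ‖n‖ * ‖y‖ * ‖w‖ ^ 2 + 1)) (by positivity)).2 m hm n hn y hy w hw
      have h2 : η / (‖m‖ * ‖n‖ * ‖y‖ * ‖w‖ ^ 2 + 1) * (‖m‖ * ‖n‖ * ‖y‖ * ‖w‖ ^ 2) ≤ η := by
        rw [div_mul_eq_mul_div, div_le_iff₀ (by positivity)]
        nlinarith
      nlinarith⟩)
    ⟨by positivity, fun m hm n hn y hy w hw =>
      ((ep_iff hN).1 hE n hn y hy m hm w hw w hw).trans (le_of_eq (by ring))⟩
    (fun b _ h => ⟨by have := h.1; positivity, fun m hm n hn y hy w hw => by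
      have hb := h.1
      have h4 : ∀ n₁ ∈ N, ∀ n₂ ∈ N, ∀ y₁ ∈ M, ∀ y₂ ∈ M, ‖⟪n₂ (y₂ w), B.cm n₁ y₁ w⟫_ℂ‖ ≤
          (2 * b + 2 * ω ^ 2) * ‖n₁‖ * ‖y₁‖ * ‖n₂‖ * ‖y₂‖ * ‖w‖ ^ 2 := by
        intro n₁ hn₁ n₂ hn₂ y₁ hy₁ y₂ hy₂
        obtain ⟨y', hy', l1, l2, -⟩ := exists_lift0 hM hN hD hc hω hE (by positivity) hy₂
        have e : n₂ (y₂ w) = (n₂ * y') w + n₂ ((y₂ - y') w) := by
          simp
        have a1 := h.2 _ (mul_mem hn₂ hy') n₁ hn₁ y₁ hy₁ w hw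
        have a2 : ‖y'‖ ≤ 2 * ‖y₂‖ := by
          have := norm_sub_le y₂ (y₂ - y')
          rw [sub_sub_cancel] at this
          nlinarith [norm_nonneg y₂]
        have a3 : ‖n₂ * y'‖ ≤ ‖n₂‖ * (2 * ‖y₂‖) := (norm_mul_le _ _).trans (by gcongr)
        have a4 : ‖⟪n₂ ((y₂ - y') w), B.cm n₁ y₁ w⟫_ℂ‖ ≤
            ‖n₂‖ * (2 * ω * ‖y₂‖ * ‖w‖) * (ω * ‖n₁‖ * ‖y₁‖ * ‖w‖) := by
          refine (norm_inner_le_norm _ _).trans ?_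
          have := l2 w hw
          have := hω' n₁ hn₁ y₁ hy₁ w hw
          gcongr
          exact (n₂.le_opNorm _).trans (by gcongr)
        rw [e, inner_add_left]
        refine (norm_add_le _ _).trans ?_
        have a5 : b * ‖n₂ * y'‖ * ‖n₁‖ * ‖y₁‖ * ‖w‖ ^ 2 ≤
            b * (‖n₂‖ * (2 * ‖y₂‖)) * ‖n₁‖ * ‖y₁‖ * ‖w‖ ^ 2 := by gcongr
        nlinarith
      refine (polarise hM hN (t := 1 / 1000) (by norm_num) (by positivity) hc0 hw h4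
        (hd w hw) hm hn hy).trans ?_
      have a6 : 16 * c / (1 / 1000) ^ 2 + 160 * (1 / 1000) * (2 * b + 2 * ω ^ 2) ≤
          16 * 10 ^ 6 * c + 8 / 25 * ω ^ 2 + 2 / 5 * b := by
        have : 16 * c / (1 / 1000) ^ 2 = 16 * 10 ^ 6 * c := by ring
        rw [this]
        linarith
      exact mul_le_mul_of_nonneg_right (mul_le_mul_of_nonneg_right (mul_le_mul_of_nonneg_right
        (mul_le_mul_of_nonneg_right a6 (norm_nonneg _)) (norm_nonneg _)) (norm_nonneg _))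
        (sq_nonneg _)⟩)
  refine (ep_iff hN).2 fun n hn y hy m hm v hv w hw => ?_
  refine (B.two_weight (c := (16 * 10 ^ 6 * c + 8 / 25 * ω ^ 2) / (1 - 2 / 5) * ‖m‖ * ‖n‖ * ‖y‖)
    (fun u hu => key.2 m hm n hn y hy u hu) hv hw).trans ?_
  have hK : 0 ≤ ‖m‖ * ‖n‖ * ‖y‖ * ‖v‖ * ‖w‖ := by positivity
  have : 2 * ((16 * 10 ^ 6 * c + 8 / 25 * ω ^ 2) / (1 - 2 / 5)) ≤ 10 ^ 8 * c + 2 * ω ^ 2 := by
    have : 2 * ((16 * 10 ^ 6 * c + 8 / 25 * ω ^ 2) / (1 - 2 / 5)) =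
      160 / 3 * 10 ^ 6 * c + 16 / 15 * ω ^ 2 := by ring
    rw [this]
    linarith [sq_nonneg ω]
  nlinarith [mul_le_mul_of_nonneg_right this hK]

/-- `ω = 10⁶ √(D ε)`, `ω² = 10¹² D ε ≤ ε`, `e = 2 ε + 2 ω² ≤ 4 ε`, `K = 10⁷ ε ≤ 2 · 10⁷ D`,
`O = 10¹⁶ D ε`, `O' = 30 O`; the diagonal constant is `≤ 10¹⁸ D ε`, `ω₁ = ω + 4 K`,
`ω₁² ≤ 10¹⁶ D ε`, `D₁ = 1 / 100`. -/
theorem step (hM : B.Good M) (hN : B.Good N) {D ε : ℝ} (hD : 0 < D) (hD1 : D ≤ 1 / 10 ^ 27)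
    (hc : Close M N D) (hc' : Close N M D) (hε : B.Ep M N ε) (hε0 : 0 ≤ ε) (hε1 : ε ≤ 2 * D) :
    ∃ U, ∃ hU : B.Sym U, ‖U - 1‖ ≤ 10 ^ 7 * ε ∧ B.Ep (conjVN U hU.mem M) N (ε / 2) := by
  have hω := om_le hM hN hD (hD1.trans (by norm_num)) hc hc' hε hε0
  obtain ⟨ω, hωd⟩ : ∃ ω, ω = 10 ^ 6 * √(D * ε) := ⟨_, rfl⟩
  rw [← hωd] at hω
  have hω0 : 0 ≤ ω := by rw [hωd]; positivity
  have hDε : 0 ≤ D * ε := by positivity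
  have hω2 : ω ^ 2 = 10 ^ 12 * (D * ε) := by
    rw [hωd, mul_pow, Real.sq_sqrt hDε]; norm_num
  have hDε1 : D * ε ≤ 1 / 10 ^ 27 * ε := by gcongr
  have hε2 : ε ^ 2 ≤ 2 * (D * ε) := by nlinarith
  have ctx := ctx_of hM hN hD (hD1.trans (by norm_num)) hc hc' hω hε hω0 hε0
  obtain ⟨β, hβ, h6⟩ := exists_cob ctx (hD1.trans (by norm_num))
    (det_detD hM hN hc hc' (hD1.trans (by norm_num)))
  obtain ⟨κ, hg, hκ, hκ'⟩ := exists_gen hM hβ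
  have hK : ‖κ‖ ≤ 10 ^ 7 * ε := by linarith
  obtain ⟨U, hU, hU1, hU2⟩ := hg.exists_sym
  have hU3 : ‖U - 1‖ ≤ 10 ^ 7 * ε := hU1.trans hK
  refine ⟨U, hU, hU3, ?_⟩
  have hU4 : ‖U - 1 + Complex.I • κ‖ ≤ (10 ^ 7 * ε) ^ 2 / 2 := hU2.trans (by gcongr)
  have h := ep_of_diag (hM.conj hU) hN (D := 1 / 100) (ω := ω + 4 * (10 ^ 7 * ε))
    (by norm_num) le_rfl ((hc.conj_left hU.mem).mono (by linarith))
    ((hω.conj hU.mem).mono (by linarith)) (by positivity) (by positivity)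
    fun w hw n hn y hy un uy => diag_test ctx hg hK (by linarith) hκ' h6 hU hU4 hn un hy uy hw
  refine h.mono ?_
  have a1 : (ω + 10 ^ 7 * ε) ^ 2 ≤ 2 * ω ^ 2 + 2 * 10 ^ 14 * ε ^ 2 := by
    nlinarith [sq_nonneg (ω - 10 ^ 7 * ε)]
  have a2 : (ω + 4 * (10 ^ 7 * ε)) ^ 2 ≤ 2 * ω ^ 2 + 32 * 10 ^ 14 * ε ^ 2 := by
    nlinarith [sq_nonneg (ω - 4 * (10 ^ 7 * ε))]
  linarith

end Crest.Agent.R078T
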