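import Crest.Agent.R078T.Lifts

/-! Row 78, tracial stage: telescoping. -/

set_option autoImplicit false

open scoped InnerProductSpace ComplexConjugate

namespace Crest.Agent.R078T

open Crest.Agent.R121 (Mn Bd)

variable {H : Type*} [NormedAddCommGroup H] [InnerProductSpace ℂ H] [CompleteSpace H]
variable {B : Base H} {M N : VonNeumannAlgebra H}
variable {β : (H →L[ℂ] H) → (H →L[ℂ] H)} {δ O c : ℝ}

/-- Admissible test operators. -/
structure Base.Tst (B : Base H) (M : VonNeumannAlgebra H) (T : H →L[ℂ] H) (δ c : ℝ) : Prop where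
  norm_le : ‖T‖ ≤ δ
  cz : B.CZ T
  ws : B.WS M T c

lemma Tel_qf_sum {ι : Type*} [Fintype ι] (T : ι → (H →L[ℂ] H)) (ζ : H) :
    qf (∑ i, T i) ζ = ∑ i, qf (T i) ζ := by
  simp [qf, ContinuousLinearMap.sum_apply, inner_sum, Complex.re_sum]

lemma Tel_qf_kraus {ι : Type*} [Fintype ι] (r T : ι → (H →L[ℂ] H)) (ζ : H) :
    qf (∑ i, star (r i) * T i * r i) ζ = ∑ i, qf (T i) (r i ζ) := by
  rw [Tel_qf_sum]
  simp only [qf_conj]

lemma Tel_norm_sq {ι : Type*} [Fintype ι] {r : ι → (H →L[ℂ] H)}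
    (hs : ∑ i, star (r i) * r i = 1) (ζ : H) : ∑ i, ‖r i ζ‖ ^ 2 = ‖ζ‖ ^ 2 := by
  have h := Tel_qf_kraus r (fun _ => 1) ζ
  simp only [mul_one, hs, qf_one] at h
  exact h.symm

lemma Tel_qf_cz {ι : Type*} [Fintype ι] {r : ι → (H →L[ℂ] H)} (hr : ∀ i, r i ∈ B.Z)
    (hs : ∑ i, star (r i) * r i = 1) {S : H →L[ℂ] H} (hS : B.CZ S) (ζ : H) :
    ∑ i, qf S (r i ζ) = qf S ζ := by
  rw [← Tel_qf_kraus r (fun _ => S) ζ]
  congr 1
  have e : ∀ i, star (r i) * S * r i = S * (star (r i) * r i) := fun i => by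
    rw [hS _ (star_mem (hr i)), mul_assoc]
  simp only [e, ← Finset.mul_sum, hs, mul_one]

lemma Tel_inner_kraus {ι : Type*} [Fintype ι] (r T : ι → (H →L[ℂ] H)) (η ζ : H) :
    ⟪η, (∑ i, star (r i) * T i * r i) ζ⟫_ℂ = ∑ i, ⟪r i η, T i (r i ζ)⟫_ℂ := by
  simp only [ContinuousLinearMap.sum_apply, inner_sum, mul_apply_eq_comp, inner_star_right]

/-- `‖⟪η, T ζ⟫‖ ≤ δ ∑ ‖r j η‖ ‖r j ζ‖` and Cauchy–Schwarz with `∑ ‖r j ζ‖² = ‖ζ‖²`. -/
theorem Base.Tst.kraus (hM : B.Good M) {ι : Type*} [Fintype ι] {r T : ι → (H →L[ℂ] H)}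
    (hr : ∀ i, r i ∈ B.Z) (hs : ∑ i, star (r i) * r i = 1) (hδ : 0 ≤ δ)
    (hT : ∀ i, B.Tst M (T i) δ c) : B.Tst M (∑ i, star (r i) * T i * r i) δ c := by
  refine ⟨norm_le_of_inner hδ fun η ζ => ?_, fun z hz => ?_, fun a ha b hb v hv => ?_⟩
  · rw [Tel_inner_kraus]
    refine (norm_sum_le _ _).trans ?_
    have h1 : ∑ i, ‖⟪r i η, T i (r i ζ)⟫_ℂ‖ ≤ ∑ i, δ * (‖r i η‖ * ‖r i ζ‖) :=
      Finset.sum_le_sum fun i _ => (norm_inner_op_le _ _ _).trans <| by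
        rw [mul_assoc]
        exact mul_le_mul_of_nonneg_right (hT i).norm_le (by positivity)
    refine h1.trans ?_
    rw [← Finset.mul_sum, mul_assoc]
    refine mul_le_mul_of_nonneg_left ?_ hδ
    have h2 := Finset.sum_mul_sq_le_sq_mul_sq Finset.univ (fun i => ‖r i η‖) (fun i => ‖r i ζ‖)
    rw [Tel_norm_sq hs, Tel_norm_sq hs, ← mul_pow] at h2
    exact abs_le_of_sq_le_sq' h2 (by positivity) |>.2
  · rw [Finset.mul_sum, Finset.sum_mul]
    exact Finset.sum_congr rfl fun i _ =>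
      (((hM.cz (hM.Z_mem _ (hr i))).star.mul (hT i).cz).mul (hM.cz (hM.Z_mem _ (hr i)))) z hz
  · rw [Tel_inner_kraus]
    refine (norm_sum_le _ _).trans ?_
    rw [← Tel_norm_sq hs v, Finset.mul_sum]
    refine Finset.sum_le_sum fun i _ => ?_
    rw [← (hM.cz ha).apply (hr i), ← (hM.cz hb).apply (hr i)]
    exact (hT i).ws a ha b hb _ (Base.Z_apply_mem_V (hr i) hv)

lemma Tel_add {S T : H →L[ℂ] H} {δ' c' : ℝ} (hS : B.Tst M S δ c) (hT : B.Tst M T δ' c') :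
    B.Tst M (S + T) (δ + δ') (c + c') := by
  refine ⟨(norm_add_le _ _).trans (add_le_add hS.norm_le hT.norm_le), hS.cz.add hT.cz,
    fun a ha b hb v hv => ?_⟩
  rw [ContinuousLinearMap.add_apply, inner_add_right]
  refine (norm_add_le _ _).trans ?_
  have h1 := hS.ws a ha b hb v hv
  have h2 := hT.ws a ha b hb v hv
  linarith

lemma Tel_smul {T : H →L[ℂ] H} (hT : B.Tst M T δ c) (t : ℂ) :
    B.Tst M (t • T) (‖t‖ * δ) (‖t‖ * c) := by
  refine ⟨?_, hT.cz.smul t, fun a ha b hb v hv => ?_⟩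
  · rw [norm_smul]
    exact mul_le_mul_of_nonneg_left hT.norm_le (norm_nonneg _)
  · rw [ContinuousLinearMap.smul_apply, inner_smul_right, norm_mul]
    have h1 := mul_le_mul_of_nonneg_left (hT.ws a ha b hb v hv) (norm_nonneg t)
    linarith

lemma Tel_neg {T : H →L[ℂ] H} (hT : B.Tst M T δ c) : B.Tst M (-T) δ c := by
  simpa using Tel_smul hT (-1)

lemma Tel_zero : B.Tst M 0 0 0 :=
  ⟨by simp, fun z _ => by simp, fun a _ b _ v _ => by simp⟩

lemma Tel_conj (hM : B.Good M) {s y : H →L[ℂ] H} (hs : B.Tst M s δ c) (hy : y ∈ M)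
    (uy : y ∈ unitary _) : B.Tst M (star (B.R y) * s * B.R y) δ c := by
  refine ⟨(Base.norm_conj_le (B.R_unitary uy)).trans hs.norm_le,
    ((hM.cz_R (hM.cz hy)).star.mul hs.cz).mul (hM.cz_R (hM.cz hy)), fun a ha b hb v hv => ?_⟩
  rw [mul_apply_eq_comp, mul_apply_eq_comp, inner_star_right, ← hM.apply_apply_V ha hy hv,
    ← hM.apply_apply_V hb hy hv]
  have h := hs.ws _ (mul_mem ha hy) _ (mul_mem hb hy) v hv
  rwa [CStarRing.norm_mul_mem_unitary _ uy, CStarRing.norm_mul_mem_unitary _ uy] at h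

/-- `left` for `x * (a y)`, `right` for `a * y`, `T = -((R y)⋆ s_x R y + s'_y)`;
`a y w = R y (a w)`. -/
theorem tel_base (hM : B.Good M) (hβ : B.Cob M β δ O c) {x y : H →L[ℂ] H} (hx : x ∈ M)
    (hy : y ∈ M) (ux : x ∈ unitary _) (uy : y ∈ unitary _) :
    ∃ T, B.Tst M T (2 * δ) (2 * c) ∧ ∀ a ∈ M, ∀ b ∈ M, a ∈ unitary _ → b ∈ unitary _ → ∀ w ∈ B.V,
      qf (β a) w - qf (β b) w - (qf T (a w) - qf T (b w)) - 4 * O * ‖w‖ ^ 2 ≤
        qf (β (x * a * y)) w - qf (β (x * b * y)) w := by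
  obtain ⟨s, hs1, hs2, hs3, hs⟩ := hβ.left x hx ux
  obtain ⟨s', hs1', hs2', hs3', hs'⟩ := hβ.right y hy uy
  refine ⟨-(star (B.R y) * s * B.R y + s'), ?_, fun a ha b hb ua ub w hw => ?_⟩
  · rw [two_mul, two_mul]
    exact Tel_neg (Tel_add (Tel_conj hM ⟨hs1, hs2, hs3⟩ hy uy) ⟨hs1', hs2', hs3'⟩)
  · have h1 := abs_le.1 (hs _ (mul_mem ha hy) (mul_mem ua uy) w hw)
    have h2 := abs_le.1 (hs _ (mul_mem hb hy) (mul_mem ub uy) w hw)
    have h3 := abs_le.1 (hs' a ha ua w hw)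
    have h4 := abs_le.1 (hs' b hb ub w hw)
    rw [mul_apply_eq_comp, hM.apply_apply_V ha hy hw] at h1
    rw [mul_apply_eq_comp, hM.apply_apply_V hb hy hw] at h2
    simp only [qf_neg, qf_add, qf_conj, mul_assoc x]
    linarith [h1.1, h2.2, h3.1, h4.2]

/-- One step of the random walk. -/
noncomputable def TelP {ι : Type*} [Fintype ι] (r a : ι → (H →L[ℂ] H))
    (F : (H →L[ℂ] H) → H → ℝ) : (H →L[ℂ] H) → H → ℝ := fun x w => ∑ i, F (x * a i) (r i w)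

/-- The drift. -/
noncomputable def TelD {ι : Type*} [Fintype ι] (β : (H →L[ℂ] H) → (H →L[ℂ] H))
    (r a b : ι → (H →L[ℂ] H)) (w : H) : ℝ := ∑ i, (qf (β (a i)) (r i w) - qf (β (b i)) (r i w))

/-- The error. -/
noncomputable def TelR {ι : Type*} [Fintype ι] (r a b : ι → (H →L[ℂ] H)) (T : H →L[ℂ] H)
    (w : H) : ℝ := ∑ i, (qf T (a i (r i w)) - qf T (b i (r i w)))

lemma TelD_sum (hM : B.Good M) (hβ : B.Cob M β δ O c)
    {ι : Type*} [Fintype ι] {r a b : ι → (H →L[ℂ] H)} (hr : ∀ i, r i ∈ B.Z)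
    (hs : ∑ i, star (r i) * r i = 1) (ha : ∀ i, a i ∈ M ∧ a i ∈ unitary _)
    (hb : ∀ i, b i ∈ M ∧ b i ∈ unitary _) (w : H) :
    ∑ j, TelD β r a b (r j w) = TelD β r a b w := by
  unfold TelD
  rw [Finset.sum_comm]
  refine Finset.sum_congr rfl fun i _ => ?_
  have e : ∀ j, r i (r j w) = r j (r i w) := fun j => (hM.cz (hM.Z_mem _ (hr i))).apply (hr j) w
  simp only [e, Finset.sum_sub_distrib, Tel_qf_cz hr hs (hβ.cz _ (ha i).1 (ha i).2),
    Tel_qf_cz hr hs (hβ.cz _ (hb i).1 (hb i).2)]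

lemma TelR_sum (hM : B.Good M) {ι : Type*} [Fintype ι] {r a b : ι → (H →L[ℂ] H)}
    (hr : ∀ i, r i ∈ B.Z) (ha : ∀ i, a i ∈ M ∧ a i ∈ unitary _)
    (hb : ∀ i, b i ∈ M ∧ b i ∈ unitary _) (T : ι → (H →L[ℂ] H)) (w : H) :
    ∑ j, TelR r a b (T j) (r j w) = TelR r a b (∑ j, star (r j) * T j * r j) w := by
  unfold TelR
  rw [Finset.sum_comm]
  refine Finset.sum_congr rfl fun i _ => ?_
  have e : ∀ j, r i (r j w) = r j (r i w) := fun j => (hM.cz (hM.Z_mem _ (hr i))).apply (hr j) w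
  have ea : ∀ j ζ, a i (r j ζ) = r j (a i ζ) := fun j ζ => (hM.cz (ha i).1).apply (hr j) ζ
  have eb : ∀ j ζ, b i (r j ζ) = r j (b i ζ) := fun j ζ => (hM.cz (hb i).1).apply (hr j) ζ
  rw [Tel_qf_kraus, Tel_qf_kraus, ← Finset.sum_sub_distrib]
  refine Finset.sum_congr rfl fun j _ => ?_
  rw [e j, ea j, eb j]

lemma TelR_add {ι : Type*} [Fintype ι] (r a b : ι → (H →L[ℂ] H)) (S T : H →L[ℂ] H) (w : H) :
    TelR r a b (S + T) w = TelR r a b S w + TelR r a b T w := by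
  unfold TelR
  rw [← Finset.sum_add_distrib]
  exact Finset.sum_congr rfl fun i _ => by rw [qf_add, qf_add]; ring

lemma TelR_smul {ι : Type*} [Fintype ι] (r a b : ι → (H →L[ℂ] H)) (t : ℝ) (T : H →L[ℂ] H)
    (w : H) : TelR r a b ((t : ℂ) • T) w = t * TelR r a b T w := by
  unfold TelR
  rw [Finset.mul_sum]
  exact Finset.sum_congr rfl fun i _ => by rw [qf_smul, qf_smul]; ring

lemma Tel_delta_nonneg (hβ : B.Cob M β δ O c) : 0 ≤ δ := by
  obtain ⟨s, hs, -⟩ := hβ.left 1 (one_mem M) (one_mem _)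
  exact (norm_nonneg s).trans hs

lemma TelP_bound (hβ : B.Cob M β δ O c)
    {ι : Type*} [Fintype ι] {r a : ι → (H →L[ℂ] H)}
    (hs : ∑ i, star (r i) * r i = 1) (ha : ∀ i, a i ∈ M ∧ a i ∈ unitary _) (k : ℕ) :
    ∀ x ∈ M, x ∈ unitary _ → ∀ w : H,
      |(TelP r a)^[k] (fun x w => qf (β x) w) x w| ≤ 14 * ‖w‖ ^ 2 := by
  induction k with
  | zero =>
    intro x hx ux w
    exact (abs_qf_le _ _).trans (mul_le_mul_of_nonneg_right (hβ.norm_le x hx ux) (sq_nonneg _))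
  | succ k ih =>
    intro x hx ux w
    rw [Function.iterate_succ_apply', TelP, ← Tel_norm_sq hs w, Finset.mul_sum]
    exact (Finset.abs_sum_le_sum_abs _ _).trans (Finset.sum_le_sum fun i _ =>
      ih _ (mul_mem hx (ha i).1) (mul_mem ux (ha i).2) _)

lemma Tel_Q (hM : B.Good M) (hβ : B.Cob M β δ O c)
    {ι : Type*} [Fintype ι] {r a b : ι → (H →L[ℂ] H)} (hr : ∀ i, r i ∈ B.Z)
    (hs : ∑ i, star (r i) * r i = 1) (ha : ∀ i, a i ∈ M ∧ a i ∈ unitary _)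
    (hb : ∀ i, b i ∈ M ∧ b i ∈ unitary _) (k : ℕ) :
    ∀ x ∈ M, x ∈ unitary _ → ∀ y ∈ M, y ∈ unitary _ → ∃ T, B.Tst M T (2 * δ) (2 * c) ∧
      ∀ w ∈ B.V, TelD β r a b w - TelR r a b T w - 4 * O * ‖w‖ ^ 2 ≤
        ∑ i, ((TelP r b)^[k] (fun x w => qf (β x) w) (x * a i * y) (r i w) -
          (TelP r b)^[k] (fun x w => qf (β x) w) (x * b i * y) (r i w)) := by
  induction k with
  | zero =>
    intro x hx ux y hy uy
    obtain ⟨T, hT, h⟩ := tel_base hM hβ hx hy ux uy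
    refine ⟨T, hT, fun w hw => ?_⟩
    rw [← Tel_norm_sq hs w, TelD, TelR, Finset.mul_sum, ← Finset.sum_sub_distrib,
      ← Finset.sum_sub_distrib]
    exact Finset.sum_le_sum fun i _ =>
      h _ (ha i).1 _ (hb i).1 (ha i).2 (hb i).2 _ (Base.Z_apply_mem_V (hr i) hw)
  | succ k ih =>
    intro x hx ux y hy uy
    choose T hT h using fun j => ih x hx ux (y * b j) (mul_mem hy (hb j).1) (mul_mem uy (hb j).2)
    refine ⟨_, Base.Tst.kraus hM hr hs (by have := Tel_delta_nonneg hβ; positivity) hT,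
      fun w hw => ?_⟩
    rw [← TelD_sum hM hβ hr hs ha hb w, ← TelR_sum hM hr ha hb T w, ← Tel_norm_sq hs w,
      Finset.mul_sum, ← Finset.sum_sub_distrib, ← Finset.sum_sub_distrib]
    refine (Finset.sum_le_sum fun j _ => h j _ (Base.Z_apply_mem_V (hr j) hw)).trans_eq ?_
    rw [Finset.sum_comm]
    refine Finset.sum_congr rfl fun i _ => ?_
    have e : ∀ j, r i (r j w) = r j (r i w) := fun j => (hM.cz (hM.Z_mem _ (hr i))).apply (hr j) w
    simp only [Function.iterate_succ_apply', TelP, ← Finset.sum_sub_distrib, e, mul_assoc]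

lemma Tel_R (hM : B.Good M) (hβ : B.Cob M β δ O c)
    {ι : Type*} [Fintype ι] {r a b : ι → (H →L[ℂ] H)} (hr : ∀ i, r i ∈ B.Z)
    (hs : ∑ i, star (r i) * r i = 1) (ha : ∀ i, a i ∈ M ∧ a i ∈ unitary _)
    (hb : ∀ i, b i ∈ M ∧ b i ∈ unitary _) (k : ℕ) :
    ∀ x ∈ M, x ∈ unitary _ → ∃ T, B.Tst M T (k * (2 * δ)) (k * (2 * c)) ∧
      ∀ w ∈ B.V, k * TelD β r a b w - TelR r a b T w - k * (4 * O * ‖w‖ ^ 2) ≤
        (TelP r a)^[k] (fun x w => qf (β x) w) x w -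
          (TelP r b)^[k] (fun x w => qf (β x) w) x w := by
  induction k with
  | zero =>
    intro x _ _
    refine ⟨0, by simpa using Tel_zero, fun w _ => ?_⟩
    simp [TelR, qf]
  | succ k ih =>
    intro x hx ux
    choose T hT h using fun j => ih (x * a j) (mul_mem hx (ha j).1) (mul_mem ux (ha j).2)
    obtain ⟨T', hT', h'⟩ := Tel_Q hM hβ hr hs ha hb k x hx ux 1 (one_mem M) (one_mem _)
    have hK := Base.Tst.kraus hM hr hs (by have := Tel_delta_nonneg hβ; positivity) hT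
    refine ⟨_ + T', by simpa only [Nat.cast_succ, add_mul, one_mul] using Tel_add hK hT',
      fun w hw => ?_⟩
    have h1 := Finset.sum_le_sum fun j (_ : j ∈ Finset.univ) =>
      h j _ (Base.Z_apply_mem_V (hr j) hw)
    rw [Finset.sum_sub_distrib, Finset.sum_sub_distrib, ← Finset.mul_sum, ← Finset.mul_sum,
      ← Finset.mul_sum, TelD_sum hM hβ hr hs ha hb w, TelR_sum hM hr ha hb T w,
      Tel_norm_sq hs w, Finset.sum_sub_distrib] at h1
    have h2 := h' w hw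
    simp only [mul_one, Finset.sum_sub_distrib] at h2
    rw [Function.iterate_succ_apply', Function.iterate_succ_apply', TelP, TelP, TelR_add]
    push_cast
    linarith

/-- For `F : op → H → ℝ` let `(P F) x w = ∑ i, F (x a i) (r i w)`,
`(Q F) x w = ∑ i, F (x b i) (r i w)`, `F₀ x w = qf (β x) w`, `d w` the left side and `ρ T w` the
first sum on the right. `∑ j, d (r j w) = d w` (`Cob.cz`, `r i r j = r j r i`) and
`∑ j, ρ (T j) (r j w) = ρ (∑ j, (r j)⋆ T j r j) w`.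
(Q) for `F = Q^[k] F₀`: `∀ x y, ∃ T, Tst T (2 δ) (2 c) ∧ ∀ w ∈ V,
d w - ρ T w - 4 O ‖w‖² ≤ ∑ i, (F (x a i y) (r i w) - F (x b i y) (r i w))`; `k = 0` is `tel_base`;
induction with `y := y b j`, `w := r j w`, `T = ∑ j, (r j)⋆ T j (r j)` (`kraus`).
(R) `∀ x, ∃ T, Tst T (2 k δ) (2 k c) ∧ ∀ w ∈ V,
k d w - ρ T w - 4 k O ‖w‖² ≤ P^[k] F₀ x w - Q^[k] F₀ x w`, since
`P^[k+1] - Q^[k+1] = P (P^[k] - Q^[k]) + (P - Q) Q^[k]` ((Q) with `y = 1`). Both iterates are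
bounded by `14 ‖w‖²`; divide by `k` large. -/
theorem tel (hM : B.Good M) (hβ : B.Cob M β δ O c)
    {ι : Type*} [Fintype ι] {r a b : ι → (H →L[ℂ] H)} (hr : ∀ i, r i ∈ B.Z)
    (hs : ∑ i, star (r i) * r i = 1) (ha : ∀ i, a i ∈ M ∧ a i ∈ unitary _)
    (hb : ∀ i, b i ∈ M ∧ b i ∈ unitary _) {w : H} (hw : w ∈ B.V) {ε : ℝ} (hε : 0 < ε) :
    ∃ T, B.Tst M T (2 * δ) (2 * c) ∧
      ∑ i, (qf (β (a i)) (r i w) - qf (β (b i)) (r i w)) ≤
        ∑ i, (qf T (a i (r i w)) - qf T (b i (r i w))) + 4 * O * ‖w‖ ^ 2 + ε := by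
  obtain ⟨k, hk⟩ := exists_nat_gt (28 * ‖w‖ ^ 2 / ε)
  have hk0 : (0 : ℝ) < k := lt_of_le_of_lt (by positivity) hk
  obtain ⟨T, hT, h⟩ := Tel_R hM hβ hr hs ha hb k 1 (one_mem M) (one_mem _)
  have h1 := abs_le.1 (TelP_bound hβ hs ha k 1 (one_mem M) (one_mem _) w)
  have h2 := abs_le.1 (TelP_bound hβ hs hb k 1 (one_mem M) (one_mem _) w)
  have h3 := h w hw
  refine ⟨(((k : ℝ)⁻¹ : ℝ) : ℂ) • T, ?_, ?_⟩
  · have h4 := Tel_smul hT (((k : ℝ)⁻¹ : ℝ) : ℂ)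
    rwa [Complex.norm_real, Real.norm_of_nonneg (inv_nonneg.2 hk0.le),
      inv_mul_cancel_left₀ hk0.ne', inv_mul_cancel_left₀ hk0.ne'] at h4
  · change TelD β r a b w ≤ TelR r a b _ w + 4 * O * ‖w‖ ^ 2 + ε
    rw [TelR_smul]
    rw [div_lt_iff₀ hε] at hk
    refine le_of_mul_le_mul_left ?_ hk0
    rw [mul_add, mul_add, mul_inv_cancel_left₀ hk0.ne']
    linarith [h1.2, h2.1]

end Crest.Agent.R078T
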