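import Crest.Agent.R078T.Dyadic
import Crest.Agent.R121.Compare

/-! Row 78, tracial stage: close projections have the same trace. -/

set_option autoImplicit false

open scoped InnerProductSpace ComplexConjugate

namespace Crest.Agent.R078T

open Crest.Agent.R121 (Mn Bd)

variable {H : Type*} [NormedAddCommGroup H] [InnerProductSpace ℂ H] [CompleteSpace H]
variable {B : Base H} {M N : VonNeumannAlgebra H}

lemma trEq_qf_star_mul (x : H →L[ℂ] H) (w : H) : qf (star x * x) w = ‖x w‖ ^ 2 := by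
  have := qf_conj x 1 w
  rwa [mul_one, qf_one] at this

lemma trEq_qf_proj {e : H →L[ℂ] H} (he : IsStarProjection e) (w : H) : qf e w = ‖e w‖ ^ 2 := by
  rw [← trEq_qf_star_mul, he.isSelfAdjoint.star_eq, he.isIdempotentElem.eq]

omit [CompleteSpace H] in
lemma trEq_apply_le {T : H →L[ℂ] H} {c : ℝ} (h : ‖T‖ ≤ c) (ζ : H) : ‖T ζ‖ ≤ c * ‖ζ‖ :=
  (T.le_opNorm ζ).trans (mul_le_mul_of_nonneg_right h (norm_nonneg _))

lemma trEq_norm_le {s e : H →L[ℂ] H} (he : IsStarProjection e) (h : star s * s = e) :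
    ‖s‖ ≤ 1 := by
  have h1 : ‖s‖ * ‖s‖ ≤ 1 := by
    rw [← CStarRing.norm_star_mul_self, h]
    exact he.norm_le
  nlinarith [norm_nonneg s]

/-- `R121.exists_compare (R124.isVN_subtype M)` gives a partial isometry `s` with `s e = s`,
`p s = s`, `(p - s s⋆) a (e - s⋆ s) = 0`. Let `d` be the central cover of `f = e - s⋆ s`
(`Baer.central_cover`), `d ∈ Z`, `(p - s s⋆) d = 0`. With `w = d ξ`:
`qf e w ≤ qf p w = qf (s s⋆) w = qf (s⋆ s) w`, so `‖f d ξ‖² ≤ 0`, `f = f d = 0` (`sep`). -/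
theorem exists_piso (hM : B.Good M) {e p : H →L[ℂ] H} (he : e ∈ M) (hp : p ∈ M)
    (he' : IsStarProjection e) (hp' : IsStarProjection p) (h : ∀ w ∈ B.V, qf e w ≤ qf p w) :
    ∃ s ∈ M, star s * s = e ∧ p * s = s := by
  obtain ⟨s, hs, hse, hps, hcmp⟩ := @Crest.Agent.R121.exists_compare M.toStarSubalgebra _
    (CStarAlgebra.spectralOrder _) (CStarAlgebra.spectralOrderedRing _) H _ _ _ _
    (Crest.Agent.R124.isVN_subtype M) ⟨e, he⟩ ⟨p, hp⟩
    ⟨Subtype.ext he'.isIdempotentElem.eq, Subtype.ext he'.isSelfAdjoint.star_eq⟩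
    ⟨Subtype.ext hp'.isIdempotentElem.eq, Subtype.ext hp'.isSelfAdjoint.star_eq⟩
  obtain ⟨d, -, hdc, hdf, hdz⟩ := (Crest.Agent.R124.isVN_subtype M).baer.central_cover
    (⟨e, he⟩ - star s * s)
  have hz := hdz _ hcmp
  have hproj : IsStarProjection (star (s : H →L[ℂ] H) * s) :=
    ⟨congrArg Subtype.val hs.proj.isIdempotentElem.eq,
      congrArg Subtype.val hs.proj.isSelfAdjoint.star_eq⟩
  obtain ⟨s, hsM⟩ := s
  obtain ⟨d, hdM⟩ := d
  have hsM' : s ∈ M := hsM
  have hdM' : d ∈ M := hdM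
  have h1 : s * e = s := congrArg Subtype.val hse
  have h2 : p * s = s := congrArg Subtype.val hps
  have h3 : d * (e - star s * s) = e - star s * s := congrArg Subtype.val hdf
  have h4 : (p - s * star s) * d = 0 := congrArg Subtype.val hz
  have hproj' : IsStarProjection (star s * s) := hproj
  have hdZ : d ∈ B.Z := hM.mem_Z hdM' fun y hy => (congrArg Subtype.val (hdc ⟨y, hy⟩)).symm
  have hw : d B.ξ ∈ B.V := ⟨d, hdZ, rfl⟩
  have hfM : e - star s * s ∈ M := sub_mem he (mul_mem (star_mem hsM') hsM')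
  have h5 : star s * s * e = star s * s := by rw [mul_assoc, h1]
  have hf : IsStarProjection (e - star s * s) := hproj'.sub_of_mul_eq_left he' h5
  have h6 : p (d B.ξ) = (s * star s) (d B.ξ) := by
    have := congrArg (fun T : H →L[ℂ] H => T B.ξ) h4
    simpa [sub_eq_zero] using this
  have h7 : qf p (d B.ξ) = qf (star s * s) (d B.ξ) := by
    have e1 : qf p (d B.ξ) = qf (star (star s) * star s) (d B.ξ) := by
      rw [star_star]
      unfold qf
      rw [h6]
    rw [e1, trEq_qf_star_mul, trEq_qf_star_mul, hM.norm_star_V hsM' hw]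
  have h8 : ‖(e - star s * s) (d B.ξ)‖ ^ 2 ≤ 0 := by
    rw [← trEq_qf_proj hf, qf_sub, ← h7]
    linarith [h _ hw]
  have h9 : (e - star s * s) B.ξ = 0 := by
    have e1 : (e - star s * s) (d B.ξ) = 0 := by
      have := le_antisymm h8 (sq_nonneg _)
      simpa using this
    rw [← h3, hM.Z_comm d hdZ _ hfM]
    exact e1
  exact ⟨s, hsM', (sub_eq_zero.1 (hM.sep hfM h9)).symm, h2⟩

/-- If `v₀ = v₀ e = q v₀` and `‖v₀ ζ‖ ≥ ‖e ζ‖ / 2`, then `a = v₀⋆ v₀ + (1 - e) ≥ 1 / 4` commutes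
with `e`, `v = v₀ a^(-1/2)` has `v⋆ v = e`, `q v = v`, so
`qf e w = ‖v w‖² = ‖v⋆ w‖² = ‖v⋆ q w‖² ≤ ‖q w‖²` (`norm_star_V`). -/
theorem trace_le_of_inj (hN : B.Good N) {e q v₀ : H →L[ℂ] H} (he : e ∈ N) (hv : v₀ ∈ N)
    (he' : IsStarProjection e) (hq' : IsStarProjection q) (h1 : v₀ * e = v₀) (h2 : q * v₀ = v₀)
    (h3 : ∀ ζ, ‖e ζ‖ / 2 ≤ ‖v₀ ζ‖) {w : H} (hw : w ∈ B.V) : qf e w ≤ qf q w := by
  set a : H →L[ℂ] H := star v₀ * v₀ + (1 - e) with ha
  have haN : a ∈ N := add_mem (mul_mem (star_mem hv) hv) (sub_mem (one_mem N) he)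
  have hsa : IsSelfAdjoint a := (IsSelfAdjoint.star_mul_self v₀).add he'.one_sub.isSelfAdjoint
  have hlow : algebraMap ℝ (H →L[ℂ] H) (1 / 4) ≤ a := by
    rw [ContinuousLinearMap.le_def, ContinuousLinearMap.isPositive_def']
    refine ⟨hsa.sub (IsSelfAdjoint.algebraMap _ (IsSelfAdjoint.all _)), fun ζ => ?_⟩
    have e1 : (a - algebraMap ℝ (H →L[ℂ] H) (1 / 4)).reApplyInnerSelf ζ =
        qf (a - ((1 / 4 : ℝ) : ℂ) • 1) ζ := by
      rw [ContinuousLinearMap.reApplyInnerSelf, inner_re_symm, Algebra.algebraMap_eq_smul_one]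
      rfl
    rw [e1, qf_sub, qf_smul, qf_one, ha, qf_add, trEq_qf_star_mul, qf_sub, qf_one, trEq_qf_proj he']
    have h4 := h3 ζ
    have h5 : ‖e ζ‖ ≤ ‖ζ‖ := by simpa using trEq_apply_le he'.norm_le ζ
    nlinarith [norm_nonneg (e ζ), norm_nonneg ζ]
  have hspec : ∀ x ∈ spectrum ℝ a, 1 / 4 ≤ x := (algebraMap_le_iff_le_spectrum hsa).1 hlow
  set f : ℝ → ℝ := fun s => (√(max s (1 / 4)))⁻¹ with hf
  have hfc : Continuous f := Crest.Agent.R124.baerlH_cont (by norm_num)
  set g : H →L[ℂ] H := cfc f a with hg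
  have hgN : g ∈ N := vn_cfc_real_mem haN f
  have hgs : IsSelfAdjoint g := cfc_predicate f a
  have hgag : g * a * g = 1 := by
    have e1 : g * a * g = cfc (fun s => f s * s * f s) a := by
      rw [cfc_mul (fun s => f s * s) f a (hfc.mul continuous_id).continuousOn hfc.continuousOn,
        cfc_mul f (fun s => s) a hfc.continuousOn continuous_id.continuousOn, cfc_id' ℝ a hsa]
    rw [e1, ← cfc_one ℝ a hsa]
    refine cfc_congr fun x hx => ?_
    have h4 := hspec x hx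
    have h5 : f x * f x = (max x (1 / 4))⁻¹ := Crest.Agent.R124.baerlH_sq (by norm_num) x
    rw [max_eq_left h4] at h5
    have h6 : x ≠ 0 := by linarith
    calc f x * x * f x = f x * f x * x := by ring
      _ = 1 := by rw [h5, inv_mul_cancel₀ h6]
  have hee : e * e = e := he'.isIdempotentElem.eq
  have hae : a * e = star v₀ * v₀ := by
    rw [ha, add_mul, mul_assoc, h1, sub_mul, one_mul, hee, sub_self, add_zero]
  have hea : e * a = star v₀ * v₀ := by
    have := congrArg star hae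
    rwa [star_mul, he'.isSelfAdjoint.star_eq, hsa.star_eq, star_mul, star_star] at this
  have heg : e * g = g * e := (Commute.cfc_real (hae.trans hea.symm : Commute a e) f).symm.eq
  have hvN : v₀ * g ∈ N := mul_mem hv hgN
  have hvv : star (v₀ * g) * (v₀ * g) = e := by
    calc star (v₀ * g) * (v₀ * g) = g * (star v₀ * v₀) * g := by
          rw [star_mul, hgs.star_eq]
          simp only [mul_assoc]
      _ = g * a * g * e := by rw [← hae, mul_assoc, mul_assoc, heg]; simp only [mul_assoc]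
      _ = e := by rw [hgag, one_mul]
  have hvq : star (v₀ * g) * q = star (v₀ * g) := by
    have : q * (v₀ * g) = v₀ * g := by rw [← mul_assoc, h2]
    have := congrArg star this
    rwa [star_mul, hq'.isSelfAdjoint.star_eq] at this
  have hn : ‖star (v₀ * g)‖ ≤ 1 := by rw [norm_star]; exact trEq_norm_le he' hvv
  have h4 : ‖star (v₀ * g) w‖ ≤ ‖q w‖ := by
    rw [← hvq]
    simpa using trEq_apply_le hn (q w)
  rw [← hvv, trEq_qf_star_mul, ← hN.norm_star_V hvN hw, trEq_qf_proj hq']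
  exact pow_le_pow_left₀ (norm_nonneg _) h4 2

/-- `c = A p ∈ Z`, `e` from `exists_dyadic`, `s` from `exists_piso`, `s' ∈ N` with
`‖s - s'‖ ≤ D`, `v₀ = q s' e`; let `k → ∞`. -/
theorem trace_le (hM : B.Good M) (hN : B.Good N) {D : ℝ} (hc : Close M N D) (hD : D ≤ 1 / 4)
    {p q : H →L[ℂ] H} (hp : p ∈ M) (hq : q ∈ N) (hp' : IsStarProjection p)
    (hq' : IsStarProjection q) (h : ‖(1 - q) * p‖ ≤ 1 / 4) {w : H} (hw : w ∈ B.V) :
    qf p w ≤ qf q w := by
  have hcZ : B.A p ∈ B.Z := hM.A_mem_Z hp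
  have hsa : IsSelfAdjoint (B.A p) := by
    rw [IsSelfAdjoint, B.star_A, hp'.isSelfAdjoint.star_eq]
  have hle : ∀ r : H →L[ℂ] H, IsStarProjection r → ∀ ζ, qf (B.A r) ζ ≤ ‖ζ‖ ^ 2 := by
    intro r hr ζ
    refine (le_abs_self _).trans ((abs_qf_le _ ζ).trans ?_)
    exact mul_le_of_le_one_left (sq_nonneg _) ((B.norm_A_le r).trans hr.norm_le)
  have h0 : ∀ ζ, 0 ≤ qf (B.A p) ζ := fun ζ => by
    have := hle _ hp'.one_sub ζ
    rw [B.A_sub, B.A_one, qf_sub, qf_one] at this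
    linarith
  have hcp : ∀ v ∈ B.V, qf (B.A p) v = qf p v := fun v hv => by
    unfold qf
    rw [hM.inner_A_V hp hv hv]
  have key : ∀ k : ℕ, qf p w ≤ qf q w + (1 / 2) ^ k * ‖w‖ ^ 2 := by
    intro k
    obtain ⟨e, heM, heN, he', hev⟩ := exists_dyadic hM hN k hcZ hsa h0 (hle p hp')
    obtain ⟨s, hsM, hss, hps⟩ := exists_piso hM heM hp he' hp' fun v hv =>
      (hev v hv).1.trans_eq (hcp v hv)
    obtain ⟨s', hs'N, hs'⟩ := hc s hsM
    have hs1 := trEq_norm_le he' hss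
    have hs'' : ‖s - s'‖ ≤ 1 / 4 := hs'.trans (by nlinarith [norm_nonneg s])
    have hee : e * e = e := he'.isIdempotentElem.eq
    have hqq : q * q = q := hq'.isIdempotentElem.eq
    have h1 := trace_le_of_inj (v₀ := q * s' * e) hN heN (mul_mem (mul_mem hq hs'N) heN) he' hq'
      (by rw [mul_assoc, hee]) (by rw [← mul_assoc, ← mul_assoc, hqq]) (fun ζ => by
        have e1 : ‖s (e ζ)‖ = ‖e ζ‖ := by
          have := trEq_qf_star_mul s (e ζ)
          rw [hss, trEq_qf_proj he', ← mul_apply_eq_comp, hee] at this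
          exact ((sq_eq_sq₀ (norm_nonneg _) (norm_nonneg _)).1 this).symm
        have e2 : s (e ζ) = (q * s' * e) ζ + q ((s - s') (e ζ)) + ((1 - q) * p) (s (e ζ)) := by
          have : p (s (e ζ)) = s (e ζ) := by rw [← mul_apply_eq_comp p, hps]
          simp [this]
        have e3 : ‖q ((s - s') (e ζ))‖ ≤ 1 / 4 * ‖e ζ‖ :=
          (trEq_apply_le hq'.norm_le _).trans (by simpa using trEq_apply_le hs'' (e ζ))
        have e4 := trEq_apply_le h (s (e ζ))
        have e5 := norm_add₃_le (a := (q * s' * e) ζ) (b := q ((s - s') (e ζ)))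
          (c := ((1 - q) * p) (s (e ζ)))
        rw [← e2] at e5
        linarith) hw
    have h2 := (hev w hw).2
    rw [hcp w hw] at h2
    linarith
  have hlim : Filter.Tendsto (fun k : ℕ => qf q w + (1 / 2 : ℝ) ^ k * ‖w‖ ^ 2) Filter.atTop
      (nhds (qf q w + 0 * ‖w‖ ^ 2)) :=
    ((tendsto_pow_atTop_nhds_zero_of_lt_one (by norm_num) (by norm_num)).mul_const _).const_add _
  simpa using ge_of_tendsto' hlim key

end Crest.Agent.R078T
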